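import Crest.Agent.X326.A.GathTC
import Crest.Agent.X326.TC.Map
import Crest.Agent.X326.TC.Un

/-!
Row 326 (S0503), part M2: the free address operations in the time calculus.

Generic forms (`tc_addIdx`, `tc_mulIdx`, `tc_divIdx`, `tc_revIdx`, `tc_cplIdx`, `tc_negIdx`): weights
and ranges are polynomial-time functions of a descriptor `c`, the budget is
`ovh k n (sz c + size n)`.  Final forms (`tc_opIdx`, `tc_swapSmall`, `tc_padL`, `tc_cutL`,
`tc_rotL`): budget `n * (size n + 1) ^ k`.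
-/

set_option autoImplicit false

namespace Crest.Agent.X326.A

open Crest.Agent.Lib.PT

section ptf

variable {ι : Type} [PTCode ι] {w q j v : ι → ℕ}

@[fun_prop]
theorem ptf_dig (hw : PTF w) (hq : PTF q) (hj : PTF j) : PTF fun x => dig (w x) (q x) (j x) := by
  unfold dig; fun_prop

@[fun_prop]
theorem ptf_setDig (hw : PTF w) (hq : PTF q) (hj : PTF j) (hv : PTF v) :
    PTF fun x => setDig (w x) (q x) (j x) (v x) := by
  unfold setDig; fun_prop

@[fun_prop]
theorem ptf_swapIdx (hq : PTF q) (hw : PTF w) (hv : PTF v) (hj : PTF j) :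
    PTF fun x => swapIdx (q x) (w x) (v x) (j x) := by
  unfold swapIdx; fun_prop

@[fun_prop]
theorem ptf_divN (hq : PTF q) (hw : PTF w) (hj : PTF j) :
    PTF fun x => divN (q x) (w x) (j x) := by
  unfold divN; fun_prop

theorem ptf_coefN {c : ι → ℤ} (hq : PTF q) (hc : PTF c) : PTF fun x => coefN (q x) (c x) := by
  unfold coefN
  exact PTF.ite (PTPred.intLe (PTF.const 0) hc) (by fun_prop) (by fun_prop)

end ptf

section generic

variable {γ : Type} [PTCode γ] {w q b : γ → ℕ}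

/-- addition of an offset with `K` classes -/
theorem tc_addIdx {off c0 : γ → ℕ → ℕ} (hw : PTF w) (hq : PTF q) (hoff : PTF₂ off)
    (hc0 : PTF₂ c0) :
    ∃ k : ℕ, ∀ (K : ℕ) {ι α : Type} [PTCode ι] [PTCode α] {P : ι → Prop} {T : ι → ℕ} {c : ι → γ}
      (d : α) {l : ι → List α}, TC P T c → TC P T l →
      (∀ x, P x → 0 < w (c x) ∧ 0 < q (c x) ∧ w (c x) * q (c x) ∣ (l x).length ∧
        (∀ j, c0 (c x) j < K) ∧
        (∀ j j', c0 (c x) j = c0 (c x) j' → j / (w (c x) * q (c x)) = j' / (w (c x) * q (c x)) →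
          off (c x) j = off (c x) j') ∧
        (∀ j j', j / (w (c x) * q (c x)) = j' / (w (c x) * q (c x)) → j % w (c x) = j' % w (c x) →
          off (c x) j = off (c x) j')) →
      Bud P T (fun x => ovh k (l x).length (sz (c x) + Nat.size (l x).length)) →
      TC P T (fun x => perm d (addIdx (w (c x)) (q (c x)) (off (c x))) (l x)) := by
  have h1 : PTF fun p : γ × ℕ => w p.1 := hw.comp PTF.fst
  have h2 : PTF fun p : γ × ℕ => q p.1 := hq.comp PTF.fst
  have h3 : PTF fun p : γ × ℕ => off p.1 p.2 := hoff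
  have h4 : PTF fun p : γ × ℕ => c0 p.1 p.2 := hc0
  obtain ⟨k, hk⟩ := tc_perm (col := fun c => addCol (w c) (q c) (off c) (c0 c))
    (src := fun c => addIdx (w c) (q c) (off c))
    (by dsimp only [PTF₂, addCol]; fun_prop) (by dsimp only [PTF₂, addIdx]; fun_prop)
  exact ⟨k, fun K {ι α} _ _ {P T c} d {l} hc hl h hB => hk (2 * K) d hc hl (fun x hx =>
    ⟨colMono_addIdx (h x hx).1 (h x hx).2.1 (h x hx).2.2.2.1 (h x hx).2.2.2.2.1,
      idxPerm_addIdx (h x hx).1 (h x hx).2.1 (h x hx).2.2.1 (h x hx).2.2.2.2.2⟩) hB⟩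

/-- addition of an offset that only depends on the earlier fields -/
theorem tc_addIdx_hi {off : γ → ℕ → ℕ} (hw : PTF w) (hq : PTF q) (hoff : PTF₂ off) :
    ∃ k : ℕ, ∀ {ι α : Type} [PTCode ι] [PTCode α] {P : ι → Prop} {T : ι → ℕ} {c : ι → γ}
      (d : α) {l : ι → List α}, TC P T c → TC P T l →
      (∀ x, P x → 0 < w (c x) ∧ 0 < q (c x) ∧ w (c x) * q (c x) ∣ (l x).length ∧
        (∀ j j', j / (w (c x) * q (c x)) = j' / (w (c x) * q (c x)) →
          off (c x) j = off (c x) j')) →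
      Bud P T (fun x => ovh k (l x).length (sz (c x) + Nat.size (l x).length)) →
      TC P T (fun x => perm d (addIdx (w (c x)) (q (c x)) (off (c x))) (l x)) := by
  obtain ⟨k, hk⟩ := tc_addIdx (c0 := fun _ _ => 0) hw hq hoff (PTF.const 0)
  exact ⟨k, fun {ι α} _ _ {P T c} d {l} hc hl h hB => hk 1 d hc hl (fun x hx =>
    ⟨(h x hx).1, (h x hx).2.1, (h x hx).2.2.1, fun _ => Nat.one_pos,
      fun j j' _ e => (h x hx).2.2.2 j j' e, fun j j' e _ => (h x hx).2.2.2 j j' e⟩) hB⟩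

theorem tc_mulIdx (hw : PTF w) (hq : PTF q) (hb : PTF b) :
    ∃ k : ℕ, ∀ (K : ℕ) {ι α : Type} [PTCode ι] [PTCode α] {P : ι → Prop} {T : ι → ℕ} {c : ι → γ}
      (d : α) {l : ι → List α}, TC P T c → TC P T l →
      (∀ x, P x → 0 < w (c x) ∧ 0 < q (c x) ∧ w (c x) * q (c x) ∣ (l x).length ∧
        0 < b (c x) ∧ b (c x) ≤ K ∧ Nat.Coprime (q (c x)) (b (c x))) →
      Bud P T (fun x => ovh k (l x).length (sz (c x) + Nat.size (l x).length)) →
      TC P T (fun x => perm d (mulIdx (w (c x)) (q (c x)) (b (c x))) (l x)) := by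
  have h1 : PTF fun p : γ × ℕ => w p.1 := hw.comp PTF.fst
  have h2 : PTF fun p : γ × ℕ => q p.1 := hq.comp PTF.fst
  have h3 : PTF fun p : γ × ℕ => b p.1 := hb.comp PTF.fst
  obtain ⟨k, hk⟩ := tc_perm (col := fun c j => b c * dig (w c) (q c) j / q c)
    (src := fun c => mulIdx (w c) (q c) (b c))
    (by dsimp only [PTF₂]; fun_prop) (by dsimp only [PTF₂, mulIdx]; fun_prop)
  exact ⟨k, fun K {ι α} _ _ {P T c} d {l} hc hl h hB => hk K d hc hl (fun x hx =>
    ⟨(colMono_mulIdx (h x hx).1 (h x hx).2.1 (h x hx).2.2.2.1).of_le (h x hx).2.2.2.2.1,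
      idxPerm_mulIdx (h x hx).1 (h x hx).2.1 (h x hx).2.2.2.2.2 (h x hx).2.2.1⟩) hB⟩

theorem tc_divIdx (hw : PTF w) (hq : PTF q) (hb : PTF b) :
    ∃ k : ℕ, ∀ (K : ℕ) {ι α : Type} [PTCode ι] [PTCode α] {P : ι → Prop} {T : ι → ℕ} {c : ι → γ}
      (d : α) {l : ι → List α}, TC P T c → TC P T l →
      (∀ x, P x → 0 < w (c x) ∧ 0 < q (c x) ∧ w (c x) * q (c x) ∣ (l x).length ∧
        0 < b (c x) ∧ b (c x) ≤ K ∧ q (c x) ≡ 1 [MOD b (c x)]) →
      Bud P T (fun x => ovh k (l x).length (sz (c x) + Nat.size (l x).length)) →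
      TC P T (fun x => perm d (divIdx (w (c x)) (q (c x)) (b (c x))) (l x)) := by
  have h1 : PTF fun p : γ × ℕ => w p.1 := hw.comp PTF.fst
  have h2 : PTF fun p : γ × ℕ => q p.1 := hq.comp PTF.fst
  have h3 : PTF fun p : γ × ℕ => b p.1 := hb.comp PTF.fst
  obtain ⟨k, hk⟩ := tc_perm (col := fun c j => dig (w c) (q c) j % b c)
    (src := fun c => divIdx (w c) (q c) (b c))
    (by dsimp only [PTF₂]; fun_prop) (by dsimp only [PTF₂, divIdx]; fun_prop)
  exact ⟨k, fun K {ι α} _ _ {P T c} d {l} hc hl h hB => hk K d hc hl (fun x hx =>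
    ⟨(colMono_divIdx (h x hx).1 (h x hx).2.1 (h x hx).2.2.2.1 (h x hx).2.2.2.2.2).of_le
        (h x hx).2.2.2.2.1,
      idxPerm_divIdx (h x hx).1 (h x hx).2.1 (h x hx).2.2.2.1 (h x hx).2.2.2.2.2
        (h x hx).2.2.1⟩) hB⟩

/-- `min (b c) n` in unary -/
theorem tu_min' (hb : PTF b) :
    ∃ k : ℕ, ∀ {ι : Type} [PTCode ι] {P : ι → Prop} {T : ι → ℕ} {c : ι → γ} {n : ι → ℕ},
    TC P T c → TU P T n → Bud P T (fun x => ovh k (n x) (sz (c x) + Nat.size (n x))) →
    TU P T (fun x => min (b (c x)) (n x)) := by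
  obtain ⟨k, hk⟩ := tc_tab (g := fun (c : γ) (j : ℕ) => decide (j < b c))
    (PTPred.toPTF (PTPred.natLt PTF.snd (hb.comp PTF.fst)))
  refine ⟨k, fun {ι} _ {P T c n} hc hn hB => ?_⟩
  refine (TU.length (TC.filterBy (hk hc hn hB) hn.units)).of_eq fun x => ?_
  rw [length_filterBy (by simp), List.count_eq_countP, List.countP_map]
  generalize n x = m
  induction m with
  | zero => simp
  | succ m ih =>
    rw [List.range_succ, List.countP_append, ih]
    by_cases h : m < b (c x) <;> simp [h] <;> omega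

theorem getD_reverse' {α : Type} (d : α) (r : List α) {i : ℕ} (hi : i < r.length) :
    r.reverse.getD i d = r.getD (r.length - 1 - i) d := by
  rw [List.getD_eq_getElem _ _ (by simpa using hi), List.getD_eq_getElem _ _ (by omega),
    List.getElem_reverse]

theorem perm_revIdx {α : Type} (d : α) {B : ℕ} (hB : 0 < B) {l : List α} (h : B ∣ l.length) :
    perm d (revIdx B) l = ((chunks B l).map List.reverse).flatten := by
  obtain ⟨m, hm⟩ := h
  rw [Nat.mul_comm] at hm
  have hlen : ∀ r ∈ (chunks B l).map List.reverse, r.length = B := fun r hr => by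
    obtain ⟨r', hr', rfl⟩ := List.mem_map.1 hr
    rw [List.length_reverse, length_of_mem_chunks ⟨m, by rw [hm, Nat.mul_comm]⟩ hr']
  refine A.ext_getD d ?_ fun j hj => ?_
  · rw [length_perm, length_flatten_of_length hlen, List.length_map, length_chunks hB hm, hm]
  · rw [length_perm] at hj
    have h1 : j % B < B := Nat.mod_lt _ hB
    have h2 : j / B < m := (Nat.div_lt_iff_lt_mul hB).2 (hm ▸ hj)
    have h3 : j / B < (chunks B l).length := by rwa [length_chunks hB hm]
    have h4 : ((chunks B l)[j / B]).length = B :=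
      length_of_mem_chunks ⟨m, by rw [hm, Nat.mul_comm]⟩ (List.getElem_mem h3)
    rw [getD_perm _ _ _ _ hj, getD_flatten' hB hlen, revIdx,
      ← getD_getD_chunks l (j / B) (show B - 1 - j % B < B by omega) d,
      List.getD_eq_getElem _ _ h3,
      List.getD_eq_getElem ((chunks B l).map List.reverse) _ (by simpa using h3), List.getElem_map,
      getD_reverse' d _ (by omega), h4]

/-- reversal inside blocks -/
theorem tc_revIdx (hb : PTF b) :
    ∃ k : ℕ, ∀ {ι α : Type} [PTCode ι] [PTCode α] {P : ι → Prop} {T : ι → ℕ} {c : ι → γ}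
      (d : α) {l : ι → List α}, TC P T c → TC P T l →
      (∀ x, P x → 0 < b (c x) ∧ b (c x) ∣ (l x).length) →
      Bud P T (fun x => ovh k (l x).length (sz (c x) + Nat.size (l x).length)) →
      TC P T (fun x => perm d (revIdx (b (c x))) (l x)) := by
  obtain ⟨k, hk⟩ := tu_min' hb
  refine ⟨k, fun {ι α} _ _ {P T c} d {l} hc hl h hB => ?_⟩
  have h1 := TC.chunks (hk hc (TU.length hl) hB) hl
  refine (TC.flatten (TC.map Lin.reverse h1)).congr fun x hx => ?_
  rw [perm_revIdx d (h x hx).1 (h x hx).2]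
  rcases Nat.eq_zero_or_pos (l x).length with h0 | h0
  · simp [List.eq_nil_of_length_eq_zero h0]
  · rw [min_eq_left (Nat.le_of_dvd h0 (h x hx).2)]

theorem tc_cplIdx (hw : PTF w) (hq : PTF q) :
    ∃ k : ℕ, ∀ {ι α : Type} [PTCode ι] [PTCode α] {P : ι → Prop} {T : ι → ℕ} {c : ι → γ}
      (d : α) {l : ι → List α}, TC P T c → TC P T l →
      (∀ x, P x → 0 < w (c x) ∧ 0 < q (c x) ∧ w (c x) * q (c x) ∣ (l x).length) →
      Bud P T (fun x => ovh k (l x).length (sz (c x) + Nat.size (l x).length)) →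
      TC P T (fun x => perm d (cplIdx (w (c x)) (q (c x))) (l x)) := by
  obtain ⟨k1, hk1⟩ := tc_revIdx (b := fun c => w c * q c) (hw.natMul hq)
  obtain ⟨k2, hk2⟩ := tc_revIdx hw
  refine ⟨k1 + k2, fun {ι α} _ _ {P T c} d {l} hc hl h hB => ?_⟩
  have h1 := hk1 d hc hl (fun x hx => ⟨Nat.mul_pos (h x hx).1 (h x hx).2.1, (h x hx).2.2⟩)
    (hB.mono fun x _ => ovh_mono (by omega) le_rfl le_rfl)
  have h2 := hk2 d hc h1
    (fun x hx => ⟨(h x hx).1, by simpa using (Dvd.intro _ rfl).trans (h x hx).2.2⟩)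
    (hB.mono fun x _ => by simpa using ovh_mono (by omega) le_rfl le_rfl)
  refine h2.congr fun x hx => ?_
  rw [perm_perm d _ (idxPerm_revIdx (h x hx).1 ((Dvd.intro _ rfl).trans (h x hx).2.2)).lt]
  exact perm_congr d _ fun j _ => (cplIdx_eq_rev (h x hx).1 (h x hx).2.1 j).symm

theorem tc_negIdx (hw : PTF w) (hq : PTF q) :
    ∃ k : ℕ, ∀ {ι α : Type} [PTCode ι] [PTCode α] {P : ι → Prop} {T : ι → ℕ} {c : ι → γ}
      (d : α) {l : ι → List α}, TC P T c → TC P T l →
      (∀ x, P x → 0 < w (c x) ∧ 0 < q (c x) ∧ w (c x) * q (c x) ∣ (l x).length) →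
      Bud P T (fun x => ovh k (l x).length (sz (c x) + Nat.size (l x).length)) →
      TC P T (fun x => perm d (negIdx (w (c x)) (q (c x))) (l x)) := by
  obtain ⟨k1, hk1⟩ := tc_addIdx_hi (off := fun _ _ => 1) hw hq (PTF.const 1)
  obtain ⟨k2, hk2⟩ := tc_cplIdx hw hq
  refine ⟨k1 + k2, fun {ι α} _ _ {P T c} d {l} hc hl h hB => ?_⟩
  have h1 := hk1 d hc hl (fun x hx => ⟨(h x hx).1, (h x hx).2.1, (h x hx).2.2, fun _ _ _ => rfl⟩)
    (hB.mono fun x _ => ovh_mono (by omega) le_rfl le_rfl)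
  have h2 := hk2 d hc h1 (fun x hx => by simpa using h x hx)
    (hB.mono fun x _ => by simpa using ovh_mono (by omega) le_rfl le_rfl)
  refine h2.congr fun x hx => ?_
  rw [perm_perm d _ (idxPerm_cplIdx (h x hx).1 (h x hx).2.1 (h x hx).2.2).lt]
  exact perm_congr d _ fun j _ => (negIdx_eq (h x hx).1 (h x hx).2.1 j).symm

end generic

/-! ### final forms -/

/-- the code of a field: group and exponent of its weight -/
def fldCode {m : ℕ} : Fld m → Bool × Un
  | .inl i => (true, ⟨m - 1 - i⟩)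
  | .inr j => (false, ⟨m - 1 - j⟩)

/-- the weight of a field from its code -/
def wtOf (g : ℕ × ℕ × ℕ) (f : Bool × Un) : ℕ := (bif f.1 then g.2.1 else g.2.2) * g.1 ^ f.2.val

theorem wtOf_fldCode {m : ℕ} (q wH wD : ℕ) (t : Fld m) :
    wtOf (q, wH, wD) (fldCode t) = wt q wH wD t := by
  rcases t with i | j <;> rfl

theorem ptf_wtOf {ι : Type} [PTCode ι] {g : ι → ℕ × ℕ × ℕ} {f : ι → Bool × Un} (hg : PTF g)
    (hf : PTF f) : PTF fun x => wtOf (g x) (f x) := by
  unfold wtOf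
  exact PTF.natMul (by fun_prop) (PTF.natPow (by fun_prop) (PTU.val (by fun_prop)))

theorem size_le_of_dvd {a n : ℕ} (hn : 0 < n) (h : a ∣ n) : Nat.size a ≤ Nat.size n :=
  Nat.size_le_size (Nat.le_of_dvd hn h)

theorem Geo.sz_le {Q q wH wD n : ℕ} (g : Geo Q wH wD n) (hq : q ∣ n) (hn : 0 < n) :
    sz (q, wH, wD) ≤ 5 * Nat.size n + 2 := by
  have h1 := size_le_of_dvd hn hq
  have h2 := size_le_of_dvd hn ((Dvd.intro _ rfl).trans g.h2)
  have h3 := size_le_of_dvd hn ((((Dvd.intro _ rfl).trans g.h1).mul_right _).trans g.h2)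
  simp only [sz_prod, sz_nat]
  omega

/-- (F1) the free operations of part A -/
theorem tc_opIdx : ∃ k : ℕ, ∀ {m Den : ℕ} (op : FOp m), op.ok Den → 0 < Den →
    ∀ {ι α : Type} [PTCode ι] [PTCode α] {P : ι → Prop} {T : ι → ℕ} {q wH wD : ι → ℕ} (d : α)
      {l : ι → List α}, TC P T q → TC P T wH → TC P T wD → TC P T l →
      (∀ x, P x → 0 < q x ∧ q x ≡ 1 [MOD Den] ∧ Geo (q x ^ m) (wH x) (wD x) (l x).length) →
      Bud P T (fun x => (l x).length * (Nat.size (l x).length + 1) ^ k) →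
      TC P T (fun x => perm d (opIdx (q x) (wH x) (wD x) op) (l x)) := by
  have hw : PTF fun c : (ℕ × ℕ × ℕ) × (Bool × Un) × (Bool × Un) × ℤ × ℕ => wtOf c.1 c.2.1 :=
    ptf_wtOf (by fun_prop) (by fun_prop)
  have hq : PTF fun c : (ℕ × ℕ × ℕ) × (Bool × Un) × (Bool × Un) × ℤ × ℕ => c.1.1 := by fun_prop
  have hb : PTF fun c : (ℕ × ℕ × ℕ) × (Bool × Un) × (Bool × Un) × ℤ × ℕ => c.2.2.2.2 := by
    fun_prop
  have hoff : PTF₂ fun (c : (ℕ × ℕ × ℕ) × (Bool × Un) × (Bool × Un) × ℤ × ℕ) (j : ℕ) =>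
      coefN c.1.1 c.2.2.2.1 * dig (wtOf c.1 c.2.2.1) c.1.1 j :=
    PTF.natMul (ptf_coefN (by fun_prop) (by fun_prop))
      (ptf_dig (ptf_wtOf (by fun_prop) (by fun_prop)) (by fun_prop) PTF.snd)
  obtain ⟨k1, hk1⟩ := tc_addIdx_hi hw hq hoff
  obtain ⟨k2, hk2⟩ := tc_mulIdx hw hq hb
  obtain ⟨k3, hk3⟩ := tc_divIdx hw hq hb
  obtain ⟨k4, hk4⟩ := tc_negIdx hw hq
  refine ⟨k1 + k2 + k3 + k4,
    fun {m Den} op hop hDen {ι α} _ _ {P T q wH wD} d {l} hq hH hD hl h hB => ?_⟩
  have hdv : ∀ (t : Fld m) x, P x → wt (q x) (wH x) (wD x) t * q x ∣ (l x).length :=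
    fun t x hx => (wt_dvd_top (h x hx).2.2.h1 t).trans (h x hx).2.2.h2
  have hpos : ∀ (t : Fld m) x, P x → 0 < wt (q x) (wH x) (wD x) t :=
    fun t x hx => wt_pos (h x hx).1 (h x hx).2.2.hD (h x hx).2.2.hH t
  have hc : ∀ e : (Bool × Un) × (Bool × Un) × ℤ × ℕ, TC P T fun x => ((q x, wH x, wD x), e) :=
    fun e => (hq.prodMk (hH.prodMk hD)).prodMk (TC.const e)
  have hB' : ∀ (t : Fld m) (e : (Bool × Un) × (Bool × Un) × ℤ × ℕ) (k : ℕ),
      k ≤ k1 + k2 + k3 + k4 → Bud P T fun x =>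
        ovh k (l x).length (sz ((q x, wH x, wD x), e) + Nat.size (l x).length) := fun t e k hk =>
    Bud.ovh_of_le (s' := fun x => Nat.size (l x).length) hB 1 11 (5 + sz e) hk
      (fun x _ => by omega) fun x hx h0 => by
        have := (h x hx).2.2.sz_le ((Dvd.intro_left _ rfl).trans (hdv t x hx)) h0
        rw [sz_prod]
        dsimp only
        omega
  rcases op with ⟨t, s, c⟩ | ⟨t, b⟩ | ⟨t, b⟩ | t
  · refine (hk1 d (hc (fldCode t, fldCode s, c, 0)) hl (fun x hx => ?_)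
      (hB' t _ _ (by omega))).of_eq fun x => ?_
    · simp only [wtOf_fldCode]
      exact ⟨hpos t x hx, (h x hx).1, hdv t x hx, fun j j' e => by
        rw [dig_eq_of_div (wt_dvd_of_pos_lt (h x hx).2.2.h1 hop) e]⟩
    · simp only [wtOf_fldCode]
      rfl
  · have hb0 : 0 < b := Nat.pos_of_dvd_of_pos hop hDen
    refine (hk2 b d (hc (fldCode t, fldCode t, 0, b)) hl (fun x hx => ?_)
      (hB' t _ _ (by omega))).of_eq fun x => ?_
    · simp only [wtOf_fldCode]
      refine ⟨hpos t x hx, (h x hx).1, hdv t x hx, hb0, le_rfl, ?_⟩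
      have : Nat.gcd (q x) b = Nat.gcd 1 b := ((h x hx).2.1.of_dvd hop).gcd_eq
      rw [Nat.Coprime, this, Nat.gcd_one_left]
    · simp only [wtOf_fldCode]
      rfl
  · have hb0 : 0 < b := Nat.pos_of_dvd_of_pos hop hDen
    refine (hk3 b d (hc (fldCode t, fldCode t, 0, b)) hl (fun x hx => ?_)
      (hB' t _ _ (by omega))).of_eq fun x => ?_
    · simp only [wtOf_fldCode]
      exact ⟨hpos t x hx, (h x hx).1, hdv t x hx, hb0, le_rfl, (h x hx).2.1.of_dvd hop⟩
    · simp only [wtOf_fldCode]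
      rfl
  · refine (hk4 d (hc (fldCode t, fldCode t, 0, 0)) hl (fun x hx => ?_)
      (hB' t _ _ (by omega))).of_eq fun x => ?_
    · simp only [wtOf_fldCode]
      exact ⟨hpos t x hx, (h x hx).1, hdv t x hx⟩
    · simp only [wtOf_fldCode]
      rfl

/-- (F2) the interchange of two digits of bounded range -/
theorem tc_swapSmall : ∃ k : ℕ, ∀ (K : ℕ) {ι α : Type} [PTCode ι] [PTCode α] {P : ι → Prop}
    {T : ι → ℕ} {q wH wD : ι → ℕ} (d : α) {l : ι → List α},
      TC P T q → TC P T wH → TC P T wD → TC P T l →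
      (∀ x, P x → q x ≤ K ∧ Geo (q x) (wH x) (wD x) (l x).length) →
      Bud P T (fun x => (l x).length * (Nat.size (l x).length + 1) ^ k) →
      TC P T (fun x => swapL d (q x) (wH x) (wD x) (l x)) := by
  obtain ⟨k, hk⟩ := tc_perm
    (col := fun (c : (ℕ × ℕ × ℕ) × ℕ) j => dig c.1.2.1 c.1.1 j * c.2 + dig c.1.2.2 c.1.1 j)
    (src := fun c => swapIdx c.1.1 c.1.2.1 c.1.2.2)
    (by dsimp only [PTF₂]; fun_prop) (by dsimp only [PTF₂]; fun_prop)
  refine ⟨k, fun K {ι α} _ _ {P T q wH wD} d {l} hq hH hD hl h hB => ?_⟩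
  have hB' : Bud P T fun x =>
      ovh k (l x).length (sz ((q x, wH x, wD x), K) + Nat.size (l x).length) :=
    Bud.ovh_of_le (s' := fun x => Nat.size (l x).length) hB 1 11 (5 + sz K) le_rfl
      (fun x _ => by omega) fun x hx h0 => by
        have := (h x hx).2.sz_le ((Dvd.intro_left _ rfl).trans (h x hx).2.h2) h0
        rw [sz_prod]
        dsimp only
        omega
  have key := hk (K * K) (c := fun x => ((q x, wH x, wD x), K)) d
    ((hq.prodMk (hH.prodMk hD)).prodMk (TC.const K)) hl (fun x hx =>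
    ⟨colMono_swapIdx (h x hx).2.hq (h x hx).2.hD (h x hx).2.h1 (h x hx).1,
      (h x hx).2.idxPerm_swapIdx⟩) hB'
  exact key

/-- (F4) rotation of the middle field of `[P][Q][Z]` by an offset read off the prefix -/
theorem tc_rotL {γ : Type} [PTCode γ] {δ : γ → ℕ → ℕ} (hδ : PTF₂ δ) :
    ∃ k : ℕ, ∀ {ι α : Type} [PTCode ι] [PTCode α] {P : ι → Prop} {T : ι → ℕ} {c : ι → γ}
      {Z Q : ι → ℕ} (d : α) {l : ι → List α}, TC P T c → TC P T Z → TC P T Q → TC P T l →
      (∀ x, P x → 0 < Z x ∧ 0 < Q x ∧ Z x * Q x ∣ (l x).length) →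
      Bud P T (fun x => (l x).length * (sz (c x) + Nat.size (l x).length + 1) ^ k) →
      TC P T (fun x => perm d (rotIdx (Z x) (Q x) (δ (c x))) (l x)) := by
  obtain ⟨k, hk⟩ := tc_addIdx_hi (γ := γ × ℕ × ℕ) (w := fun c => c.2.1) (q := fun c => c.2.2)
    (off := fun c j => δ c.1 (j / (c.2.1 * c.2.2))) (by fun_prop) (by fun_prop)
    (PTF.comp₂ hδ (by fun_prop) (by fun_prop))
  refine ⟨k, fun {ι α} _ _ {P T c Z Q} d {l} hc hZ hQ hl h hB => ?_⟩
  have hB' : Bud P T fun x =>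
      ovh k (l x).length (sz (c x, Z x, Q x) + Nat.size (l x).length) :=
    Bud.ovh_of_le (s' := fun x => sz (c x) + Nat.size (l x).length) hB 1 4 2 le_rfl
      (fun x _ => by omega) fun x hx h0 => by
        have h1 := size_le_of_dvd h0 ((Dvd.intro _ rfl).trans (h x hx).2.2)
        have h2 := size_le_of_dvd h0 ((Dvd.intro_left _ rfl).trans (h x hx).2.2)
        simp only [sz_prod, sz_nat]
        omega
  have key := hk (c := fun x => (c x, Z x, Q x)) d (hc.prodMk (hZ.prodMk hQ)) hl (fun x hx =>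
    ⟨(h x hx).1, (h x hx).2.1, (h x hx).2.2, fun j j' e => by simp only at e ⊢; rw [e]⟩) hB'
  exact key

/-- a default record that is never used need not be computed -/
theorem tc_gath_default {ι α : Type} [PTCode ι] [PTCode α] {P : ι → Prop} {T : ι → ℕ}
    {n : ι → ℕ} {σ : ι → ℕ → ℕ} (d : ι → α) {l : ι → List α}
    (h : ∀ d0 : α, TC P T fun x => gath (n x) (σ x) d0 (l x))
    (hσ : ∀ x, P x → ∀ j < n x, σ x j < (l x).length) :
    TC P T fun x => gath (n x) (σ x) (d x) (l x) := by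
  rcases isEmpty_or_nonempty ι with h0 | ⟨⟨x0⟩⟩
  · exact ⟨.skip, 0, fun x => isEmptyElim x⟩
  · exact (h (d x0)).congr fun x hx => gath_default _ _ _ (hσ x hx)

theorem tc_perm_default {ι α : Type} [PTCode ι] [PTCode α] {P : ι → Prop} {T : ι → ℕ}
    {σ : ι → ℕ → ℕ} (d : ι → α) {l : ι → List α}
    (h : ∀ d0 : α, TC P T fun x => perm d0 (σ x) (l x))
    (hσ : ∀ x, P x → ∀ j < (l x).length, σ x j < (l x).length) :
    TC P T fun x => perm (d x) (σ x) (l x) := tc_gath_default d h hσ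

/-- an empty array needs no work -/
theorem tc_of_pos {ι α β : Type} [PTCode ι] [PTCode α] [PTCode β] {P : ι → Prop} {T : ι → ℕ}
    {l : ι → List α} {f : ι → List β} (hl : TC P T l) (h0 : ∀ x, P x → l x = [] → f x = [])
    (h : TC (fun x => P x ∧ 0 < (l x).length) T f) : TC P T f :=
  (TC.cond' (f := fun _ => []) (g := f) hl.isEmpty (TC.const [])
    (h.restrict fun x hx => ⟨hx.1, List.length_pos_iff.2 (by simpa using hx.2)⟩)).congr
    fun x hx => by
      cases e : (l x).isEmpty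
      · rfl
      · exact (h0 x hx (by simpa using e)).symm

theorem size_add_le {a b n : ℕ} (ha : a ≤ n) (hb : b ≤ n) : Nat.size (a + b) ≤ Nat.size n + 1 := by
  rw [Nat.size_le, pow_succ]
  have := Nat.lt_size_self n
  omega

/-- (F3) padding of the blocks of size `B` to size `B'` -/
theorem tc_padL : ∃ k : ℕ, ∀ {ι α : Type} [PTCode ι] [PTCode α] {P : ι → Prop} {T : ι → ℕ}
    {B B' : ι → ℕ} {d : ι → α} {l : ι → List α}, TC P T B → TC P T B' → TC P T d → TC P T l →
      (∀ x, P x → 0 < B x ∧ B x ≤ B' x ∧ B x ∣ (l x).length) →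
      Bud P T (fun x => (l x).length / B x * B' x *
        (Nat.size ((l x).length / B x * B' x) + 1) ^ k) →
      Bud P T (fun x => (l x).length / B x * B' x * sz (d x)) →
      TC P T (fun x => padL (d x) (B x) (B' x) (l x)) := by
  obtain ⟨k, hk⟩ := tc_gath (col := fun (_ : ℕ × ℕ × ℕ) _ => 0)
    (src := fun c j => if j % c.2.1 < c.1 then j / c.2.1 * c.1 + j % c.2.1 else c.2.2)
    (PTF.const 0) (PTF.ite (PTPred.natLt (by fun_prop) (by fun_prop)) (by fun_prop) (by fun_prop))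
  refine ⟨k, fun {ι α} _ _ {P T B B' d l} hB hB' hd hl h hb hdb => ?_⟩
  refine tc_of_pos hl (fun x _ e => by simp [padL, gath, e]) ?_
  have r : ∀ x, P x ∧ 0 < (l x).length → P x := fun _ hx => hx.1
  have e1 : ∀ x, P x → (l x).length ≤ (l x).length / B x * B' x := fun x hx => by
    conv_lhs => rw [← Nat.div_mul_cancel (h x hx).2.2]
    exact Nat.mul_le_mul_left _ (h x hx).2.1
  have e2 : ∀ x, P x ∧ 0 < (l x).length → B' x ≤ (l x).length / B x * B' x := fun x hx =>
    Nat.le_mul_of_pos_left _ (Nat.div_pos (Nat.le_of_dvd hx.2 (h x hx.1).2.2) (h x hx.1).1)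
  have hn : Bud (fun x => P x ∧ 0 < (l x).length) T fun x => (l x).length / B x * B' x :=
    (hb.restrict r).mono fun x _ => le_ovh k _ _
  have u1 := TU.ofNat (hB'.restrict r) (hn.mono e2)
  have u2 := TU.ofNat (hB.restrict r) (hn.mono fun x hx => (h x hx.1).2.1.trans (e2 x hx))
  have u3 := ((TU.length (hl.restrict r)).div u2).mul u1 hn
  have hb' : Bud (fun x => P x ∧ 0 < (l x).length) T fun x =>
      ovh k ((l x).length / B x * B' x + (l x).length) (sz (B x, B' x, (l x).length) +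
        Nat.size ((l x).length / B x * B' x + (l x).length)) :=
    Bud.ovh_of_le (s' := fun x => Nat.size ((l x).length / B x * B' x)) (hb.restrict r) 2 6 3
      le_rfl (fun x hx => by have := e1 x hx.1; omega) fun x hx _ => by
        have a1 := Nat.size_le_size (e1 x hx.1)
        have a2 := Nat.size_le_size (e2 x hx)
        have a3 := Nat.size_le_size ((h x hx.1).2.1.trans (e2 x hx))
        have a4 := size_add_le le_rfl (e1 x hx.1)
        simp only [sz_prod, sz_nat]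
        omega
  have ho : Bud (fun x => P x ∧ 0 < (l x).length) T fun x =>
      sz (padL (d x) (B x) (B' x) (l x)) := by
    refine (((hl.restrict r).sz.add ((hdb.restrict r).const_mul 2)).add hn).mono fun x _ => ?_
    refine (sz_gath_le (d x) (l x) fun j j' _ _ a1 a2 => ?_).trans (le_of_eq (by ring))
    by_cases b1 : j % B' x < B x
    · by_cases b2 : j' % B' x < B x
      · rw [if_pos b1, if_pos b2] at a2
        exact reblock_inj b1 b2 a2
      · rw [a2, if_neg b2] at a1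
        omega
    · rw [if_neg b1] at a1
      omega
  have key := hk 1 (c := fun x => (B x, B' x, (l x).length))
    ((hB.prodMk (hB'.prodMk hl.length)).restrict r) u3 (hd.restrict r) (hl.restrict r)
    (fun x _ => colMono_pad) hb' (hdb.restrict r) ho
  exact key

theorem reblock_lt_of_lt {B B' n j : ℕ} (hB : 0 < B) (h : B ≤ B') (hn : B' ∣ n)
    (hj : j < n / B' * B) : reblock B B' j < n := by
  have h1 : j / B < n / B' := (Nat.div_lt_iff_lt_mul hB).2 hj
  have h2 : j % B < B := Nat.mod_lt _ hB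
  have h3 := Nat.mul_le_mul_right B' (Nat.succ_le_of_lt h1)
  rw [Nat.div_mul_cancel hn, Nat.succ_mul] at h3
  unfold reblock
  omega

/-- (F3) keep the first `B` records of the blocks of size `B'` -/
theorem tc_cutL : ∃ k : ℕ, ∀ {ι α : Type} [PTCode ι] [PTCode α] {P : ι → Prop} {T : ι → ℕ}
    {B B' : ι → ℕ} (d : ι → α) {l : ι → List α}, TC P T B → TC P T B' → TC P T l →
      (∀ x, P x → 0 < B x ∧ B x ≤ B' x ∧ B' x ∣ (l x).length) →
      Bud P T (fun x => (l x).length * (Nat.size (l x).length + 1) ^ k) →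
      TC P T (fun x => cutL (d x) (B x) (B' x) (l x)) := by
  obtain ⟨k, hk⟩ := tc_gath (col := fun (_ : ℕ × ℕ) _ => 0) (src := fun c => reblock c.1 c.2)
    (PTF.const 0) (by dsimp only [PTF₂, reblock]; fun_prop)
  refine ⟨k, fun {ι α} _ _ {P T B B'} d {l} hB hB' hl h hb => ?_⟩
  refine tc_gath_default d (fun d0 => ?_)
    (fun x hx j hj => reblock_lt_of_lt (h x hx).1 (h x hx).2.1 (h x hx).2.2 hj)
  refine tc_of_pos hl (fun x _ e => by simp [gath, e]) ?_
  have r : ∀ x, P x ∧ 0 < (l x).length → P x := fun _ hx => hx.1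
  have e1 : ∀ x, P x → (l x).length / B' x * B x ≤ (l x).length := fun x hx => by
    conv_rhs => rw [← Nat.div_mul_cancel (h x hx).2.2]
    exact Nat.mul_le_mul_left _ (h x hx).2.1
  have e2 : ∀ x, P x ∧ 0 < (l x).length → B' x ≤ (l x).length := fun x hx =>
    Nat.le_of_dvd hx.2 (h x hx.1).2.2
  have hn := (TU.length (hl.restrict r)).bud
  have hn' := hn.mono fun x hx => e1 x hx.1
  have u1 := TU.ofNat (hB'.restrict r) (hn.mono e2)
  have u2 := TU.ofNat (hB.restrict r) (hn.mono fun x hx => (h x hx.1).2.1.trans (e2 x hx))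
  have u3 := ((TU.length (hl.restrict r)).div u1).mul u2 hn'
  have hb' : Bud (fun x => P x ∧ 0 < (l x).length) T fun x =>
      ovh k ((l x).length / B' x * B x + (l x).length) (sz (B x, B' x) +
        Nat.size ((l x).length / B' x * B x + (l x).length)) :=
    Bud.ovh_of_le (s' := fun x => Nat.size (l x).length) (hb.restrict r) 2 4 2
      le_rfl (fun x hx => by have := e1 x hx.1; omega) fun x hx _ => by
        have a2 := Nat.size_le_size (e2 x hx)
        have a3 := Nat.size_le_size ((h x hx.1).2.1.trans (e2 x hx))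
        have a4 := size_add_le (e1 x hx.1) le_rfl
        simp only [sz_prod, sz_nat]
        omega
  have ho : Bud (fun x => P x ∧ 0 < (l x).length) T fun x =>
      sz (gath ((l x).length / B' x * B x) (reblock (B x) (B' x)) d0 (l x)) := by
    refine ((hl.restrict r).sz.add (hn'.mul_const (2 * sz d0 + 1))).mono fun x hx => ?_
    exact sz_gath_le d0 (l x) fun j j' _ _ _ a2 =>
      reblock_inj ((Nat.mod_lt _ (h x hx.1).1).trans_le (h x hx.1).2.1)
        ((Nat.mod_lt _ (h x hx.1).1).trans_le (h x hx.1).2.1) a2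
  have key := hk 1 (c := fun x => (B x, B' x)) ((hB.prodMk hB').restrict r) u3 (TC.const d0)
    (hl.restrict r) (fun x hx => colMono_cut (h x hx.1).1 (h x hx.1).2.1) hb'
    (hn'.mul_const _) ho
  exact key

/-- the free operations keep the size of the array -/
theorem idxPerm_opIdx {m q wH wD n Den : ℕ} (hq : 0 < q) (g : Geo (q ^ m) wH wD n)
    (hDen : 0 < Den) (hqD : q ≡ 1 [MOD Den]) (op : FOp m) (hop : op.ok Den) :
    IdxPerm n (opIdx q wH wD op) := by
  have hdv : ∀ t : Fld m, wt q wH wD t * q ∣ n := fun t => (wt_dvd_top g.h1 t).trans g.h2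
  have hpos : ∀ t : Fld m, 0 < wt q wH wD t := wt_pos hq g.hD g.hH
  rcases op with ⟨t, s, c⟩ | ⟨t, b⟩ | ⟨t, b⟩ | t
  · exact idxPerm_addIdx (off := fun j => coefN q c * dig (wt q wH wD s) q j) (hpos t) hq (hdv t)
      fun j j' e _ => by rw [dig_eq_of_div (wt_dvd_of_pos_lt g.h1 hop) e]
  · refine idxPerm_mulIdx (hpos t) hq ?_ (hdv t)
    have : Nat.gcd q b = Nat.gcd 1 b := (hqD.of_dvd hop).gcd_eq
    rw [Nat.Coprime, this, Nat.gcd_one_left]
  · exact idxPerm_divIdx (hpos t) hq (Nat.pos_of_dvd_of_pos hop hDen) (hqD.of_dvd hop) (hdv t)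
  · exact idxPerm_negIdx (hpos t) hq (hdv t)

end Crest.Agent.X326.A
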