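import Crest.Agent.X326.A.Rec
import Crest.Agent.X326.A.FreeTC

/-!
Row 326 (S0503), part M2: the recursion of part A, unconditionally.
-/

set_option autoImplicit false

namespace Crest.Agent.X326.A

open Crest.Agent.Lib.PT

theorem opStatement : OpStatement := by
  obtain ⟨k, hk⟩ := tc_opIdx
  exact fun m Den op hDen hop => ⟨k, fun ι _ P T q wH wD l hq hH hD hl hx hB =>
    hk op hop hDen [] hq hH hD hl (fun x h => (hx x h).2) hB⟩

theorem smallStatement : SmallStatement := by
  obtain ⟨k, hk⟩ := tc_swapSmall
  exact fun K => ⟨k, fun ι _ P T q wH wD l hq hH hD hl hx hB =>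
    hk K [] hq hH hD hl (fun x h => (hx x h).2) hB⟩

/-- **The recursion of part A.** -/
theorem recStatement : RecStatement := rec_of opStatement smallStatement

end Crest.Agent.X326.A
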