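import Crest.Agent.X326.A.Top
import Crest.Agent.X326.A.RecDone

/-!
Row 326 (S0503), part M2: the fast interchange of two digits, unconditionally.
-/

set_option autoImplicit false

namespace Crest.Agent.X326.A

/-- **part A** -/
theorem swapStatement : SwapStatement tauA := swap_of_rec recStatement

end Crest.Agent.X326.A
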