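import Crest.Agent.X326.A.Free
import Crest.Agent.X326.TC.MergeSpec
import Crest.Agent.X326.TC.MapAccum
import Crest.Agent.X326.TC.ListLin

/-!
Row 326 (S0503), part M2: the coloured gather in the time calculus.

* `tc_ticks` : iterate a polynomial-time step on a small state, collecting its outputs;
* `tc_tab`   : the table `(range n).map (g c)` of a polynomial-time function;
* `tc_gath`  : `gath n (src c) d l` when `src c` is monotone on each of `K` colour classes.
-/

set_option autoImplicit false

namespace Crest.Agent.X326.A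

open Crest.Agent.Lib.PT

/-- the per-record overhead: `n` records, descriptors of size `s`, exponent `k` -/
def ovh (k n s : ℕ) : ℕ := n * (s + 1) ^ k

theorem ovh_mono {k k' n n' s s' : ℕ} (hk : k ≤ k') (hn : n ≤ n') (hs : s ≤ s') :
    ovh k n s ≤ ovh k' n' s' :=
  Nat.mul_le_mul hn ((Nat.pow_le_pow_left (by omega) k).trans
    (Nat.pow_le_pow_right (by omega) hk))

theorem le_ovh (k n s : ℕ) : n ≤ ovh k n s :=
  Nat.le_mul_of_pos_right _ (by positivity)

/-- a linear change of the descriptor size and of the number of records -/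
theorem ovh_le_mul (a b c k : ℕ) {n n' s s' : ℕ} (hn : n ≤ a * n') (hs : s ≤ b * s' + c) :
    ovh k n s ≤ a * (b + c + 1) ^ k * ovh k n' s' := by
  have h1 : s + 1 ≤ (b + c + 1) * (s' + 1) := by nlinarith
  have h2 := Nat.pow_le_pow_left h1 k
  rw [mul_pow] at h2
  calc ovh k n s ≤ (a * n') * ((b + c + 1) ^ k * (s' + 1) ^ k) := Nat.mul_le_mul hn h2
    _ = a * (b + c + 1) ^ k * ovh k n' s' := by unfold ovh; ring

theorem Bud.ovh_of_le {ι : Type} [PTCode ι] {P : ι → Prop} {T : ι → ℕ} {k k' : ℕ}
    {n n' s s' : ι → ℕ} (h : Bud P T fun x => ovh k' (n' x) (s' x)) (a b c : ℕ) (hk : k ≤ k')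
    (hn : ∀ x, P x → n x ≤ a * n' x) (hs : ∀ x, P x → 0 < n x → s x ≤ b * s' x + c) :
    Bud P T fun x => ovh k (n x) (s x) := by
  refine (h.const_mul (a * (b + c + 1) ^ k')).mono fun x hx => ?_
  rcases Nat.eq_zero_or_pos (n x) with h0 | h0
  · simp [ovh, h0]
  · exact (ovh_mono hk le_rfl le_rfl).trans (ovh_le_mul a b c k' (hn x hx) (hs x hx h0))

theorem sz_perm {α : Type} [PTCode α] {l l' : List α} (h : l.Perm l') : sz l = sz l' := by
  rw [sz_list, sz_list]
  exact (h.map _).sum_eq

theorem sz_sublist {α : Type} [PTCode α] {l l' : List α} (h : l.Sublist l') : sz l ≤ sz l' := by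
  rw [sz_list, sz_list]
  exact (h.map _).sum_le_sum (fun _ _ => Nat.zero_le _)

theorem sz_subperm {α : Type} [PTCode α] {l l' : List α} (h : l.Subperm l') : sz l ≤ sz l' := by
  obtain ⟨m, h1, h2⟩ := h
  exact sz_perm h1 ▸ sz_sublist h2

theorem length_le_sz' {α : Type} [PTCode α] (l : List α) : l.length ≤ sz l := by
  induction l with
  | nil => simp
  | cons a l ih => simp only [List.length_cons, sz_cons]; omega

/-- iterate a polynomial-time step `t` times on a state of size at most `B` -/
theorem tc_ticks {σ β : Type} [PTCode σ] [PTCode β] {f : σ × Unit → σ × List β} (hf : PTF f) :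
    ∃ k : ℕ, ∀ {ι : Type} [PTCode ι] {P : ι → Prop} {T : ι → ℕ} {s : ι → σ} {t B : ι → ℕ}
      (I : ι → σ → ℕ → Prop), TC P T s → TU P T t → (∀ x, P x → I x (s x) (t x)) →
      (∀ x, P x → ∀ st r, I x st (r + 1) → sz st ≤ B x ∧ I x (f (st, ())).1 r) →
      Bud P T (fun x => ovh k (t x) (B x)) →
      TC P T (fun x => accumL f (s x) (List.replicate (t x) ())) := by
  obtain ⟨k, hk⟩ := exists_tc_of_ptf hf
  refine ⟨k + 1, fun {ι} _ {P T s t B} I hs ht h0 hI hB => ?_⟩
  refine hk.accumL_inv hs ht.units (fun x st r => I x st r.length)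
    (fun x _ => (2 ^ k + 1) * (B x + 1) ^ (k + 1)) (fun x hx => by simpa using h0 x hx)
    (fun x hx st a r h => ?_) ((hB.const_mul (2 ^ k + 1)).mono fun x _ => ?_)
  · obtain ⟨h1, h2⟩ := hI x hx st r.length h
    refine ⟨trivial, ?_, h2⟩
    have e : sz (st, a) + 1 ≤ 2 * (B x + 1) := by simp only [sz_prod, sz_unit]; omega
    have h3 := Nat.pow_le_pow_left e k
    rw [mul_pow] at h3
    have h4 : (B x + 1) ^ k ≤ (B x + 1) ^ (k + 1) := Nat.pow_le_pow_right (by omega) (by omega)
    have h5 : B x + 1 ≤ (B x + 1) ^ (k + 1) := Nat.le_self_pow (by omega) _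
    have h6 := Nat.mul_le_mul_left (2 ^ k) h4
    rw [add_mul, one_mul]
    omega
  · simp only [List.map_replicate, List.sum_replicate, smul_eq_mul, ovh]
    exact le_of_eq (by ring)

theorem accumL_tab {γ β : Type} (g : γ → ℕ → β) (c : γ) (j t : ℕ) :
    accumL (fun p : (γ × ℕ) × Unit => ((p.1.1, p.1.2 + 1), [g p.1.1 p.1.2])) (c, j)
      (List.replicate t ()) = ((c, j + t), (List.range' j t).map (g c)) := by
  induction t generalizing j with
  | zero => rfl
  | succ t ih =>
    rw [List.replicate_succ, accumL_cons, ih, List.range'_succ]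
    simp [add_assoc, add_comm 1 t]

/-- the table of a polynomial-time function, and the length in binary -/
theorem tc_tab' {γ β : Type} [PTCode γ] [PTCode β] {g : γ → ℕ → β} (hg : PTF₂ g) :
    ∃ k : ℕ, ∀ {ι : Type} [PTCode ι] {P : ι → Prop} {T : ι → ℕ} {c : ι → γ} {n : ι → ℕ},
      TC P T c → TU P T n → Bud P T (fun x => ovh k (n x) (sz (c x) + Nat.size (n x))) →
      TC P T (fun x => (n x, (List.range (n x)).map (g (c x)))) := by
  have hf : PTF (fun p : (γ × ℕ) × Unit => ((p.1.1, p.1.2 + 1), [g p.1.1 p.1.2])) := by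
    have h1 : PTF (fun p : (γ × ℕ) × Unit => g p.1.1 p.1.2) :=
      PTF.comp₂ hg (by fun_prop) (by fun_prop)
    fun_prop
  obtain ⟨k, hk⟩ := tc_ticks hf
  refine ⟨k, fun {ι} _ {P T c n} hc hn hB => ?_⟩
  have h := hk (s := fun x => (c x, 0)) (t := n) (B := fun x => 2 * sz (c x) + 1 + Nat.size (n x))
    (fun x st r => st.1 = c x ∧ st.2 + r = n x) (hc.prodMk (TC.const 0)) hn
    (fun x _ => by simp) (fun x _ st r h => ?_)
    (Bud.ovh_of_le hB 1 2 1 le_rfl (fun x _ => by simp) (fun x _ _ => by omega))
  · exact (h.fst.snd.prodMk h.snd).of_eq fun x => by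
      rw [accumL_tab, List.range_eq_range', zero_add]
  · refine ⟨?_, h.1, by simp only; omega⟩
    have : Nat.size st.2 ≤ Nat.size (n x) := Nat.size_le_size (by omega)
    rw [sz_prod, h.1, sz_nat]
    omega

/-- the table of a polynomial-time function -/
theorem tc_tab {γ β : Type} [PTCode γ] [PTCode β] {g : γ → ℕ → β} (hg : PTF₂ g) :
    ∃ k : ℕ, ∀ {ι : Type} [PTCode ι] {P : ι → Prop} {T : ι → ℕ} {c : ι → γ} {n : ι → ℕ},
      TC P T c → TU P T n → Bud P T (fun x => ovh k (n x) (sz (c x) + Nat.size (n x))) →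
      TC P T (fun x => (List.range (n x)).map (g (c x))) := by
  obtain ⟨k, hk⟩ := tc_tab' hg
  exact ⟨k, fun hc hn hB => (hk hc hn hB).snd⟩

/-- unary to binary, with the crude cost `ovh` -/
theorem tc_bin : ∃ k : ℕ, ∀ {ι : Type} [PTCode ι] {P : ι → Prop} {T : ι → ℕ} {n : ι → ℕ},
    TU P T n → Bud P T (fun x => ovh k (n x) (Nat.size (n x))) → TC P T n := by
  obtain ⟨k, hk⟩ := tc_tab' (g := fun (_ : Unit) (_ : ℕ) => ()) (by pt_prop)
  exact ⟨k, fun hn hB => (hk (TC.const ()) hn (by simpa using hB)).fst⟩

/-- `min B n` in unary from `B` in binary and `n` in unary -/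
theorem tu_min : ∃ k : ℕ, ∀ {ι : Type} [PTCode ι] {P : ι → Prop} {T : ι → ℕ} {B n : ι → ℕ},
    TC P T B → TU P T n → Bud P T (fun x => ovh k (n x) (Nat.size (B x) + Nat.size (n x))) →
    TU P T (fun x => min (B x) (n x)) := by
  obtain ⟨k, hk⟩ := tc_tab (g := fun (B : ℕ) (j : ℕ) => decide (j < B))
    (PTPred.toPTF (PTPred.natLt PTF.snd PTF.fst))
  refine ⟨k, fun {ι} _ {P T B n} hB hn hb => ?_⟩
  have h1 := hk hB hn (by simpa [sz_nat] using hb)
  refine (TU.length (TC.filterBy h1 hn.units)).of_eq fun x => ?_
  rw [length_filterBy (by simp), List.count_eq_countP, List.countP_map]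
  generalize n x = m
  induction m with
  | zero => simp
  | succ m ih =>
    rw [List.range_succ, List.countP_append, ih]
    by_cases h : m < B x <;> simp [h] <;> omega

/-! ### one colour class -/

/-- one step of the two-pointer scan; state `(c, n, j, cur)` -/
def scanStep {γ : Type} (sel : γ → ℕ → Bool) (src : γ → ℕ → ℕ)
    (p : (γ × ℕ × ℕ × ℕ) × Unit) : (γ × ℕ × ℕ × ℕ) × List Bool :=
  if p.1.2.1 ≤ p.1.2.2.1 then (p.1, [])
  else if sel p.1.1 p.1.2.2.1 = true then
    if p.1.2.2.2 < src p.1.1 p.1.2.2.1 then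
      ((p.1.1, p.1.2.1, p.1.2.2.1, p.1.2.2.2 + 1), [false])
    else ((p.1.1, p.1.2.1, p.1.2.2.1 + 1, p.1.2.2.2), [true])
  else ((p.1.1, p.1.2.1, p.1.2.2.1 + 1, p.1.2.2.2), [])

theorem walk_scan {γ α : Type} (sel : γ → ℕ → Bool) (src : γ → ℕ → ℕ) (c : γ) (n : ℕ) (d : α)
    (l : List α) (hlt : ∀ j, j < n → sel c j = true → src c j < l.length)
    (hmono : ∀ j j', j < j' → j' < n → sel c j = true → sel c j' = true → src c j ≤ src c j')
    (t j cur : ℕ) (ht : (n - j) + (l.length - cur) ≤ t)
    (hcur : ∀ j', j ≤ j' → j' < n → sel c j' = true → cur ≤ src c j') :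
    walk (accumL (scanStep sel src) (c, n, j, cur) (List.replicate t ())).2 (l.drop cur) =
      ((List.range' j (n - j)).filter (sel c)).map fun i => l.getD (src c i) d := by
  induction t generalizing j cur with
  | zero =>
    have : n - j = 0 := by omega
    simp [this, walk]
  | succ t ih =>
    rw [List.replicate_succ, accumL_cons]
    by_cases hj : n ≤ j
    · have e : scanStep sel src ((c, n, j, cur), ()) = ((c, n, j, cur), []) := by
        simp [scanStep, hj]
      have h0 : n - j = 0 := by omega
      have key : ∀ t, (accumL (scanStep sel src) (c, n, j, cur) (List.replicate t ())).2 = [] := by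
        intro t
        induction t with
        | zero => rfl
        | succ t ih => rw [List.replicate_succ, accumL_cons, e]; simpa using ih
      rw [e, key]
      simp [h0, walk]
    · have hn : n - j = (n - (j + 1)) + 1 := by omega
      by_cases hs : sel c j = true
      · have h1 := hlt j (by omega) hs
        have h2 := hcur j le_rfl (by omega) hs
        by_cases hc : cur < src c j
        · have e : scanStep sel src ((c, n, j, cur), ()) = ((c, n, j, cur + 1), [false]) := by
            simp [scanStep, hj, hs, hc]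
          rw [e, List.singleton_append, walk, List.tail_drop]
          refine ih j (cur + 1) (by omega) fun j' a1 a2 a3 => ?_
          rcases a1.lt_or_eq with a1 | rfl
          · have := hmono j j' a1 a2 hs a3
            omega
          · omega
        · have e : scanStep sel src ((c, n, j, cur), ()) = ((c, n, j + 1, cur), [true]) := by
            simp [scanStep, hj, hs, hc]
          have e2 : cur = src c j := by omega
          rw [e, List.singleton_append, walk,
            ih (j + 1) cur (by omega) fun j' a1 a2 a3 => hcur j' (by omega) a2 a3, hn,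
            List.range'_succ, List.filter_cons_of_pos hs, List.map_cons, e2,
            List.drop_eq_getElem_cons h1, List.getD_eq_getElem _ _ h1]
          rfl
      · have e : scanStep sel src ((c, n, j, cur), ()) = ((c, n, j + 1, cur), []) := by
          simp [scanStep, hj, hs]
        rw [e, List.nil_append,
          ih (j + 1) cur (by omega) fun j' a1 a2 a3 => hcur j' (by omega) a2 a3, hn,
          List.range'_succ, List.filter_cons_of_neg hs]

/-- the selected entries of a gather that is monotone on the selected positions -/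
theorem tc_sel {γ : Type} [PTCode γ] {sel : γ → ℕ → Bool} {src : γ → ℕ → ℕ} (hsel : PTF₂ sel)
    (hsrc : PTF₂ src) :
    ∃ k : ℕ, ∀ {ι α : Type} [PTCode ι] [PTCode α] {P : ι → Prop} {T : ι → ℕ} {c : ι → γ}
      {n : ι → ℕ} (d : ι → α) {l : ι → List α}, TC P T c → TU P T n → TC P T n → TC P T l →
      (∀ x, P x → ∀ j, j < n x → sel (c x) j = true → src (c x) j < (l x).length) →
      (∀ x, P x → ∀ j j', j < j' → j' < n x → sel (c x) j = true → sel (c x) j' = true →
        src (c x) j ≤ src (c x) j') →
      Bud P T (fun x => ovh k (n x + (l x).length)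
        (sz (c x) + Nat.size (n x + (l x).length))) →
      Bud P T (fun x => sz (((List.range (n x)).filter (sel (c x))).map
        fun i => (l x).getD (src (c x) i) (d x))) →
      TC P T (fun x => ((List.range (n x)).filter (sel (c x))).map
        fun i => (l x).getD (src (c x) i) (d x)) := by
  have hf : PTF (scanStep sel src) := by
    have h1 : PTF (fun p : (γ × ℕ × ℕ × ℕ) × Unit => sel p.1.1 p.1.2.2.1) :=
      PTF.comp₂ hsel (by fun_prop) (by fun_prop)
    have h2 : PTF (fun p : (γ × ℕ × ℕ × ℕ) × Unit => src p.1.1 p.1.2.2.1) :=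
      PTF.comp₂ hsrc (by fun_prop) (by fun_prop)
    unfold scanStep
    refine PTF.ite (PTPred.natLe (by fun_prop) (by fun_prop)) (by fun_prop) (PTF.ite h1.toPTPred
      (PTF.ite (PTPred.natLt (by fun_prop) h2) (by fun_prop) (by fun_prop)) (by fun_prop))
  obtain ⟨k, hk⟩ := tc_ticks hf
  refine ⟨k, fun {ι α} _ _ {P T c n} d {l} hc hn hn' hl hlt hmono hB ho => ?_⟩
  have e : ∀ x, P x → walk (accumL (scanStep sel src) (c x, n x, 0, 0)
      (List.replicate (n x + (l x).length) ())).2 (l x) =
      ((List.range (n x)).filter (sel (c x))).map fun i => (l x).getD (src (c x) i) (d x) :=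
    fun x hx => by
      have := walk_scan sel src (c x) (n x) (d x) (l x) (hlt x hx) (hmono x hx)
        (n x + (l x).length) 0 0 (by omega) (fun _ _ _ _ => Nat.zero_le _)
      rwa [List.drop_zero, Nat.sub_zero, ← List.range_eq_range'] at this
  have h := hk (s := fun x => (c x, n x, 0, 0)) (t := fun x => n x + (l x).length)
    (B := fun x => 5 * (sz (c x) + Nat.size (n x + (l x).length)) + 3)
    (fun x st r => st.1 = c x ∧ st.2.1 = n x ∧ st.2.2.1 + st.2.2.2 + r ≤ n x + (l x).length)
    (hc.prodMk (hn'.prodMk (TC.const _))) (hn.add (TU.length hl)) (fun x _ => by simp)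
    (fun x _ st r h => ?_)
    (Bud.ovh_of_le hB 1 5 3 le_rfl (fun x _ => by simp) (fun x _ _ => by omega))
  · exact (TC.walk h.snd hl (ho.mono fun x hx => by rw [e x hx])).congr e
  · obtain ⟨c', n', j, cur⟩ := st
    obtain ⟨h1, h2, h3⟩ := h
    simp only at h1 h2 h3
    subst h1 h2
    constructor
    · have a1 : Nat.size (n x) ≤ Nat.size (n x + (l x).length) := Nat.size_le_size (by omega)
      have a2 : Nat.size j ≤ Nat.size (n x + (l x).length) := Nat.size_le_size (by omega)
      have a3 : Nat.size cur ≤ Nat.size (n x + (l x).length) := Nat.size_le_size (by omega)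
      simp only [sz_prod, sz_nat]
      omega
    · unfold scanStep
      split_ifs <;> refine ⟨rfl, rfl, ?_⟩ <;> simp only <;> omega

/-! ### all colour classes -/

/-- the gather restricted to the colours below `κ` -/
def gathUpTo {α : Type} (κ n : ℕ) (col src : ℕ → ℕ) (d : α) (l : List α) : List α :=
  (List.range n).map fun j => if col j < κ ∧ src j < l.length then l.getD (src j) d else d

theorem gathUpTo_succ {α : Type} (κ n : ℕ) (col src : ℕ → ℕ) (d : α) (l : List α) :
    gathUpTo (κ + 1) n col src d l =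
      mergeBy ((List.range n).map fun j => decide (col j = κ ∧ src j < l.length))
        (((List.range n).filter fun j => decide (col j = κ ∧ src j < l.length)).map
          fun i => l.getD (src i) d)
        (filterBy ((List.range n).map fun j => !decide (col j = κ ∧ src j < l.length))
          (gathUpTo κ n col src d l)) := by
  rw [gathUpTo, gathUpTo, filterBy_map, mergeBy_map]
  refine List.map_congr_left fun j _ => ?_
  by_cases h1 : src j < l.length
  · by_cases h2 : col j = κ
    · simp [h1, h2]
    · have : col j < κ + 1 ↔ col j < κ := by omega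
      simp [h1, h2, this]
  · simp [h1]

/-- **coloured gather**: `K` passes; the cost is the overhead, the default records and the size of
the result -/
theorem tc_gath {γ : Type} [PTCode γ] {col src : γ → ℕ → ℕ} (hcol : PTF₂ col) (hsrc : PTF₂ src) :
    ∃ k : ℕ, ∀ (K : ℕ) {ι α : Type} [PTCode ι] [PTCode α] {P : ι → Prop} {T : ι → ℕ} {c : ι → γ}
      {n : ι → ℕ} {d : ι → α} {l : ι → List α}, TC P T c → TU P T n → TC P T d → TC P T l →
      (∀ x, P x → ColMono K (n x) (l x).length (col (c x)) (src (c x))) →
      Bud P T (fun x => ovh k (n x + (l x).length)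
        (sz (c x) + Nat.size (n x + (l x).length))) →
      Bud P T (fun x => n x * sz (d x)) →
      Bud P T (fun x => sz (gath (n x) (src (c x)) (d x) (l x))) →
      TC P T (fun x => gath (n x) (src (c x)) (d x) (l x)) := by
  have hsel : PTF₂ (fun (c : γ × ℕ × ℕ) (j : ℕ) =>
      decide (col c.1 j = c.2.1 ∧ src c.1 j < c.2.2)) := by
    have h1 : PTF (fun p : (γ × ℕ × ℕ) × ℕ => col p.1.1 p.2) :=
      PTF.comp₂ hcol (by fun_prop) (by fun_prop)
    have h2 : PTF (fun p : (γ × ℕ × ℕ) × ℕ => src p.1.1 p.2) :=
      PTF.comp₂ hsrc (by fun_prop) (by fun_prop)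
    exact PTPred.toPTF ((PTPred.eq h1 (by fun_prop)).and (PTPred.natLt h2 (by fun_prop)))
  have hsrc' : PTF₂ (fun (c : γ × ℕ × ℕ) (j : ℕ) => src c.1 j) :=
    PTF.comp₂ hsrc (by fun_prop) (by fun_prop)
  obtain ⟨k0, hk0⟩ := tc_bin
  obtain ⟨k1, hk1⟩ := tc_sel hsel hsrc'
  obtain ⟨k2, hk2⟩ := tc_tab hsel
  obtain ⟨k3, hk3⟩ := tc_tab (g := fun (c : γ × ℕ × ℕ) (j : ℕ) =>
      !decide (col c.1 j = c.2.1 ∧ src c.1 j < c.2.2)) (PTF.not hsel)
  refine ⟨k0 + k1 + k2 + k3, fun K {ι α} _ _ {P T c n d l} hc hn hd hl hm hB hdB ho => ?_⟩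
  have s1 : ∀ x, Nat.size (n x) ≤ Nat.size (n x + (l x).length) := fun x =>
    Nat.size_le_size (by omega)
  have s2 : ∀ x, Nat.size (l x).length ≤ Nat.size (n x + (l x).length) := fun x =>
    Nat.size_le_size (by omega)
  have hn' : TC P T n := hk0 hn (Bud.ovh_of_le hB 1 1 0 (by omega) (fun x _ => by omega)
    (fun x _ _ => by have := s1 x; omega))
  have hlen : TC P T (fun x => (l x).length) := hk0 (TU.length hl)
    (Bud.ovh_of_le hB 1 1 0 (by omega) (fun x _ => by omega)
      (fun x _ _ => by have := s2 x; omega))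
  have key : ∀ κ, TC P T (fun x => gathUpTo κ (n x) (col (c x)) (src (c x)) (d x) (l x)) := by
    intro κ
    induction κ with
    | zero => exact (TC.replicate hn hd hdB).of_eq fun x => by simp [gathUpTo]
    | succ κ ih =>
      have hc' : TC P T (fun x => (c x, κ, (l x).length)) := hc.prodMk ((TC.const κ).prodMk hlen)
      have hsz : ∀ x, sz (c x, κ, (l x).length) ≤
          2 * (sz (c x) + Nat.size (n x + (l x).length)) + (2 * Nat.size κ + 2) := fun x => by
        have := s2 x
        simp only [sz_prod, sz_nat]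
        omega
      have a1 := hk1 d hc' hn hn' hl (fun x _ j _ h => (of_decide_eq_true h).2)
        (fun x hx j j' h1 h2 h3 h4 => (hm x hx).mono j j' h1 h2 (of_decide_eq_true h3).2
          (of_decide_eq_true h4).2 ((of_decide_eq_true h3).1.trans (of_decide_eq_true h4).1.symm))
        (Bud.ovh_of_le hB 1 3 (2 * Nat.size κ + 2) (by omega) (fun x _ => by omega)
          (fun x _ _ => by have := hsz x; omega))
        (ho.mono fun x _ => sz_sublist (List.filter_sublist.map _))
      have a2 := hk2 hc' hn (Bud.ovh_of_le hB 1 3 (2 * Nat.size κ + 2) (by omega)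
        (fun x _ => by omega) (fun x _ _ => by have := hsz x; have := s1 x; omega))
      have a3 := hk3 hc' hn (Bud.ovh_of_le hB 1 3 (2 * Nat.size κ + 2) (by omega)
        (fun x _ => by omega) (fun x _ _ => by have := hsz x; have := s1 x; omega))
      exact (TC.mergeBy a2 a1 (TC.filterBy a3 ih)).of_eq fun x => (gathUpTo_succ ..).symm
  refine (key K).congr fun x hx => List.map_congr_left fun j hj => ?_
  by_cases h : src (c x) j < (l x).length
  · rw [if_pos ⟨(hm x hx).col_lt j (List.mem_range.1 hj) h, h⟩]
  · rw [if_neg fun h' => h h'.2, List.getD_eq_default _ _ (by omega)]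

/-- an injective gather is not larger than its source and the default records -/
theorem sz_gath_le {α : Type} [PTCode α] {n : ℕ} {σ : ℕ → ℕ} (d : α) (l : List α)
    (h : ∀ j j', j < n → j' < n → σ j < l.length → σ j = σ j' → j = j') :
    sz (gath n σ d l) ≤ sz l + n * (2 * sz d + 1) := by
  have h1 := sz_subperm (filter_gath_subperm d l h)
  have h2 : (gath n σ d l).Perm
      ((((List.range n).filter fun j => σ j < l.length).map fun j => l.getD (σ j) d) ++
        (((List.range n).filter fun j => !decide (σ j < l.length)).map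
          fun j => l.getD (σ j) d)) := by
    rw [← List.map_append]
    exact (List.filter_append_perm _ _).symm.map _
  have h3 : sz (((List.range n).filter fun j => !decide (σ j < l.length)).map
      fun j => l.getD (σ j) d) ≤ n * (2 * sz d + 1) := by
    refine (sz_list_le (m := sz d) fun a ha => ?_).trans (Nat.mul_le_mul_right _ ?_)
    · obtain ⟨j, hj, rfl⟩ := List.mem_map.1 ha
      have : ¬ σ j < l.length := by simpa using (List.mem_filter.1 hj).2
      rw [List.getD_eq_default _ _ (by omega)]
    · simpa using List.length_filter_le _ (List.range n)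
  rw [sz_perm h2, sz_append]
  omega

/-- **coloured permutation** of a list, fixed default record -/
theorem tc_perm {γ : Type} [PTCode γ] {col src : γ → ℕ → ℕ} (hcol : PTF₂ col) (hsrc : PTF₂ src) :
    ∃ k : ℕ, ∀ (K : ℕ) {ι α : Type} [PTCode ι] [PTCode α] {P : ι → Prop} {T : ι → ℕ} {c : ι → γ}
      (d : α) {l : ι → List α}, TC P T c → TC P T l →
      (∀ x, P x → ColMono K (l x).length (l x).length (col (c x)) (src (c x)) ∧
        IdxPerm (l x).length (src (c x))) →
      Bud P T (fun x => ovh k (l x).length (sz (c x) + Nat.size (l x).length)) →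
      TC P T (fun x => perm d (src (c x)) (l x)) := by
  obtain ⟨k, hk⟩ := tc_gath hcol hsrc
  refine ⟨k, fun K {ι α} _ _ {P T c} d {l} hc hl hm hB => ?_⟩
  refine hk K hc (TU.length hl) (TC.const d) hl (fun x hx => (hm x hx).1)
    (Bud.ovh_of_le hB 2 1 1 le_rfl (fun x _ => by omega) fun x _ _ => ?_)
    ((TU.length hl).bud.mul_const _)
    (hl.sz.mono fun x hx => (sz_perm ((hm x hx).2.perm d)).le)
  have : Nat.size ((l x).length + (l x).length) ≤ Nat.size (l x).length + 1 := by
    rw [Nat.size_le, pow_succ]
    have := Nat.lt_size_self (l x).length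
    omega
  omega

end Crest.Agent.X326.A
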