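import Mathlib

/-!
Row 326 (S0503), part M2: field-level programs for the fast interchange of two address fields.

An address has `2 m` fields in `ZMod Q`: `inl i` is `H_i`, `inr j` is `D_j`; the layout order is
`H_0` (slowest), …, `H_{m-1}`, `D_0`, …, `D_{m-1}` (fastest).  A wire carries a function
`Addr m Q → D`.  All address operations act by PULL-BACK: the content `y` becomes `y ∘ op`.
-/

set_option autoImplicit false

namespace Crest.Agent.X326.A

/-- the address fields -/
abbrev Fld (m : ℕ) : Type := Fin m ⊕ Fin m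

/-- position of a field in the layout (smaller = slower = earlier) -/
def Fld.pos {m : ℕ} : Fld m → ℕ
  | .inl i => i
  | .inr j => m + j

/-- addresses -/
abbrev Addr (m Q : ℕ) : Type := Fld m → ZMod Q

/-- free address operations -/
inductive FOp (m : ℕ) : Type
  /-- `a t += c * a s` (allowed when `s` is earlier than `t`) -/
  | rot (t s : Fld m) (c : ℤ) : FOp m
  /-- `a t *= b` -/
  | mul (t : Fld m) (b : ℕ) : FOp m
  /-- `a t /= b` -/
  | div (t : Fld m) (b : ℕ) : FOp m
  /-- `a t := - a t` -/
  | neg (t : Fld m) : FOp m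

/-- the map of addresses of a free operation -/
def FOp.app {m : ℕ} (Q : ℕ) : FOp m → Addr m Q → Addr m Q
  | .rot t s c, a => Function.update a t (a t + (c : ZMod Q) * a s)
  | .mul t b, a => Function.update a t ((b : ZMod Q) * a t)
  | .div t b, a => Function.update a t ((b : ZMod Q)⁻¹ * a t)
  | .neg t, a => Function.update a t (- a t)

/-- side conditions of the free operations -/
def FOp.ok {m : ℕ} (Den : ℕ) : FOp m → Prop
  | .rot t s _ => s.pos < t.pos
  | .mul _ b => b ∣ Den
  | .div _ b => b ∣ Den
  | .neg _ => True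

/-- interchange of the fields `H_i` and `D_j` -/
def swapAddr {m Q : ℕ} (i j : Fin m) (a : Addr m Q) : Addr m Q :=
  a ∘ Equiv.swap (Sum.inl i) (Sum.inr j)

/-- instructions on `W` wires -/
inductive Ins (W m : ℕ) : Type
  /-- wire `w` receives `x w + x w'` -/
  | xor (w w' : Fin W) : Ins W m
  /-- free address operation on wire `w` -/
  | free (w : Fin W) (op : FOp m) : Ins W m
  /-- child call: interchange of `H_i` and `D_j` on wire `w` -/
  | call (w : Fin W) (i j : Fin m) : Ins W m

/-- side conditions of the instructions -/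
def Ins.ok {W m : ℕ} (Den : ℕ) : Ins W m → Prop
  | .xor _ _ => True
  | .free _ op => op.ok Den
  | .call _ _ _ => True

/-- is the instruction a child call? -/
def Ins.isCall {W m : ℕ} : Ins W m → Bool
  | .call _ _ _ => true
  | _ => false

/-- number of child calls -/
def ncalls {W m : ℕ} (P : List (Ins W m)) : ℕ := P.countP Ins.isCall

/-- semantics of one instruction -/
def Ins.exec {W m : ℕ} (Q : ℕ) {D : Type} [Add D] (x : Fin W → Addr m Q → D) :
    Ins W m → Fin W → Addr m Q → D
  | .xor w w' => Function.update x w (x w + x w')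
  | .free w op => Function.update x w (x w ∘ op.app Q)
  | .call w i j => Function.update x w (x w ∘ swapAddr i j)

/-- semantics of a program -/
def runIns {W m : ℕ} (Q : ℕ) {D : Type} [Add D] (P : List (Ins W m))
    (x : Fin W → Addr m Q → D) : Fin W → Addr m Q → D :=
  P.foldl (Ins.exec Q) x

/-- The program `P` interchanges `H` and `D` on all wires at once (the content of wire `w` ends
on wire `ρ w`), for every modulus `Q ≡ 1 (mod Den)`. -/
structure SwapProg {W m : ℕ} (Den : ℕ) (P : List (Ins W m)) (ρ : Fin W ≃ Fin W) : Prop where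
  den_pos : 0 < Den
  ok : ∀ ins ∈ P, ins.ok Den
  spec : ∀ Q : ℕ, 0 < Q → Q ≡ 1 [MOD Den] →
    ∀ (D : Type) [AddCommGroup D] [Module (ZMod 2) D] (x : Fin W → Addr m Q → D) (w : Fin W),
      runIns Q P x (ρ w) = fun a => x w (a ∘ Sum.swap)

/-- The field-level statement of part A with exponent `τ`. -/
def SpecA (τ : ℝ) : Prop :=
  ∃ (W m Den : ℕ) (P : List (Ins W m)) (ρ : Fin W ≃ Fin W),
    0 < W ∧ 2 ≤ m ∧ SwapProg Den P ρ ∧ (ncalls P : ℝ) ≤ W * (m : ℝ) ^ τ

end Crest.Agent.X326.A
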