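import Mathlib
import Crest.Agent.X326.A.Defs

/-!
Row 326 (S0503), part M2 (fast interchange of two address fields), pure maths, single wire.

An address consists of `2 m` fields of range `Q`: `inl i` are the fields `H_i`, `inr j` are the
fields `D_j`; physically the order (slow to fast) is `H_0, …, H_{m-1}, D_0, …, D_{m-1}` (`Fld.pos`).
Every operation is given in *pull-back* form: the new array is `old ∘ src`.
Free operations (`FOp`, file `A/Defs`): add a multiple of an EARLIER field, multiply / divide by a fixed positive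
integer, negate. The only other operation is the child call: interchange `H_i` and `D_j`.
`Real n φ` : the address map `φ` (for all `Q ≡ 1` modulo a fixed integer) is the pull-back map of
a fixed list of operations with at most `n` child calls.
-/

set_option autoImplicit false

namespace Crest.Agent.X326.A

open Function Matrix

/-- operations on a single wire: free, or the child call interchanging `H_i` and `D_j` -/
inductive SOp (m : ℕ) : Type where
  | free (o : FOp m) : SOp m
  | child (i j : Fin m) : SOp m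

/-- source address of an operation -/
def SOp.src {m : ℕ} (Q : ℕ) : SOp m → Addr m Q → Addr m Q
  | .free o, x => o.app Q x
  | .child i j, x => swapAddr i j x

/-- well-formed operations -/
def SOp.WF {m : ℕ} (Den : ℕ) : SOp m → Prop
  | .free o => o.ok Den
  | .child _ _ => True

/-- is the operation a child call? -/
def SOp.isChild {m : ℕ} : SOp m → Bool
  | .free _ => false
  | .child _ _ => true

/-- source address of a list of operations (in time order) -/
def srcs {m : ℕ} (Q : ℕ) (L : List (SOp m)) (x : Addr m Q) : Addr m Q :=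
  L.foldr (fun o y => o.src Q y) x

@[simp] theorem srcs_nil {m : ℕ} (Q : ℕ) (x : Addr m Q) : srcs Q [] x = x := rfl

@[simp] theorem srcs_cons {m : ℕ} (Q : ℕ) (o : SOp m) (L : List (SOp m)) (x : Addr m Q) :
    srcs Q (o :: L) x = o.src Q (srcs Q L x) := rfl

theorem srcs_append {m : ℕ} (Q : ℕ) (L L' : List (SOp m)) (x : Addr m Q) :
    srcs Q (L ++ L') x = srcs Q L (srcs Q L' x) := by
  simp [srcs, List.foldr_append]

theorem FOp.ok_mono {m : ℕ} {D D' : ℕ} (h : D ∣ D') {o : FOp m} (ho : o.ok D) : o.ok D' := by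
  cases o with
  | rot f g c => exact ho
  | mul f b => exact Dvd.dvd.trans ho h
  | div f b => exact Dvd.dvd.trans ho h
  | neg f => trivial

theorem SOp.WF.mono {m : ℕ} {D D' : ℕ} (h : D ∣ D') {o : SOp m} (ho : o.WF D) : o.WF D' := by
  cases o with
  | free o => exact FOp.ok_mono h ho
  | child i j => trivial

/-- `φ` is realised by a fixed list of operations with at most `n` child calls -/
def Real {m : ℕ} (n : ℕ) (φ : (Q : ℕ) → Addr m Q → Addr m Q) : Prop :=
  ∃ (Den : ℕ) (L : List (SOp m)), 0 < Den ∧ (∀ o ∈ L, o.WF Den) ∧ L.countP SOp.isChild ≤ n ∧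
    ∀ Q : ℕ, Q ≡ 1 [MOD Den] → ∀ x, srcs Q L x = φ Q x

section Closure

variable {m : ℕ}

theorem Real.id : Real (m := m) 0 (fun _ x => x) :=
  ⟨1, [], one_pos, by simp, by simp, fun _ _ _ => rfl⟩

theorem Real.comp {n n' : ℕ} {φ ψ : (Q : ℕ) → Addr m Q → Addr m Q} (h : Real n φ)
    (h' : Real n' ψ) : Real (n + n') (fun Q x => φ Q (ψ Q x)) := by
  obtain ⟨D, L, hD, hW, hc, hs⟩ := h
  obtain ⟨D', L', hD', hW', hc', hs'⟩ := h'
  refine ⟨D * D', L ++ L', Nat.mul_pos hD hD', ?_, ?_, ?_⟩
  · intro o ho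
    rcases List.mem_append.1 ho with ho | ho
    · exact (hW o ho).mono (dvd_mul_right _ _)
    · exact (hW' o ho).mono (dvd_mul_left _ _)
  · rw [List.countP_append]; omega
  · intro Q hQ x
    rw [srcs_append, hs' Q (hQ.of_dvd (dvd_mul_left _ _)), hs Q (hQ.of_dvd (dvd_mul_right _ _))]

theorem Real.congr_mod {n : ℕ} {φ ψ : (Q : ℕ) → Addr m Q → Addr m Q} (h : Real n φ) {b : ℕ}
    (hb : 0 < b) (e : ∀ Q, Q ≡ 1 [MOD b] → ∀ x, φ Q x = ψ Q x) : Real n ψ := by
  obtain ⟨D, L, hD, hW, hc, hs⟩ := h
  refine ⟨D * b, L, Nat.mul_pos hD hb, fun o ho => (hW o ho).mono (dvd_mul_right _ _), hc, ?_⟩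
  intro Q hQ x
  rw [hs Q (hQ.of_dvd (dvd_mul_right _ _)), e Q (hQ.of_dvd (dvd_mul_left _ _))]

theorem Real.congr {n : ℕ} {φ ψ : (Q : ℕ) → Addr m Q → Addr m Q} (h : Real n φ)
    (e : ∀ Q x, φ Q x = ψ Q x) : Real n ψ :=
  h.congr_mod one_pos fun Q _ x => e Q x

theorem Real.mono {n n' : ℕ} {φ : (Q : ℕ) → Addr m Q → Addr m Q} (h : Real n φ) (hn : n ≤ n') :
    Real n' φ := by
  obtain ⟨D, L, hD, hW, hc, hs⟩ := h
  exact ⟨D, L, hD, hW, hc.trans hn, hs⟩

theorem Real.add (f g : Fld m) (h : g.pos < f.pos) (c : ℤ) :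
    Real 0 (fun Q x => update x f (x f + (c : ZMod Q) * x g)) :=
  ⟨1, [.free (.rot f g c)], one_pos, by simpa [SOp.WF, FOp.ok] using h, by simp [SOp.isChild],
    fun _ _ _ => rfl⟩

theorem Real.neg (f : Fld m) : Real 0 (fun _ x => update x f (- x f)) :=
  ⟨1, [.free (.neg f)], one_pos, by simp [SOp.WF, FOp.ok], by simp [SOp.isChild],
    fun _ _ _ => rfl⟩

theorem Real.mulN (f : Fld m) (b : ℕ) (hb : 0 < b) :
    Real 0 (fun Q x => update x f ((b : ZMod Q) * x f)) :=
  ⟨b, [.free (.mul f b)], hb, by simp [SOp.WF, FOp.ok], by simp [SOp.isChild],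
    fun _ _ _ => rfl⟩

theorem Real.divN (f : Fld m) (b : ℕ) (hb : 0 < b) :
    Real 0 (fun Q x => update x f ((b : ZMod Q)⁻¹ * x f)) :=
  ⟨b, [.free (.div f b)], hb, by simp [SOp.WF, FOp.ok], by simp [SOp.isChild],
    fun _ _ _ => rfl⟩

theorem Real.child (i j : Fin m) :
    Real 1 (fun _ x => x ∘ Equiv.swap (Sum.inl i) (Sum.inr j)) :=
  ⟨1, [.child i j], one_pos, by simp [SOp.WF], by simp [SOp.isChild], fun _ _ _ => rfl⟩

/-- a positive integer `b` is invertible modulo `Q ≡ 1 [MOD b]` -/
theorem natCast_mul_inv {Q b : ℕ} (h : Q ≡ 1 [MOD b]) : (b : ZMod Q) * (b : ZMod Q)⁻¹ = 1 := by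
  apply ZMod.coe_mul_inv_eq_one
  have : Nat.gcd Q b = Nat.gcd 1 b := h.gcd_eq
  rw [Nat.gcd_one_left] at this
  exact Nat.Coprime.symm this

/-- an inverse of the integer `b` modulo `Q` -/
def invZ (Q : ℕ) (b : ℤ) : ZMod Q := (b.sign : ZMod Q) * ((b.natAbs : ℕ) : ZMod Q)⁻¹

theorem mul_invZ {Q : ℕ} {b : ℤ} (_hb : b ≠ 0) (h : Q ≡ 1 [MOD b.natAbs]) :
    (b : ZMod Q) * invZ Q b = 1 := by
  have h1 := natCast_mul_inv h
  have h2 : (b : ZMod Q) * (b.sign : ZMod Q) = ((b.natAbs : ℕ) : ZMod Q) := by
    have : b * b.sign = (b.natAbs : ℤ) := by rw [Int.mul_sign_self]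
    rw [← Int.cast_mul, this, Int.cast_natCast]
  unfold invZ
  rw [← mul_assoc, h2, h1]

theorem Real.mulZ (f : Fld m) (b : ℤ) (hb : b ≠ 0) :
    Real 0 (fun Q x => update x f ((b : ZMod Q) * x f)) := by
  have hp : 0 < b.natAbs := Int.natAbs_pos.2 hb
  rcases Int.natAbs_eq b with h | h
  · refine (Real.mulN f _ hp).congr fun Q x => ?_
    conv_rhs => rw [h]
    simp
  · refine ((Real.neg f).comp (Real.mulN f _ hp)).congr fun Q x => ?_
    conv_rhs => rw [h]
    simp

theorem Real.divZ (f : Fld m) (b : ℤ) (hb : b ≠ 0) :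
    Real 0 (fun Q x => update x f (invZ Q b * x f)) := by
  have hp : 0 < b.natAbs := Int.natAbs_pos.2 hb
  rcases lt_or_gt_of_ne hb with h | h
  · refine ((Real.neg f).comp (Real.divN f _ hp)).congr fun Q x => ?_
    simp [invZ, Int.sign_eq_neg_one_of_neg h]
  · refine (Real.divN f _ hp).congr fun Q x => ?_
    simp [invZ, Int.sign_eq_one_of_pos h]

/-- add to the field `f` an integer linear form in earlier fields -/
theorem Real.addForm (f : Fld m) (s : Finset (Fld m)) (c : Fld m → ℤ)
    (h : ∀ g ∈ s, g.pos < f.pos) :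
    Real 0 (fun Q x => update x f (x f + ∑ g ∈ s, (c g : ZMod Q) * x g)) := by
  classical
  induction s using Finset.induction_on with
  | empty => exact Real.id.congr fun Q x => by simp
  | insert a s ha ih =>
    have ha' := h a (Finset.mem_insert_self _ _)
    have hne : a ≠ f := fun e => by rw [e] at ha'; exact lt_irrefl _ ha'
    refine ((Real.add f a ha' (c a)).comp
      (ih fun g hg => h g (Finset.mem_insert_of_mem hg))).congr fun Q x => ?_
    rw [Finset.sum_insert ha]
    simp only [update_self, update_idem, update_of_ne hne]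
    congr 1; ring

/-- subtract from each field of a set a multiple of one earlier field `g` -/
theorem Real.addMany (g : Fld m) (s : Finset (Fld m)) (c : Fld m → ℤ)
    (h : ∀ f ∈ s, g.pos < f.pos) :
    Real 0 (fun Q x f => if f ∈ s then x f + (c f : ZMod Q) * x g else x f) := by
  classical
  induction s using Finset.induction_on with
  | empty => exact Real.id.congr fun Q x => by simp
  | insert a s ha ih =>
    have ha' := h a (Finset.mem_insert_self _ _)
    have hg : g ∉ s := fun hg => lt_irrefl _ (h g (Finset.mem_insert_of_mem hg))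
    refine ((Real.add a g ha' (c a)).comp
      (ih fun f hf => h f (Finset.mem_insert_of_mem hf))).congr fun Q x => ?_
    funext f
    by_cases hf : f = a
    · subst hf; simp [ha, hg]
    · simp [hf]

theorem pos_inl_lt_inr (i j : Fin m) :
    Fld.pos (Sum.inl i : Fld m) < Fld.pos (Sum.inr j : Fld m) := by
  have := i.2
  simp only [Fld.pos]; omega

/-- the elementary shear `H_i += D_j` costs one child call -/
theorem Real.shear1 (i j : Fin m) :
    Real 1 (fun _ x => update x (Sum.inl i) (x (Sum.inl i) + x (Sum.inr j))) := by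
  have h1 := Real.add (Sum.inr j) (Sum.inl i) (pos_inl_lt_inr i j) 1
  refine ((h1.comp (Real.neg (Sum.inr j))).comp ((Real.child i j).comp h1)).congr fun Q x => ?_
  funext f
  by_cases h : f = Sum.inr j
  · subst h; simp
  · by_cases h' : f = Sum.inl i
    · subst h'; simp [add_comm]
    · simp [update_of_ne h, update_of_ne h', Equiv.swap_apply_of_ne_of_ne h' h]

end Closure

/-- the shear `(H, D) ↦ (H + M D, D)` -/
def shear {m : ℕ} (Q : ℕ) (M : Matrix (Fin m) (Fin m) ℤ) (x : Addr m Q) : Addr m Q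
  | .inl i => x (.inl i) + ∑ j, (M i j : ZMod Q) * x (.inr j)
  | .inr j => x (.inr j)

theorem shear_add {m : ℕ} (Q : ℕ) (M M' : Matrix (Fin m) (Fin m) ℤ) (x : Addr m Q) :
    shear Q (M + M') x = shear Q M (shear Q M' x) := by
  funext f
  cases f with
  | inl i =>
    simp only [shear, Matrix.add_apply, Int.cast_add, add_mul, Finset.sum_add_distrib]; ring
  | inr j => rfl

theorem shear_zero {m : ℕ} (Q : ℕ) (x : Addr m Q) : shear Q 0 x = x := by
  funext f
  cases f with
  | inl i => simp [shear]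
  | inr j => rfl

/-- adding multiples of the single field `D_j` to all `H` fields costs one child call -/
theorem Real.col {m : ℕ} (u : Fin m → ℤ) (hu : u ≠ 0) (j : Fin m) :
    Real 1 (fun Q x => Sum.elim (fun l => x (Sum.inl l) + (u l : ZMod Q) * x (Sum.inr j))
      (fun l => x (Sum.inr l))) := by
  classical
  obtain ⟨i, hi, himin⟩ : ∃ i, u i ≠ 0 ∧ ∀ l, l < i → u l = 0 := by
    have hne : (Finset.univ.filter fun i => u i ≠ 0).Nonempty := by
      by_contra hc
      rw [Finset.not_nonempty_iff_eq_empty, Finset.filter_eq_empty_iff] at hc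
      exact hu (funext fun i => by simpa using hc (Finset.mem_univ i))
    refine ⟨_, (Finset.mem_filter.1 (Finset.min'_mem _ hne)).2, fun l hl => ?_⟩
    by_contra hc
    exact absurd (Finset.min'_le _ l (Finset.mem_filter.2 ⟨Finset.mem_univ _, hc⟩)) (not_le.2 hl)
  set sH : Finset (Fld m) :=
    (Finset.univ.filter fun l : Fin m => i < l).map ⟨Sum.inl, Sum.inl_injective⟩ with hsH
  have hH : ∀ f ∈ sH, Fld.pos (Sum.inl i : Fld m) < f.pos := by
    intro g hg
    obtain ⟨l, hl, rfl⟩ := Finset.mem_map.1 hg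
    have : i < l := (Finset.mem_filter.1 hl).2
    simp only [Embedding.coeFn_mk, Fld.pos]; omega
  have hl : ∀ l : Fin m, (Sum.inl l : Fld m) ∈ sH ↔ i < l := by
    intro l; simp [hsH]
  have hr : ∀ l : Fin m, (Sum.inr l : Fld m) ∉ sH := by
    intro l; simp [hsH]
  let cu : Fld m → ℤ := Sum.elim u (fun _ => 0)
  have s3 := Real.divZ (Sum.inl i : Fld m) (u i) hi
  have s4 := Real.addMany (Sum.inl i : Fld m) sH (fun f => - cu f) hH
  have s5 := Real.shear1 i j
  have s6 := Real.addMany (Sum.inl i : Fld m) sH cu hH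
  have s7 := Real.mulZ (Sum.inl i : Fld m) (u i) hi
  have hall := s7.comp (s6.comp (s5.comp (s4.comp s3)))
  refine hall.congr_mod (Int.natAbs_pos.2 hi) fun Q hQ x => ?_
  have e1 := mul_invZ hi hQ
  funext f
  rcases f with l | l
  · rcases lt_trichotomy l i with h | h | h
    · have h1 : (Sum.inl l : Fld m) ≠ Sum.inl i := fun e => h.ne (Sum.inl_injective e)
      have h2 : ¬ i < l := not_lt.2 h.le
      simp [update_of_ne h1, hl, h2, himin l h]
    · subst h
      simp only [update_self, hl, lt_irrefl, if_false, hr, Sum.elim_inl, ne_eq, reduceCtorEq,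
        not_false_eq_true, update_of_ne]
      rw [mul_add, ← mul_assoc, e1, one_mul]
    · have h1 : (Sum.inl l : Fld m) ≠ Sum.inl i := fun e => h.ne' (Sum.inl_injective e)
      simp only [update_of_ne h1, hl, h, if_true, update_self, lt_irrefl, if_false, hr,
        Sum.elim_inl, ne_eq, reduceCtorEq, not_false_eq_true, update_of_ne, cu, Int.cast_neg]
      ring
  · simp [hr]

/-- a rank-one shear costs one child call -/
theorem Real.atom {m : ℕ} (u v : Fin m → ℤ) : Real 1 (fun Q x => shear Q (vecMulVec u v) x) := by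
  classical
  by_cases hu : u = 0
  · refine (Real.id.congr fun Q x => ?_).mono zero_le_one
    rw [hu, Matrix.zero_vecMulVec, shear_zero]
  by_cases hv : v = 0
  · refine (Real.id.congr fun Q x => ?_).mono zero_le_one
    rw [hv, Matrix.vecMulVec_zero, shear_zero]
  obtain ⟨j, hj, hjmax⟩ : ∃ j, v j ≠ 0 ∧ ∀ l, j < l → v l = 0 := by
    have hne : (Finset.univ.filter fun i => v i ≠ 0).Nonempty := by
      by_contra hc
      rw [Finset.not_nonempty_iff_eq_empty, Finset.filter_eq_empty_iff] at hc
      exact hv (funext fun i => by simpa using hc (Finset.mem_univ i))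
    refine ⟨_, (Finset.mem_filter.1 (Finset.max'_mem _ hne)).2, fun l hl => ?_⟩
    by_contra hc
    exact absurd (Finset.le_max' _ l (Finset.mem_filter.2 ⟨Finset.mem_univ _, hc⟩)) (not_le.2 hl)
  set sD : Finset (Fld m) :=
    (Finset.univ.filter fun l : Fin m => l < j).map ⟨Sum.inr, Sum.inr_injective⟩ with hsD
  have hD : ∀ g ∈ sD, g.pos < Fld.pos (Sum.inr j : Fld m) := by
    intro g hg
    obtain ⟨l, hl, rfl⟩ := Finset.mem_map.1 hg
    have : l < j := (Finset.mem_filter.1 hl).2
    simp only [Embedding.coeFn_mk, Fld.pos]; omega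
  let cv : Fld m → ℤ := Sum.elim (fun _ => 0) v
  have s1 := Real.mulZ (Sum.inr j : Fld m) (v j) hj
  have s2 := Real.addForm (Sum.inr j : Fld m) sD cv hD
  have s5 := Real.col u hu j
  have s8 := Real.addForm (Sum.inr j : Fld m) sD (fun f => - cv f) hD
  have s9 := Real.divZ (Sum.inr j : Fld m) (v j) hj
  have hall := s9.comp (s8.comp (s5.comp (s2.comp s1)))
  refine hall.congr_mod (Int.natAbs_pos.2 hj) fun Q hQ x => ?_
  have e2 := mul_invZ hj hQ
  -- the partial sum over the earlier `D` fields
  set σ : ZMod Q := ∑ l ∈ Finset.univ.filter (fun l : Fin m => l < j),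
    (v l : ZMod Q) * x (Sum.inr l) with hσ
  have hsum : ∀ (c : Fld m → ℤ) (y : Addr m Q), (∀ l, l ≠ j → y (Sum.inr l) = x (Sum.inr l)) →
      ∑ g ∈ sD, (c g : ZMod Q) * y g =
        ∑ l ∈ Finset.univ.filter (fun l : Fin m => l < j),
          (c (Sum.inr l) : ZMod Q) * x (Sum.inr l) := by
    intro c y hy
    rw [hsD, Finset.sum_map]
    refine Finset.sum_congr rfl fun l hl => ?_
    simp only [Embedding.coeFn_mk]
    rw [hy l (Finset.mem_filter.1 hl).2.ne]
  have hfull : ∑ l, (v l : ZMod Q) * x (Sum.inr l) = (v j : ZMod Q) * x (Sum.inr j) + σ := by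
    rw [← Finset.sum_filter_add_sum_filter_not Finset.univ (fun l : Fin m => l < j), add_comm]
    congr 1
    rw [Finset.sum_eq_single_of_mem j (by simp)]
    intro l hl hlj
    have : j < l := lt_of_le_of_ne (not_lt.1 (Finset.mem_filter.1 hl).2) (Ne.symm hlj)
    simp [hjmax l this]
  have hne : ∀ l, l ≠ j → (Sum.inr l : Fld m) ≠ Sum.inr j := fun l h e => h (Sum.inr_injective e)
  rw [hsum cv _ (fun l h => by rw [update_of_ne (hne l h)]),
    hsum (fun f => - cv f) _ (fun l h => by
      simp only [Sum.elim_inr]; rw [update_of_ne (hne l h), update_of_ne (hne l h)])]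
  have hneg : ∑ l ∈ Finset.univ.filter (fun l : Fin m => l < j),
      ((- cv (Sum.inr l) : ℤ) : ZMod Q) * x (Sum.inr l) = - σ := by
    rw [hσ, ← Finset.sum_neg_distrib]
    refine Finset.sum_congr rfl fun l _ => ?_
    simp [cv]
  have hpos : ∑ l ∈ Finset.univ.filter (fun l : Fin m => l < j),
      ((cv (Sum.inr l) : ℤ) : ZMod Q) * x (Sum.inr l) = σ := rfl
  rw [hneg, hpos]
  funext f
  rcases f with l | l
  · simp only [ne_eq, reduceCtorEq, not_false_eq_true, update_of_ne, Sum.elim_inl, update_self,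
      shear, vecMulVec_apply, Int.cast_mul, mul_assoc]
    rw [← Finset.mul_sum, hfull]
  · by_cases h : l = j
    · subst h
      simp only [update_self, Sum.elim_inr, shear]
      rw [add_neg_cancel_right, ← mul_assoc, mul_comm (invZ Q (v l)), e2, one_mul]
    · simp only [update_of_ne (hne l h), Sum.elim_inr, shear]

end Crest.Agent.X326.A
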