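import Mathlib
import Crest.Agent.X326.A.FOps
import Crest.Agent.X326.Net.Defs

/-!
Row 326 (S0503), part M2: from a labelled network (`Net.NetSpec` over `ZMod 2` with integer labels,
`full = c • 1`, `c ≠ 0`) to a field-level interchange program (`SwapProg`) with at most as many
child calls as the network has atoms.
-/

set_option autoImplicit false

namespace Crest.Agent.X326.A

open Function Matrix

variable {W m : ℕ}

/-- maps on families of arrays, for all moduli and all data types -/
abbrev MMap (W m : ℕ) : Type 1 :=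
  (Q : ℕ) → (D : Type) → [AddCommGroup D] → [Module (ZMod 2) D] →
    (Fin W → Addr m Q → D) → (Fin W → Addr m Q → D)

/-- `F` is realised by a fixed program with at most `n` child calls -/
def MReal (n : ℕ) (F : MMap W m) : Prop :=
  ∃ (Den : ℕ) (P : List (Ins W m)), 0 < Den ∧ (∀ ins ∈ P, ins.ok Den) ∧ ncalls P ≤ n ∧
    ∀ Q : ℕ, Q ≡ 1 [MOD Den] → ∀ (D : Type) [AddCommGroup D] [Module (ZMod 2) D]
      (x : Fin W → Addr m Q → D), runIns Q P x = F Q D x

theorem Ins.ok_mono {D D' : ℕ} (h : D ∣ D') {o : Ins W m} (ho : o.ok D) : o.ok D' := by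
  cases o with
  | xor w w' => trivial
  | free w op => exact FOp.ok_mono h ho
  | call w i j => trivial

theorem runIns_append (Q : ℕ) {D : Type} [Add D] (P P' : List (Ins W m))
    (x : Fin W → Addr m Q → D) : runIns Q (P ++ P') x = runIns Q P' (runIns Q P x) := by
  simp [runIns, List.foldl_append]

theorem MReal.id : MReal (W := W) (m := m) 0 (fun _ _ _ _ x => x) :=
  ⟨1, [], one_pos, by simp, by simp [ncalls], fun _ _ _ _ _ _ => rfl⟩

/-- first `F`, then `G` -/
theorem MReal.seq {n n' : ℕ} {F G : MMap W m} (h : MReal n F) (h' : MReal n' G) :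
    MReal (n + n') (fun Q D _ _ x => G Q D (F Q D x)) := by
  obtain ⟨E, P, hE, hW, hc, hs⟩ := h
  obtain ⟨E', P', hE', hW', hc', hs'⟩ := h'
  refine ⟨E * E', P ++ P', Nat.mul_pos hE hE', ?_, ?_, ?_⟩
  · intro o ho
    rcases List.mem_append.1 ho with ho | ho
    · exact Ins.ok_mono (dvd_mul_right _ _) (hW o ho)
    · exact Ins.ok_mono (dvd_mul_left _ _) (hW' o ho)
  · unfold ncalls at *; rw [List.countP_append]; omega
  · intro Q hQ D _ _ x
    rw [runIns_append, hs Q (hQ.of_dvd (dvd_mul_right _ _)), hs' Q (hQ.of_dvd (dvd_mul_left _ _))]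

theorem MReal.congr_mod {n : ℕ} {F G : MMap W m} (h : MReal n F) {b : ℕ} (hb : 0 < b)
    (e : ∀ Q, Q ≡ 1 [MOD b] → ∀ (D : Type) [AddCommGroup D] [Module (ZMod 2) D]
      (x : Fin W → Addr m Q → D), F Q D x = G Q D x) : MReal n G := by
  obtain ⟨E, P, hE, hW, hc, hs⟩ := h
  refine ⟨E * b, P, Nat.mul_pos hE hb, fun o ho => Ins.ok_mono (dvd_mul_right _ _) (hW o ho),
    hc, ?_⟩
  intro Q hQ D _ _ x
  rw [hs Q (hQ.of_dvd (dvd_mul_right _ _)), e Q (hQ.of_dvd (dvd_mul_left _ _))]

theorem MReal.congr {n : ℕ} {F G : MMap W m} (h : MReal n F)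
    (e : ∀ Q (D : Type) [AddCommGroup D] [Module (ZMod 2) D]
      (x : Fin W → Addr m Q → D), F Q D x = G Q D x) : MReal n G :=
  h.congr_mod one_pos fun Q _ D _ _ x => e Q D x

theorem MReal.mono {n n' : ℕ} {F : MMap W m} (h : MReal n F) (hn : n ≤ n') : MReal n' F := by
  obtain ⟨E, P, hE, hW, hc, hs⟩ := h
  exact ⟨E, P, hE, hW, hc.trans hn, hs⟩

/-- a single-wire operation as an instruction on wire `w` -/
def SOp.lift (w : Fin W) : SOp m → Ins W m
  | .free o => .free w o
  | .child i j => .call w i j

theorem runIns_lift (Q : ℕ) {D : Type} [Add D] (w : Fin W) (L : List (SOp m))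
    (x : Fin W → Addr m Q → D) :
    runIns Q (L.map (SOp.lift w)) x = update x w (x w ∘ srcs Q L) := by
  induction L generalizing x with
  | nil =>
    have : x w ∘ srcs Q ([] : List (SOp m)) = x w := rfl
    rw [this]; simp [runIns]
  | cons o L ih =>
    have h1 : runIns Q ((o :: L).map (SOp.lift w)) x =
        runIns Q (L.map (SOp.lift w)) (update x w (x w ∘ o.src Q)) := by
      cases o <;> rfl
    rw [h1, ih, update_self, update_idem]
    rfl

theorem MReal.onWire {n : ℕ} {φ : (Q : ℕ) → Addr m Q → Addr m Q} (h : Real n φ) (w : Fin W) :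
    MReal n (fun Q _ _ _ x => update x w (x w ∘ φ Q)) := by
  obtain ⟨E, L, hE, hW, hc, hs⟩ := h
  refine ⟨E, L.map (SOp.lift w), hE, ?_, ?_, ?_⟩
  · intro ins hins
    obtain ⟨o, ho, rfl⟩ := List.mem_map.1 hins
    have := hW o ho
    cases o with
    | free o => exact this
    | child i j => trivial
  · unfold ncalls
    rw [List.countP_map]
    refine le_trans (le_of_eq ?_) hc
    congr 1
    funext o
    cases o <;> rfl
  · intro Q hQ D _ _ x
    rw [runIns_lift]
    congr 2
    funext a
    exact hs Q hQ a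

theorem MReal.onSet {φ : (Q : ℕ) → Addr m Q → Addr m Q} (h : Real 0 φ) (s : Finset (Fin W)) :
    MReal 0 (fun Q _ _ _ x w => if w ∈ s then x w ∘ φ Q else x w) := by
  induction s using Finset.induction_on with
  | empty => exact MReal.id.congr fun Q D _ _ x => by simp
  | insert a s ha ih =>
    refine (ih.seq (MReal.onWire h a)).congr fun Q D _ _ x => ?_
    funext w
    by_cases hw : w = a
    · subst hw; simp [ha]
    · simp [hw]

theorem MReal.onAll {φ : (Q : ℕ) → Addr m Q → Addr m Q} (h : Real 0 φ) :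
    MReal (W := W) 0 (fun Q _ _ _ x w => x w ∘ φ Q) :=
  (MReal.onSet h Finset.univ).congr fun Q D _ _ x => by simp

theorem MReal.addWire (w w' : Fin W) (c : ZMod 2) :
    MReal (m := m) 0 (fun _ _ _ _ x => update x w (x w + c • x w')) := by
  have hc : c = 0 ∨ c = 1 := by revert c; decide
  rcases hc with rfl | rfl
  · exact MReal.id.congr fun Q D _ _ x => by simp
  · refine ⟨1, [.xor w w'], one_pos, by simp [Ins.ok], by simp [ncalls, Ins.isCall], ?_⟩
    intro Q _ D _ _ x
    simp [runIns, Ins.exec]

/-- the physical meaning of an atom: pull back along the rank-one shear -/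
def actA (Q : ℕ) {D : Type} (_e : Matrix (Fin m) (Fin m) ℤ) (u v : Fin m → ℤ)
    (y : Addr m Q → D) : Addr m Q → D :=
  y ∘ shear Q (vecMulVec u v)

theorem MReal.net (P : List (Net.Instr (Fin W) (ZMod 2) ℤ (Fin m))) :
    MReal (Net.natoms P) (fun Q _ _ _ x => Net.run (actA Q) P x) := by
  induction P with
  | nil => exact MReal.id
  | cons ins P ih =>
    cases ins with
    | add w w' c =>
      refine (((MReal.addWire w w' c).seq ih).mono ?_).congr fun Q D _ _ x => rfl
      simp [Net.natoms, Net.Instr.isAtom]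
    | atom w e u v =>
      refine (((MReal.onWire (Real.atom u v) w).seq ih).mono ?_).congr fun Q D _ _ x => rfl
      simp [Net.natoms, Net.Instr.isAtom, List.countP_cons, add_comm]

/-- frame lemma for the shear frames -/
theorem run_actA (Q : ℕ) {D : Type} [AddCommGroup D] [Module (ZMod 2) D]
    (P : List (Net.Instr (Fin W) (ZMod 2) ℤ (Fin m))) (l l' : Fin W → Matrix (Fin m) (Fin m) ℤ)
    (hv : Net.Valid l P l') (x : Fin W → Addr m Q → D) :
    Net.run (actA Q) P (fun w => x w ∘ shear Q (l w)) =
      fun w => Net.logi P x w ∘ shear Q (l' w) := by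
  induction P generalizing l x with
  | nil => cases hv; rfl
  | cons ins P ih =>
    cases ins with
    | add w w' c =>
      obtain ⟨h1, h2⟩ := hv
      have := ih l h2 (update x w (x w + c • x w'))
      refine Eq.trans ?_ this
      show Net.run (actA Q) P (update _ w _) = _
      congr 1
      funext z
      by_cases hz : z = w
      · subst hz
        simp only [update_self]
        rw [← h1]; rfl
      · simp only [update_of_ne hz]
    | atom w e u v =>
      obtain ⟨h1, h2⟩ := hv
      have := ih _ h2 x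
      have h3 : Net.logi (Net.Instr.atom w e u v :: P) x = Net.logi P x := by
        show Net.run _ P (update x w (x w)) = _
        rw [update_eq_self]; rfl
      rw [h3]
      refine Eq.trans ?_ this
      show Net.run (actA Q) P (update _ w _) = _
      congr 1
      funext z
      by_cases hz : z = w
      · subst hz
        simp only [update_self, actA]
        funext a
        simp only [Function.comp_apply, shear_add, h1]
      · simp only [update_of_ne hz]

/-- the network applies the shear `full` to every wire -/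
theorem net_shear {sym : Prop} {full : Matrix (Fin m) (Fin m) ℤ}
    {P : List (Net.Instr (Fin W) (ZMod 2) ℤ (Fin m))} {ρ : Fin W ≃ Fin W}
    {lin lout : Fin W → Matrix (Fin m) (Fin m) ℤ} (h : Net.NetSpec (ZMod 2) sym full P ρ lin lout)
    (Q : ℕ) {D : Type} [AddCommGroup D] [Module (ZMod 2) D] (a : Fin W → Addr m Q → D)
    (w : Fin W) : Net.run (actA Q) P a (ρ w) = a w ∘ shear Q full := by
  have h1 := run_actA Q P lin lout h.valid (fun w => a w ∘ shear Q (- lin w))
  have h2 : (fun w => (a w ∘ shear Q (- lin w)) ∘ shear Q (lin w)) = a := by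
    funext w y
    simp only [Function.comp_apply, ← shear_add, neg_add_cancel, shear_zero]
  rw [h2] at h1
  rw [h1]
  simp only [h.logical, h.label]
  funext y
  simp only [Function.comp_apply, ← shear_add, neg_add_cancel_left]

/-- an operation applied to every `D` field -/
theorem Real.allD (ψ : (Q : ℕ) → ZMod Q → ZMod Q → ZMod Q)
    (h : ∀ j : Fin m, Real 0 (fun Q x => update x (Sum.inr j)
      (ψ Q (x (Sum.inl j)) (x (Sum.inr j))))) :
    Real (m := m) 0 (fun Q x => Sum.elim (fun j => x (Sum.inl j))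
      (fun j => ψ Q (x (Sum.inl j)) (x (Sum.inr j)))) := by
  have key : ∀ s : Finset (Fin m), Real (m := m) 0 (fun Q x => Sum.elim (fun j => x (Sum.inl j))
      (fun j => if j ∈ s then ψ Q (x (Sum.inl j)) (x (Sum.inr j)) else x (Sum.inr j))) := by
    intro s
    induction s using Finset.induction_on with
    | empty =>
      refine Real.id.congr fun Q x => ?_
      funext f; rcases f with j | j <;> simp
    | insert a s ha ih =>
      refine ((h a).comp ih).congr fun Q x => ?_
      funext f
      rcases f with j | j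
      · simp
      · by_cases hj : j = a
        · subst hj; simp [ha]
        · simp [hj]
  exact (key Finset.univ).congr fun Q x => by simp

/-- **M2, field level.** A network whose contents all gain the label `c • 1` (`c ≠ 0`) gives an
interchange program with no more child calls than atoms. -/
theorem swapProg_of_netSpec {sym : Prop} {c : ℤ} (hc : c ≠ 0)
    {P : List (Net.Instr (Fin W) (ZMod 2) ℤ (Fin m))} {ρ : Fin W ≃ Fin W}
    {lin lout : Fin W → Matrix (Fin m) (Fin m) ℤ}
    (h : Net.NetSpec (ZMod 2) sym (c • (1 : Matrix (Fin m) (Fin m) ℤ)) P ρ lin lout) :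
    ∃ (Den : ℕ) (P' : List (Ins W m)), SwapProg Den P' ρ ∧ ncalls P' ≤ Net.natoms P := by
  -- applied to the address first: `D ↦ (D - H) / c`
  have hα : Real (m := m) 0 (fun Q x => Sum.elim (fun j => x (Sum.inl j))
      (fun j => invZ Q c * (x (Sum.inr j) - x (Sum.inl j)))) := by
    refine Real.allD (fun Q a b => invZ Q c * (b - a)) fun j => ?_
    refine ((Real.divZ (Sum.inr j) c hc).comp
      (Real.add (Sum.inr j) (Sum.inl j) (pos_inl_lt_inr j j) (-1))).congr fun Q x => ?_
    simp only [update_self, update_idem]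
    congr 1; push_cast; ring
  -- applied to the address last: `D ↦ H - c D`
  have hβ : Real (m := m) 0 (fun Q x => Sum.elim (fun j => x (Sum.inl j))
      (fun j => x (Sum.inl j) - (c : ZMod Q) * x (Sum.inr j))) := by
    refine Real.allD (fun Q a b => a - (c : ZMod Q) * b) fun j => ?_
    refine ((Real.add (Sum.inr j) (Sum.inl j) (pos_inl_lt_inr j j) 1).comp
      (Real.mulZ (Sum.inr j) (-c) (neg_ne_zero.2 hc))).congr fun Q x => ?_
    simp only [update_self, update_idem, ne_eq, reduceCtorEq, not_false_eq_true, update_of_ne]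
    congr 1; push_cast; ring
  obtain ⟨E, P', hE, hok, hn, hs⟩ :=
    ((MReal.onAll (W := W) hβ).seq (MReal.net P)).seq (MReal.onAll hα)
  refine ⟨E * c.natAbs, P', ⟨Nat.mul_pos hE (Int.natAbs_pos.2 hc),
    fun ins hins => Ins.ok_mono (dvd_mul_right _ _) (hok ins hins), ?_⟩, by omega⟩
  intro Q _ hQ D _ _ x w
  have e := mul_invZ hc (hQ.of_dvd (dvd_mul_left _ _))
  rw [hs Q (hQ.of_dvd (dvd_mul_right _ _))]
  simp only [net_shear h]
  funext a
  simp only [Function.comp_apply]
  congr 1
  have hsh : ∀ (y : Addr m Q) (i : Fin m), shear Q (c • (1 : Matrix (Fin m) (Fin m) ℤ)) y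
      (Sum.inl i) = y (Sum.inl i) + (c : ZMod Q) * y (Sum.inr i) := by
    intro y i
    simp only [shear, Matrix.smul_apply, Matrix.one_apply, smul_eq_mul]
    rw [Finset.sum_eq_single i] <;> simp +contextual [eq_comm]
  funext f
  rcases f with j | j
  · simp only [Sum.elim_inl, hsh, Sum.elim_inr, Function.comp_apply, Sum.swap_inl]
    rw [← mul_assoc, e]; ring
  · have hr : ∀ (y : Addr m Q), shear Q (c • (1 : Matrix (Fin m) (Fin m) ℤ)) y (Sum.inr j) =
        y (Sum.inr j) := fun _ => rfl
    simp only [Sum.elim_inl, hsh, hr, Sum.elim_inr, Function.comp_apply, Sum.swap_inr]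
    ring

/-- `SpecA` from a network with few atoms -/
theorem specA_of_netSpec {sym : Prop} {c : ℤ} (hc : c ≠ 0)
    {P : List (Net.Instr (Fin W) (ZMod 2) ℤ (Fin m))} {ρ : Fin W ≃ Fin W}
    {lin lout : Fin W → Matrix (Fin m) (Fin m) ℤ}
    (h : Net.NetSpec (ZMod 2) sym (c • (1 : Matrix (Fin m) (Fin m) ℤ)) P ρ lin lout)
    (hW : 0 < W) (hm : 2 ≤ m) {τ : ℝ} (hn : (Net.natoms P : ℝ) ≤ W * (m : ℝ) ^ τ) : SpecA τ := by
  obtain ⟨Den, P', hP, hc'⟩ := swapProg_of_netSpec hc h
  exact ⟨W, m, Den, P', ρ, hW, hm, hP, le_trans (by exact_mod_cast hc') hn⟩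

end Crest.Agent.X326.A
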