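import Crest.Agent.X326.A.Alg
import Crest.Agent.X326.A.Prog
import Crest.Agent.X326.Net.Nets
import Crest.Agent.X326.TC.TU
import Crest.Agent.X326.Top.SO

/-!
Row 326 (S0503), part M2: the statements of part A.

* `RecStatement`  : the recursion (range `R ^ E`, bit records of width `z0 * W ^ dep m E`);
* `SwapStatement` : the final interchange (any range, any coded record type).
-/

set_option autoImplicit false

namespace Crest.Agent.X326.A

open Crest.Agent.Lib.PT

/-- recursion depth: the number of digits of `E` in base `m` -/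
def dep (m E : ℕ) : ℕ := if E = 0 then 0 else Nat.log m E + 1

theorem dep_zero (m : ℕ) : dep m 0 = 0 := rfl

theorem dep_pos {m E : ℕ} (hm : 2 ≤ m) (hE : E ≠ 0) : dep m E = dep m (E / m) + 1 := by
  unfold dep
  rw [if_neg hE]
  by_cases h : E < m
  · rw [Nat.div_eq_of_lt h, if_pos rfl, Nat.log_of_lt h]
  · have : E / m ≠ 0 := (Nat.div_pos (by omega) (by omega)).ne'
    rw [if_neg this, Nat.log_of_one_lt_of_le (by omega) (by omega)]

theorem pow_dep_le (m E : ℕ) : m ^ dep m E ≤ m * E + 1 := by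
  unfold dep
  split_ifs with h
  · simp
  · rw [pow_succ, Nat.mul_comm]
    exact (Nat.mul_le_mul_left m (Nat.pow_log_le_self m h)).trans (Nat.le_succ _)

theorem dep_le_size {m : ℕ} (hm : 2 ≤ m) (E : ℕ) : dep m E ≤ Nat.size E := by
  unfold dep
  split_ifs with h
  · omega
  · refine Nat.lt_size.2 ?_
    exact (Nat.pow_le_pow_left hm _).trans (Nat.pow_log_le_self m h)

/-- The recursion of part A: range `(Den + 1) ^ E`, bit records of width `z0 * W ^ dep m E`
(`z0` is only a ghost parameter). -/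
def RecStatement : Prop :=
  ∀ (W m Den : ℕ) (Pg : List (Ins W m)) (ρ : Fin W ≃ Fin W) (s : ℕ),
    0 < W → 2 ≤ m → SwapProg Den Pg ρ → ncalls Pg ≤ s → W < s →
    ∃ k : ℕ, ∀ (ι : Type) [PTCode ι] (P : ι → Prop) (T : ι → ℕ) (E wH wD z0 : ι → ℕ)
      (l : ι → Arr), TU P T E → TC P T wH → TC P T wD → TC P T l →
      (∀ x, P x → 0 < (l x).length ∧ Geo ((Den + 1) ^ E x) (wH x) (wD x) (l x).length ∧
        ∀ r ∈ l x, r.length = z0 x * W ^ dep m (E x)) →
      Bud P T (fun x => s ^ dep m (E x) *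
        ((l x).length * (z0 x + (Nat.size (l x).length + 1) ^ k))) →
      TC P T (fun x => swapL [] ((Den + 1) ^ E x) (wH x) (wD x) (l x))

/-- Part A: the interchange of two digits of any range `Q` on an array of records of any coded
type (`B` is only a bound for the sizes of the records, not an input). -/
def SwapStatement (τ : ℝ) : Prop :=
  ∃ k : ℕ, ∀ (ι α : Type) [PTCode ι] [PTCode α] (P : ι → Prop) (T : ι → ℕ)
    (Q wH wD B : ι → ℕ) (d : α) (l : ι → List α),
    TC P T Q → TC P T wH → TC P T wD → TC P T l →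
    (∀ x, P x → Geo (Q x) (wH x) (wD x) (l x).length ∧ ∀ r ∈ l x, sz r ≤ B x) →
    Bud P T (fun x => (l x).length * (B x + 1) * pw τ (Nat.size (Q x) + 1) +
      (l x).length * (Nat.size (l x).length + 1) ^ k) →
    TC P T (fun x => swapL d (Q x) (wH x) (wD x) (l x))

/-- the exponent of part A -/
noncomputable def tauA : ℝ := 1 - 1 / (2 : ℝ) ^ 40

theorem tauA_pos : 0 < tauA := by unfold tauA; norm_num

theorem tauA_le_one : tauA ≤ 1 := by unfold tauA; norm_num

/-- the field-level program -/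
theorem exists_prog : ∃ (W m Den : ℕ) (Pg : List (Ins W m)) (ρ : Fin W ≃ Fin W) (s : ℕ),
    0 < W ∧ 2 ≤ m ∧ SwapProg Den Pg ρ ∧ ncalls Pg ≤ s ∧ W < s ∧
      (s : ℝ) ≤ W * (m : ℝ) ^ tauA := by
  obtain ⟨W, m, hW, hm, P, ρ, lin, lout, h, -, hn⟩ := Net.netA
  obtain ⟨Den, Pg, hP, hc⟩ := swapProg_of_netSpec (by norm_num) h
  have hW0 : 0 < W := by rw [hW]; positivity
  have hm4 : 4 ≤ m := by rw [hm]; norm_num
  have h2 : (2 : ℝ) ≤ (m : ℝ) ^ tauA := by
    have h4 : (4 : ℝ) ≤ m := by exact_mod_cast hm4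
    calc (2 : ℝ) = (4 : ℝ) ^ (1 / 2 : ℝ) := by
          rw [show (4 : ℝ) = 2 ^ (2 : ℝ) by norm_num, ← Real.rpow_mul (by norm_num)]; norm_num
      _ ≤ (m : ℝ) ^ (1 / 2 : ℝ) := Real.rpow_le_rpow (by norm_num) h4 (by norm_num)
      _ ≤ (m : ℝ) ^ tauA :=
          Real.rpow_le_rpow_of_exponent_le (by linarith) (by unfold tauA; norm_num)
  refine ⟨W, m, Den, Pg, ρ, max (ncalls Pg) (2 * W), hW0, by omega, hP, le_max_left _ _,
    lt_of_lt_of_le (by omega) (le_max_right _ _), ?_⟩
  rw [Nat.cast_max]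
  refine max_le (le_trans (by exact_mod_cast hc) hn) ?_
  have hW' : (0 : ℝ) ≤ W := Nat.cast_nonneg W
  push_cast
  nlinarith

end Crest.Agent.X326.A
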