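import Crest.Agent.X326.A.Perm

/-!
Row 326 (S0503), part M2: gathers and free address operations on flat lists (pure part).

* `ColMono K n len col src` : `src` is monotone on each of `K` colour classes (the condition under
  which a gather is linear time, see `A/FreeTC.lean`);
* `IdxPerm n σ`   : `σ` permutes `0, …, n-1`;
* index maps `addIdx`, `rotIdx`, `mulIdx`, `divIdx`, `cplIdx`, `negIdx`, `revIdx` acting on the digit
  of weight `w` and range `q`.
-/

set_option autoImplicit false

namespace Crest.Agent.X326.A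

section gat

variable {α β : Type}

/-- `src` is monotone on each of the `K` colour classes (entries out of range are ignored) -/
structure ColMono (K n len : ℕ) (col src : ℕ → ℕ) : Prop where
  col_lt : ∀ j, j < n → src j < len → col j < K
  mono : ∀ j j', j < j' → j' < n → src j < len → src j' < len → col j = col j' → src j ≤ src j'

/-- `σ` permutes the indices below `n` -/
structure IdxPerm (n : ℕ) (σ : ℕ → ℕ) : Prop where
  lt : ∀ j, j < n → σ j < n
  inj : ∀ j j', j < n → j' < n → σ j = σ j' → j = j'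

theorem ColMono.of_le {K K' n len : ℕ} {col src : ℕ → ℕ} (h : ColMono K n len col src)
    (hK : K ≤ K') : ColMono K' n len col src :=
  ⟨fun j h1 h2 => (h.col_lt j h1 h2).trans_le hK, h.mono⟩

theorem ColMono.congr {K n len : ℕ} {col src src' : ℕ → ℕ} (h : ColMono K n len col src)
    (e : ∀ j, j < n → src j = src' j) : ColMono K n len col src' :=
  ⟨fun j h1 h2 => h.col_lt j h1 (by rwa [e j h1]), fun j j' h1 h2 h3 h4 h5 => by
    rw [← e j (h1.trans h2)] at h3 ⊢
    rw [← e j' h2] at h4 ⊢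
    exact h.mono j j' h1 h2 h3 h4 h5⟩

/-- a monotone gather needs one colour -/
theorem colMono_one {n len : ℕ} {src : ℕ → ℕ}
    (h : ∀ j j', j < j' → j' < n → src j < len → src j' < len → src j ≤ src j') :
    ColMono 1 n len (fun _ => 0) src :=
  ⟨fun _ _ _ => Nat.one_pos, fun j j' h1 h2 h3 h4 _ => h j j' h1 h2 h3 h4⟩

theorem IdxPerm.id (n : ℕ) : IdxPerm n (fun j => j) := ⟨fun _ h => h, fun _ _ _ _ h => h⟩

theorem IdxPerm.comp {n : ℕ} {σ τ : ℕ → ℕ} (hσ : IdxPerm n σ) (hτ : IdxPerm n τ) :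
    IdxPerm n (fun j => σ (τ j)) :=
  ⟨fun j h => hσ.lt _ (hτ.lt j h),
    fun j j' h h' e => hτ.inj j j' h h' (hσ.inj _ _ (hτ.lt j h) (hτ.lt j' h') e)⟩

theorem IdxPerm.congr {n : ℕ} {σ τ : ℕ → ℕ} (hσ : IdxPerm n σ) (h : ∀ j, j < n → σ j = τ j) :
    IdxPerm n τ :=
  ⟨fun j hj => h j hj ▸ hσ.lt j hj,
    fun j j' hj hj' e => hσ.inj j j' hj hj' (by rw [h j hj, h j' hj', e])⟩

theorem IdxPerm.map_range_perm {n : ℕ} {σ : ℕ → ℕ} (hσ : IdxPerm n σ) :
    ((List.range n).map σ).Perm (List.range n) := by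
  have hnd : ((List.range n).map σ).Nodup :=
    (List.nodup_range).map_on fun j hj j' hj' e =>
      hσ.inj j j' (List.mem_range.1 hj) (List.mem_range.1 hj') e
  refine (List.subperm_of_subset hnd fun a ha => ?_).perm_of_length_le (by simp)
  obtain ⟨j, hj, rfl⟩ := List.mem_map.1 ha
  exact List.mem_range.2 (hσ.lt j (List.mem_range.1 hj))

theorem IdxPerm.surj {n : ℕ} {σ : ℕ → ℕ} (hσ : IdxPerm n σ) {i : ℕ} (hi : i < n) :
    ∃ j, j < n ∧ σ j = i := by
  obtain ⟨j, hj, e⟩ := List.mem_map.1 (hσ.map_range_perm.symm.subset (List.mem_range.2 hi))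
  exact ⟨j, List.mem_range.1 hj, e⟩

/-- pulling back along a permutation of the indices permutes the list -/
theorem IdxPerm.perm (d : α) {σ : ℕ → ℕ} {l : List α} (hσ : IdxPerm l.length σ) :
    (A.perm d σ l).Perm l := by
  have h := hσ.map_range_perm.map (fun j => l.getD j d)
  rw [List.map_map] at h
  have e : (List.range l.length).map (fun j => l.getD j d) = l := perm_id d l
  rw [e] at h
  exact h

/-- an injective gather (on the entries in range) uses every record at most once -/
theorem filter_gath_subperm {n : ℕ} {σ : ℕ → ℕ} (d : α) (l : List α)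
    (h : ∀ j j', j < n → j' < n → σ j < l.length → σ j = σ j' → j = j') :
    (((List.range n).filter fun j => σ j < l.length).map fun j => l.getD (σ j) d).Subperm l := by
  have hnd : (((List.range n).filter fun j => σ j < l.length).map σ).Nodup :=
    (List.nodup_range.filter _).map_on fun j hj j' hj' e => by
      rw [List.mem_filter, List.mem_range] at hj hj'
      exact h j j' hj.1 hj'.1 (by simpa using hj.2) e
  have hs : (((List.range n).filter fun j => σ j < l.length).map σ).Subperm
      (List.range l.length) := List.subperm_of_subset hnd fun a ha => by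
    obtain ⟨j, hj, rfl⟩ := List.mem_map.1 ha
    rw [List.mem_filter] at hj
    exact List.mem_range.2 (by simpa using hj.2)
  obtain ⟨m, hm1, hm2⟩ := hs
  have e : (List.range l.length).map (fun j => l.getD j d) = l := perm_id d l
  refine ⟨m.map fun j => l.getD j d, ?_, ?_⟩
  · have := hm1.map (fun j => l.getD j d)
    rwa [List.map_map] at this
  · have := hm2.map (fun j => l.getD j d)
    rwa [e] at this

end gat

/-! ### explicit three-field indices -/

section mk

variable {Q Z p y z : ℕ}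

theorem mk_div (hy : y < Q) (hz : z < Z) : ((p * Q + y) * Z + z) / (Z * Q) = p := by
  have h1 : (p * Q + y) * Z + z = Z * Q * p + (y * Z + z) := by ring
  have h2 : y * Z + z < Z * Q := by nlinarith
  rw [h1, Nat.mul_add_div (by omega), Nat.div_eq_of_lt h2, add_zero]

theorem mk_mod (hz : z < Z) : ((p * Q + y) * Z + z) % Z = z := by
  rw [Nat.mul_comm, Nat.mul_add_mod, Nat.mod_eq_of_lt hz]

theorem dig_mk (hy : y < Q) (hz : z < Z) : dig Z Q ((p * Q + y) * Z + z) = y := by
  rw [dig, Nat.mul_comm, Nat.mul_add_div (by omega), Nat.div_eq_of_lt hz, add_zero,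
    Nat.mul_comm, Nat.mul_add_mod, Nat.mod_eq_of_lt hy]

theorem setDig_mk (hy : y < Q) (hz : z < Z) (v : ℕ) :
    setDig Z Q ((p * Q + y) * Z + z) v = (p * Q + v) * Z + z := by
  rw [setDig, mk_div hy hz, mk_mod hz]
  ring

theorem mk_lt {P : ℕ} (hp : p < P) (hy : y < Q) (hz : z < Z) :
    (p * Q + y) * Z + z < P * Q * Z := by
  have h1 : p * Q + y + 1 ≤ P * Q := by nlinarith
  nlinarith

theorem eq_mk (Q Z j : ℕ) : j = (j / (Z * Q) * Q + dig Z Q j) * Z + j % Z := by
  have := setDig_self Z Q j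
  unfold setDig at this
  nlinarith

end mk

/-! ### maps of one digit -/

section digit

/-- add `off j` to the digit, modulo `q` -/
def addIdx (w q : ℕ) (off : ℕ → ℕ) (j : ℕ) : ℕ := setDig w q j ((dig w q j + off j) % q)

/-- rotate the digit by an offset read off the earlier fields -/
def rotIdx (w q : ℕ) (δ : ℕ → ℕ) (j : ℕ) : ℕ := addIdx w q (fun j => δ (j / (w * q))) j

/-- multiply the digit by `b`, modulo `q` -/
def mulIdx (w q b j : ℕ) : ℕ := setDig w q j (b * dig w q j % q)

/-- divide the digit by `b`, modulo `q ≡ 1 (mod b)` -/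
def divIdx (w q b j : ℕ) : ℕ := setDig w q j (divN q b (dig w q j))

/-- complement `y ↦ q - 1 - y` of the digit -/
def cplIdx (w q j : ℕ) : ℕ := setDig w q j (q - 1 - dig w q j)

/-- negation of the digit modulo `q` -/
def negIdx (w q j : ℕ) : ℕ := setDig w q j ((q - dig w q j) % q)

/-- reversal inside the blocks of length `B` -/
def revIdx (B j : ℕ) : ℕ := j / B * B + (B - 1 - j % B)

variable {w q n len K : ℕ}

theorem idxPerm_setDig {f : ℕ → ℕ} (hw : 0 < w) (hn : w * q ∣ n) (hf : ∀ j, f j < q)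
    (hinj : ∀ j j', j / (w * q) = j' / (w * q) → j % w = j' % w → f j = f j' →
      dig w q j = dig w q j') : IdxPerm n (fun j => setDig w q j (f j)) := by
  refine ⟨fun j hj => setDig_lt hw (hf j) hn hj, fun j j' _ _ e => ?_⟩
  have e1 : j / (w * q) = j' / (w * q) := by
    rw [← setDig_div hw (hf j), ← setDig_div (j := j') hw (hf j')]
    exact congrArg (· / (w * q)) e
  have e2 : j % w = j' % w := by
    rw [← setDig_mod w q j (f j), ← setDig_mod w q j' (f j')]
    exact congrArg (· % w) e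
  have e3 : f j = f j' := by
    rw [← dig_setDig (j := j) hw (hf j), ← dig_setDig (j := j') hw (hf j')]
    exact congrArg (dig w q) e
  exact idx_ext w q e1 (hinj j j' e1 e2 e3) e2

theorem colMono_setDig {f col : ℕ → ℕ} (hw : 0 < w) (hf : ∀ j, f j < q) (hc : ∀ j, col j < K)
    (h1 : ∀ j j', col j = col j' → j / (w * q) = j' / (w * q) → dig w q j < dig w q j' →
      f j < f j')
    (h2 : ∀ j j', col j = col j' → j / (w * q) = j' / (w * q) → dig w q j = dig w q j' →
      f j = f j') : ColMono K n len col (fun j => setDig w q j (f j)) :=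
  ⟨fun j _ _ => hc j, fun j j' hj _ _ _ e =>
    (setDig_lt_setDig hw (hf j) hj (h1 j j' e) (h2 j j' e)).le⟩

theorem add_mod_inj {a b c : ℕ} (ha : a < q) (hb : b < q) (h : (a + c) % q = (b + c) % q) :
    a = b := by
  have := Nat.ModEq.add_right_cancel' c h
  rwa [Nat.ModEq, Nat.mod_eq_of_lt ha, Nat.mod_eq_of_lt hb] at this

theorem mod_lt_mod_of_div_eq {a b : ℕ} (h : a < b) (e : a / q = b / q) : a % q < b % q := by
  have h1 := Nat.div_add_mod a q
  have h2 := Nat.div_add_mod b q
  rw [e] at h1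
  omega

/-- an addition whose offset does not depend on the digit itself is a permutation -/
theorem idxPerm_addIdx {off : ℕ → ℕ} (hw : 0 < w) (hq : 0 < q) (hn : w * q ∣ n)
    (hoff : ∀ j j', j / (w * q) = j' / (w * q) → j % w = j' % w → off j = off j') :
    IdxPerm n (addIdx w q off) :=
  idxPerm_setDig hw hn (fun _ => Nat.mod_lt _ hq) fun j j' e1 e2 e3 =>
    add_mod_inj (dig_lt hq) (dig_lt hq) (by rw [e3, hoff j j' e1 e2])

/-- colour of an addition: `c0 j` (which together with the earlier fields determines the offset)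
and the carry -/
def addCol (w q : ℕ) (off c0 : ℕ → ℕ) (j : ℕ) : ℕ := 2 * c0 j + (dig w q j + off j % q) / q

theorem colMono_addIdx {off c0 : ℕ → ℕ} (hw : 0 < w) (hq : 0 < q) (hc : ∀ j, c0 j < K)
    (hoff : ∀ j j', c0 j = c0 j' → j / (w * q) = j' / (w * q) → off j = off j') :
    ColMono (2 * K) n len (addCol w q off c0) (addIdx w q off) := by
  have hcar : ∀ j, (dig w q j + off j % q) / q < 2 := fun j => by
    have h1 : dig w q j < q := dig_lt hq
    have h2 : off j % q < q := Nat.mod_lt _ hq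
    rw [Nat.div_lt_iff_lt_mul hq]
    omega
  have key : ∀ j j', addCol w q off c0 j = addCol w q off c0 j' → c0 j = c0 j' ∧
      (dig w q j + off j % q) / q = (dig w q j' + off j' % q) / q := fun j j' e => by
    have h1 := hcar j
    have h2 := hcar j'
    unfold addCol at e
    generalize (dig w q j + off j % q) / q = a at *
    generalize (dig w q j' + off j' % q) / q = b at *
    omega
  refine colMono_setDig hw (fun _ => Nat.mod_lt _ hq) (fun j => ?_) (fun j j' e e1 e2 => ?_)
    (fun j j' e e1 e2 => ?_)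
  · have h1 := hcar j
    have h2 := hc j
    unfold addCol
    omega
  · obtain ⟨a, b⟩ := key j j' e
    rw [← Nat.add_mod_mod, ← Nat.add_mod_mod (dig w q j')]
    refine mod_lt_mod_of_div_eq ?_ b
    rw [hoff j j' a e1]
    omega
  · rw [e2, hoff j j' (key j j' e).1 e1]

theorem idxPerm_rotIdx (δ : ℕ → ℕ) (hw : 0 < w) (hq : 0 < q) (hn : w * q ∣ n) :
    IdxPerm n (rotIdx w q δ) :=
  idxPerm_addIdx hw hq hn fun j j' e _ => by simp only [e]

theorem colMono_rotIdx (δ : ℕ → ℕ) (hw : 0 < w) (hq : 0 < q) :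
    ColMono 2 n len (addCol w q (fun j => δ (j / (w * q))) fun _ => 0) (rotIdx w q δ) :=
  colMono_addIdx (K := 1) hw hq (fun _ => Nat.one_pos) fun j j' _ e => by simp only [e]

theorem rotIdx_mk {Q Z p y z : ℕ} (δ : ℕ → ℕ) (hy : y < Q) (hz : z < Z) :
    rotIdx Z Q δ ((p * Q + y) * Z + z) = (p * Q + (y + δ p) % Q) * Z + z := by
  simp only [rotIdx, addIdx]
  rw [mk_div hy hz, dig_mk hy hz, setDig_mk hy hz]

theorem mul_mod_inj {a a' b : ℕ} (hb : Nat.Coprime q b) (ha : a < q) (ha' : a' < q)
    (h : b * a % q = b * a' % q) : a = a' := by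
  have := Nat.ModEq.cancel_left_of_coprime hb h
  rwa [Nat.ModEq, Nat.mod_eq_of_lt ha, Nat.mod_eq_of_lt ha'] at this

theorem idxPerm_mulIdx {b : ℕ} (hw : 0 < w) (hq : 0 < q) (hb : Nat.Coprime q b)
    (hn : w * q ∣ n) : IdxPerm n (mulIdx w q b) :=
  idxPerm_setDig hw hn (fun _ => Nat.mod_lt _ hq) fun _ _ _ _ e =>
    mul_mod_inj hb (dig_lt hq) (dig_lt hq) e

theorem mul_div_lt {b a : ℕ} (hb : 0 < b) (ha : a < q) : b * a / q < b := by
  rw [Nat.div_lt_iff_lt_mul (by omega)]
  exact Nat.mul_lt_mul_of_pos_left ha hb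

theorem colMono_mulIdx {b : ℕ} (hw : 0 < w) (hq : 0 < q) (hb : 0 < b) :
    ColMono b n len (fun j => b * dig w q j / q) (mulIdx w q b) :=
  colMono_setDig hw (fun _ => Nat.mod_lt _ hq) (fun _ => mul_div_lt hb (dig_lt hq))
    (fun _ _ e _ h => mod_lt_mod_of_div_eq (Nat.mul_lt_mul_of_pos_left h hb) e)
    (fun _ _ _ _ h => by rw [h])

theorem divN_inj {b x y : ℕ} (hb : 0 < b) (hqb : q ≡ 1 [MOD b]) (hx : x < q) (hy : y < q)
    (h : divN q b x = divN q b y) : x = y := by
  have h1 := divN_spec (x := x) hb hqb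
  have h2 := divN_spec (x := y) hb hqb
  have h3 : (x + (b - x % b) % b * q) % q = (y + (b - y % b) % b * q) % q := by
    rw [← h1, ← h2, h]
  rwa [Nat.add_mul_mod_self_right, Nat.add_mul_mod_self_right, Nat.mod_eq_of_lt hx,
    Nat.mod_eq_of_lt hy] at h3

theorem idxPerm_divIdx {b : ℕ} (hw : 0 < w) (hq : 0 < q) (hb0 : 0 < b) (hb : q ≡ 1 [MOD b])
    (hn : w * q ∣ n) : IdxPerm n (divIdx w q b) :=
  idxPerm_setDig hw hn (fun _ => divN_lt hb0 (dig_lt hq)) fun _ _ _ _ e =>
    divN_inj hb0 hb (dig_lt hq) (dig_lt hq) e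

theorem colMono_divIdx {b : ℕ} (hw : 0 < w) (hq : 0 < q) (hb0 : 0 < b) (hb : q ≡ 1 [MOD b]) :
    ColMono b n len (fun j => dig w q j % b) (divIdx w q b) :=
  colMono_setDig hw (fun _ => divN_lt hb0 (dig_lt hq)) (fun _ => Nat.mod_lt _ hb0)
    (fun _ _ e _ h => divN_lt_divN hb0 hb h e) (fun _ _ _ _ h => by rw [h])

theorem idxPerm_cplIdx (hw : 0 < w) (hq : 0 < q) (hn : w * q ∣ n) : IdxPerm n (cplIdx w q) :=
  idxPerm_setDig hw hn (fun _ => by omega) fun j j' _ _ e => by
    have h1 : dig w q j < q := dig_lt hq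
    have h2 : dig w q j' < q := dig_lt hq
    omega

theorem setDig_setDig {j u v : ℕ} (hw : 0 < w) (hu : u < q) :
    setDig w q (setDig w q j u) v = setDig w q j v := by
  rw [setDig, setDig_div hw hu, setDig_mod, setDig]

theorem negIdx_eq (hw : 0 < w) (hq : 0 < q) (j : ℕ) :
    negIdx w q j = rotIdx w q (fun _ => 1) (cplIdx w q j) := by
  have h1 : dig w q j < q := dig_lt hq
  have h2 : q - 1 - dig w q j < q := by omega
  simp only [rotIdx, addIdx, cplIdx, negIdx]
  rw [setDig_setDig hw h2, dig_setDig hw h2, show q - 1 - dig w q j + 1 = q - dig w q j by omega]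

theorem idxPerm_negIdx (hw : 0 < w) (hq : 0 < q) (hn : w * q ∣ n) : IdxPerm n (negIdx w q) :=
  ((idxPerm_rotIdx (fun _ => 1) hw hq hn).comp (idxPerm_cplIdx hw hq hn)).congr
    fun j _ => (negIdx_eq hw hq j).symm

theorem revIdx_eq_cpl (B j : ℕ) : revIdx B j = cplIdx 1 B j := by
  simp [revIdx, cplIdx, setDig, dig, Nat.mod_one]

theorem idxPerm_revIdx {B : ℕ} (hB : 0 < B) (hn : B ∣ n) : IdxPerm n (revIdx B) :=
  (idxPerm_cplIdx Nat.one_pos hB (by simpa using hn)).congr fun j _ => (revIdx_eq_cpl B j).symm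

theorem revIdx_mk {B p y : ℕ} (hy : y < B) : revIdx B (p * B + y) = p * B + (B - 1 - y) := by
  rw [revIdx, Nat.mul_comm p, Nat.mul_add_div (by omega), Nat.div_eq_of_lt hy, Nat.mul_add_mod,
    Nat.mod_eq_of_lt hy, add_zero, Nat.mul_comm]

/-- the complement of a digit is the composite of two block reversals -/
theorem cplIdx_eq_rev (hw : 0 < w) (hq : 0 < q) (j : ℕ) :
    cplIdx w q j = revIdx (w * q) (revIdx w j) := by
  have hy : dig w q j < q := dig_lt hq
  have hz : j % w < w := Nat.mod_lt _ hw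
  have e := eq_mk q w j
  generalize j / (w * q) = p at e
  generalize dig w q j = y at e hy
  generalize j % w = z at e hz
  subst e
  have h2 : y * w + (w - 1 - z) < w * q := by
    have : (y + 1) * w ≤ q * w := Nat.mul_le_mul_right _ hy
    rw [Nat.add_mul, Nat.mul_comm q] at this
    omega
  rw [cplIdx, dig_mk hy hz, setDig_mk hy hz, revIdx_mk hz,
    show (p * q + y) * w + (w - 1 - z) = p * (w * q) + (y * w + (w - 1 - z)) by ring,
    revIdx_mk h2]
  obtain ⟨c, rfl⟩ : ∃ c, q = y + 1 + c := ⟨q - (y + 1), by omega⟩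
  obtain ⟨e, rfl⟩ : ∃ e, w = z + 1 + e := ⟨w - (z + 1), by omega⟩
  have a1 : y + 1 + c - 1 - y = c := by omega
  have a2 : z + 1 + e - 1 - z = e := by omega
  have a3 : (z + 1 + e) * (y + 1 + c) = (y * (z + 1 + e) + e) + 1 + (c * (z + 1 + e) + z) := by ring
  rw [a1, a2]
  have a4 : (z + 1 + e) * (y + 1 + c) - 1 - (y * (z + 1 + e) + e) = c * (z + 1 + e) + z := by omega
  rw [a4]
  ring

theorem cast_dig_negIdx (hw : 0 < w) (hq : 0 < q) (j : ℕ) :
    ((dig w q (negIdx w q j) : ℕ) : ZMod q) = -(dig w q j : ℕ) := by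
  have h1 : dig w q j < q := dig_lt hq
  rw [negIdx, dig_setDig hw (Nat.mod_lt _ hq), ZMod.natCast_mod, Nat.cast_sub h1.le]
  simp

end digit

/-! ### interchange of small fields, padding and cutting -/

section more

variable {q wH wD n len K B B' : ℕ}

theorem Geo.idxPerm_swapIdx (g : Geo q wH wD n) : IdxPerm n (swapIdx q wH wD) := by
  refine ⟨fun j hj => g.swapIdx_lt hj, fun j j' _ _ e => ?_⟩
  have e0 : wD * q * (wH / (wD * q)) = wH := Nat.mul_div_cancel' g.h1
  refine idx_ext₂ q wH wD g.h1 ?_ ?_ ?_ ?_ ?_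
  · rw [← swapIdx_div g.hq g.hD g.hH g.h1, e, swapIdx_div g.hq g.hD g.hH g.h1]
  · rw [← dig_swapIdx_D g.hq g.hD g.h1, e, dig_swapIdx_D g.hq g.hD g.h1]
  · rw [← dig_swapIdx_mid (wH := wH) g.hq g.hD dvd_rfl (by rw [e0]), e,
      dig_swapIdx_mid g.hq g.hD dvd_rfl (by rw [e0])]
  · rw [← dig_swapIdx_H (wD := wD) g.hq g.hH, e, dig_swapIdx_H g.hq g.hH]
  · rw [← swapIdx_mod g.h1, e, swapIdx_mod g.h1]

theorem colMono_swapIdx (hq : 0 < q) (hD : 0 < wD) (h : wD * q ∣ wH) (hK : q ≤ K) :
    ColMono (K * K) n len (fun j => dig wH q j * K + dig wD q j) (swapIdx q wH wD) := by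
  refine ⟨fun j _ _ => ?_, fun j j' hj _ _ _ e => ?_⟩
  · have h1 : dig wH q j + 1 ≤ K := (dig_lt hq).trans_le hK
    have h2 : dig wD q j < K := (dig_lt hq).trans_le hK
    have h3 := Nat.mul_le_mul_right K h1
    rw [Nat.add_mul] at h3
    omega
  · have h2 : dig wD q j < K := (dig_lt hq).trans_le hK
    have h3 : dig wD q j' < K := (dig_lt hq).trans_le hK
    have e1 : dig wD q j = dig wD q j' := by
      have := congrArg (· % K) e
      simpa [Nat.mul_add_mod_of_lt, Nat.mod_eq_of_lt h2, Nat.mod_eq_of_lt h3] using this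
    have e2 : dig wH q j = dig wH q j' := by
      rw [e1] at e
      exact Nat.eq_of_mul_eq_mul_right (by omega) (Nat.add_right_cancel e)
    exact (swapIdx_lt_swapIdx hq hD h hj e2 e1).le

/-- changing the block size is strictly monotone on the positions that fit into both sizes -/
theorem reblock_lt {j j' : ℕ} (hj : j < j') (h1 : j % B < B') :
    j / B * B' + j % B < j' / B * B' + j' % B := by
  rcases (Nat.div_le_div_right (c := B) hj.le).lt_or_eq with hlt | heq
  · have := Nat.mul_le_mul_right B' (Nat.succ_le_of_lt hlt)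
    rw [Nat.succ_mul] at this
    omega
  · have := mod_lt_mod_of_div_eq hj heq
    rw [heq]
    omega

theorem reblock_inj {j j' : ℕ} (h1 : j % B < B') (h2 : j' % B < B')
    (e : j / B * B' + j % B = j' / B * B' + j' % B) : j = j' := by
  rcases lt_trichotomy j j' with h | h | h
  · exact absurd e (reblock_lt h h1).ne
  · exact h
  · exact absurd e.symm (reblock_lt h h2).ne

theorem colMono_pad : ColMono 1 n len (fun _ => 0)
    (fun j => if j % B' < B then j / B' * B + j % B' else len) :=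
  colMono_one fun j j' hj _ h1 h2 => by
    by_cases a1 : j % B' < B
    · by_cases a2 : j' % B' < B
      · simp only [if_pos a1, if_pos a2]
        exact (reblock_lt hj a1).le
      · simp [a2] at h2
    · simp [a1] at h1

theorem colMono_cut (hB : 0 < B) (h : B ≤ B') : ColMono 1 n len (fun _ => 0) (reblock B B') :=
  colMono_one fun j _ hj _ _ _ => (reblock_lt hj ((Nat.mod_lt j hB).trans_le h)).le

end more

end Crest.Agent.X326.A
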