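import Mathlib

/-!
Row 326 (S0503), part M2: digits of flat indices.

`dig w q j` is the digit of weight `w` and range `q` of the index `j`; `setDig w q j v` replaces it
by `v`; `swapIdx q wH wD` interchanges the digits of weights `wH` and `wD`.
-/

set_option autoImplicit false

namespace Crest.Agent.X326.A

/-- the digit of weight `w` and range `q` -/
def dig (w q j : ℕ) : ℕ := j / w % q

/-- replace the digit of weight `w` and range `q` by `v` -/
def setDig (w q j v : ℕ) : ℕ := j / (w * q) * (w * q) + v * w + j % w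

/-- interchange the digits of weights `wH` and `wD` (both of range `q`) -/
def swapIdx (q wH wD j : ℕ) : ℕ := setDig wH q (setDig wD q j (dig wH q j)) (dig wD q j)

section basic

variable {w q j j' v w' q' M n : ℕ}

theorem dig_lt (hq : 0 < q) : dig w q j < q := Nat.mod_lt _ hq

theorem dig_eq_mod_div (w q j : ℕ) : dig w q j = j % (w * q) / w := by
  rw [dig, Nat.mod_mul_right_div_self]

theorem low_lt (hw : 0 < w) (hv : v < q) (j : ℕ) : v * w + j % w < w * q := by
  have h1 : j % w < w := Nat.mod_lt _ hw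
  have h2 : (v + 1) * w ≤ q * w := Nat.mul_le_mul_right _ hv
  nlinarith

theorem setDig_div (hw : 0 < w) (hv : v < q) : setDig w q j v / (w * q) = j / (w * q) := by
  have hq : 0 < w * q := Nat.mul_pos hw (by omega)
  rw [setDig, add_assoc, Nat.mul_comm (j / (w * q)), Nat.mul_add_div hq,
    Nat.div_eq_of_lt (low_lt hw hv j), add_zero]

theorem setDig_mod (w q j v : ℕ) : setDig w q j v % w = j % w := by
  have : setDig w q j v = j % w + w * (j / (w * q) * q + v) := by unfold setDig; ring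
  rw [this, Nat.add_mul_mod_self_left, Nat.mod_mod]

theorem setDig_mod_block (hw : 0 < w) (hv : v < q) :
    setDig w q j v % (w * q) = v * w + j % w := by
  rw [setDig, add_assoc, Nat.mul_comm (j / (w * q)), Nat.mul_add_mod,
    Nat.mod_eq_of_lt (low_lt hw hv j)]

theorem dig_setDig (hw : 0 < w) (hv : v < q) : dig w q (setDig w q j v) = v := by
  rw [dig_eq_mod_div, setDig_mod_block hw hv, Nat.mul_comm v, Nat.mul_add_div hw,
    Nat.div_eq_of_lt (Nat.mod_lt _ hw), add_zero]

theorem div_eq_of_dvd (h : w ∣ M) (e : j / w = j' / w) : j / M = j' / M := by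
  obtain ⟨c, rfl⟩ := h
  rw [← Nat.div_div_eq_div_mul, ← Nat.div_div_eq_div_mul, e]

theorem mod_eq_of_dvd (h : M ∣ w) (e : j % w = j' % w) : j % M = j' % M := by
  rw [← Nat.mod_mod_of_dvd j h, e, Nat.mod_mod_of_dvd j' h]

theorem dig_eq_of_div (h : w ∣ w') (e : j / w = j' / w) : dig w' q' j = dig w' q' j' := by
  rw [dig, dig, div_eq_of_dvd h e]

theorem dig_eq_of_mod (h : w' * q' ∣ w) (e : j % w = j' % w) : dig w' q' j = dig w' q' j' := by
  rw [dig_eq_mod_div, dig_eq_mod_div, mod_eq_of_dvd h e]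

theorem setDig_div_of_dvd (hw : 0 < w) (hv : v < q) (h : w * q ∣ M) :
    setDig w q j v / M = j / M := div_eq_of_dvd h (setDig_div hw hv)

theorem setDig_mod_of_dvd (h : M ∣ w) : setDig w q j v % M = j % M :=
  mod_eq_of_dvd h (setDig_mod w q j v)

theorem dig_setDig_hi (hw : 0 < w) (hv : v < q) (h : w * q ∣ w') :
    dig w' q' (setDig w q j v) = dig w' q' j := dig_eq_of_div h (setDig_div hw hv)

theorem dig_setDig_lo (h : w' * q' ∣ w) : dig w' q' (setDig w q j v) = dig w' q' j :=
  dig_eq_of_mod h (setDig_mod w q j v)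

theorem setDig_self (w q j : ℕ) : setDig w q j (dig w q j) = j := by
  have h1 := Nat.div_add_mod j (w * q)
  have h2 := Nat.div_add_mod (j % (w * q)) w
  rw [Nat.mod_mod_of_dvd j (Dvd.intro q rfl)] at h2
  rw [setDig, dig_eq_mod_div]
  nlinarith

theorem setDig_add (w q j v : ℕ) : setDig w q j v + dig w q j * w = j + v * w := by
  have := setDig_self w q j
  unfold setDig at *
  omega

theorem idx_ext (w q : ℕ) (h1 : j / (w * q) = j' / (w * q)) (h2 : dig w q j = dig w q j')
    (h3 : j % w = j' % w) : j = j' := by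
  rw [← setDig_self w q j, ← setDig_self w q j', setDig, setDig, h1, h2, h3]

theorem lt_of_div_eq (h : M ∣ n) (e : j' / M = j / M) (hj : j < n) : j' < n := by
  obtain ⟨c, rfl⟩ := h
  have hM : 0 < M := Nat.pos_of_ne_zero (by rintro rfl; simp at hj)
  have : j / M < c := (Nat.div_lt_iff_lt_mul hM).2 (by rwa [Nat.mul_comm])
  rw [← e] at this
  have := (Nat.div_lt_iff_lt_mul hM).1 this
  rwa [Nat.mul_comm]

theorem setDig_lt (hw : 0 < w) (hv : v < q) (h : w * q ∣ n) (hj : j < n) :
    setDig w q j v < n := lt_of_div_eq h (setDig_div hw hv) hj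

/-- digits of digits -/
theorem dig_dig (w Q a q j : ℕ) (h : a * q ∣ Q) : dig a q (dig w Q j) = dig (w * a) q j := by
  obtain ⟨c, rfl⟩ := h
  unfold dig
  rw [Nat.mul_assoc, Nat.mod_mul_right_div_self, Nat.mod_mod_of_dvd _ (Dvd.intro c rfl),
    Nat.div_div_eq_div_mul]

/-- a number below `q ^ m` is determined by its digits -/
theorem eq_of_digits {q : ℕ} : ∀ {m x y : ℕ}, x < q ^ m → y < q ^ m →
    (∀ k < m, dig (q ^ k) q x = dig (q ^ k) q y) → x = y
  | 0, x, y, hx, hy, _ => by simp at hx hy; omega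
  | m + 1, x, y, hx, hy, h => by
    have hq : 0 < q := Nat.pos_of_ne_zero (by rintro rfl; simp at hx)
    have hp : 0 < q ^ m := pow_pos hq m
    refine idx_ext (q ^ m) q ?_ (h m (by omega)) ?_
    · rw [← pow_succ, Nat.div_eq_of_lt hx, Nat.div_eq_of_lt hy]
    · refine eq_of_digits (m := m) (Nat.mod_lt _ hp) (Nat.mod_lt _ hp) fun k hk => ?_
      have hd : q ^ k * q ∣ q ^ m := by rw [← pow_succ]; exact pow_dvd_pow _ hk
      rw [dig_eq_of_mod hd (Nat.mod_mod x _), dig_eq_of_mod hd (Nat.mod_mod y _)]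
      exact h k (by omega)

/-- strict monotonicity of a digit replacement -/
theorem setDig_lt_setDig {u u' : ℕ} (hw : 0 < w) (hu : u < q) (hj : j < j')
    (h1 : j / (w * q) = j' / (w * q) → dig w q j < dig w q j' → u < u')
    (h2 : j / (w * q) = j' / (w * q) → dig w q j = dig w q j' → u = u') :
    setDig w q j u < setDig w q j' u' := by
  have hq : 0 < w * q := Nat.mul_pos hw (by omega)
  rcases (Nat.div_le_div_right (c := w * q) hj.le).lt_or_eq with hlt | heq
  · have a1 := low_lt hw hu j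
    have a2 : (j / (w * q) + 1) * (w * q) ≤ j' / (w * q) * (w * q) := Nat.mul_le_mul_right _ hlt
    unfold setDig
    rw [Nat.add_mul, Nat.one_mul] at a2
    omega
  · have e1 := setDig_self w q j
    have e2 := setDig_self w q j'
    have b1 : j % w < w := Nat.mod_lt _ hw
    have b2 : j' % w < w := Nat.mod_lt _ hw
    unfold setDig at *
    rw [heq] at e1 ⊢
    rcases lt_trichotomy (dig w q j) (dig w q j') with hd | hd | hd
    · have a2 : (u + 1) * w ≤ u' * w := Nat.mul_le_mul_right _ (h1 heq hd)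
      rw [Nat.add_mul, Nat.one_mul] at a2
      omega
    · rw [h2 heq hd]
      rw [hd] at e1
      omega
    · have a2 : (dig w q j' + 1) * w ≤ dig w q j * w := Nat.mul_le_mul_right _ hd
      rw [Nat.add_mul, Nat.one_mul] at a2
      omega

end basic

section swap

variable {q wH wD j j' n M : ℕ}

theorem swapIdx_div (hq : 0 < q) (hD : 0 < wD) (hH : 0 < wH) (h : wD * q ∣ wH) :
    swapIdx q wH wD j / (wH * q) = j / (wH * q) := by
  rw [swapIdx, setDig_div hH (dig_lt hq),
    setDig_div_of_dvd hD (dig_lt hq) (Dvd.dvd.mul_right h q)]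

theorem swapIdx_mod (h : wD * q ∣ wH) : swapIdx q wH wD j % wD = j % wD := by
  rw [swapIdx, setDig_mod_of_dvd (Dvd.dvd.trans (Dvd.intro q rfl) h), setDig_mod]

theorem dig_swapIdx_H (hq : 0 < q) (hH : 0 < wH) : dig wH q (swapIdx q wH wD j) = dig wD q j :=
  dig_setDig hH (dig_lt hq)

theorem dig_swapIdx_D (hq : 0 < q) (hD : 0 < wD) (h : wD * q ∣ wH) :
    dig wD q (swapIdx q wH wD j) = dig wH q j := by
  rw [swapIdx, dig_setDig_lo h, dig_setDig hD (dig_lt hq)]

/-- digits strictly between the two interchanged digits do not move -/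
theorem dig_swapIdx_mid {w' q' : ℕ} (hq : 0 < q) (hD : 0 < wD) (h1 : wD * q ∣ w')
    (h2 : w' * q' ∣ wH) : dig w' q' (swapIdx q wH wD j) = dig w' q' j := by
  rw [swapIdx, dig_setDig_lo h2, dig_setDig_hi hD (dig_lt hq) h1]

theorem dig_swapIdx_hi {w' q' : ℕ} (hq : 0 < q) (hD : 0 < wD) (hH : 0 < wH) (h : wD * q ∣ wH)
    (h1 : wH * q ∣ w') : dig w' q' (swapIdx q wH wD j) = dig w' q' j :=
  dig_eq_of_div h1 (swapIdx_div hq hD hH h)

theorem dig_swapIdx_lo {w' q' : ℕ} (h : wD * q ∣ wH) (h1 : w' * q' ∣ wD) :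
    dig w' q' (swapIdx q wH wD j) = dig w' q' j :=
  dig_eq_of_mod h1 (swapIdx_mod h)

theorem swapIdx_lt (hq : 0 < q) (hD : 0 < wD) (hH : 0 < wH) (h : wD * q ∣ wH) (hn : wH * q ∣ n)
    (hj : j < n) : swapIdx q wH wD j < n :=
  lt_of_div_eq hn (swapIdx_div hq hD hH h) hj

theorem swapIdx_add (hq : 0 < q) (hD : 0 < wD) (h : wD * q ∣ wH) :
    swapIdx q wH wD j + dig wH q j * wH + dig wD q j * wD =
      j + dig wD q j * wH + dig wH q j * wD := by
  have h1 := setDig_add wH q (setDig wD q j (dig wH q j)) (dig wD q j)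
  have h2 := setDig_add wD q j (dig wH q j)
  rw [dig_setDig_hi hD (dig_lt hq) h] at h1
  unfold swapIdx
  omega

/-- the interchange is strictly increasing on the indices with given values of both digits -/
theorem swapIdx_lt_swapIdx (hq : 0 < q) (hD : 0 < wD) (h : wD * q ∣ wH) (hj : j < j')
    (e1 : dig wH q j = dig wH q j') (e2 : dig wD q j = dig wD q j') :
    swapIdx q wH wD j < swapIdx q wH wD j' := by
  have h1 := swapIdx_add (j := j) hq hD h
  have h2 := swapIdx_add (j := j') hq hD h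
  rw [e1, e2] at h1
  omega

/-- extensionality for indices with two distinguished digits -/
theorem idx_ext₂ (q wH wD : ℕ) (h : wD * q ∣ wH) (h1 : j / (wH * q) = j' / (wH * q))
    (h2 : dig wH q j = dig wH q j')
    (h3 : dig (wD * q) (wH / (wD * q)) j = dig (wD * q) (wH / (wD * q)) j')
    (h4 : dig wD q j = dig wD q j') (h5 : j % wD = j' % wD) : j = j' := by
  refine idx_ext wH q h1 h2 ?_
  have e : wD * q * (wH / (wD * q)) = wH := Nat.mul_div_cancel' h
  refine idx_ext wD q ?_ ?_ ?_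
  · rw [dig_eq_mod_div, dig_eq_mod_div, e] at h3
    exact h3
  · rw [dig_eq_of_mod h (Nat.mod_mod j _), dig_eq_of_mod h (Nat.mod_mod j' _), h4]
  · have hd : wD ∣ wH := Dvd.dvd.trans (Dvd.intro q rfl) h
    rw [Nat.mod_mod_of_dvd _ hd, Nat.mod_mod_of_dvd _ hd, h5]

theorem swapIdx_one (wH wD j : ℕ) : swapIdx 1 wH wD j = j := by
  have h : ∀ w j, dig w 1 j = 0 := fun w j => Nat.mod_one _
  have h' : ∀ w j, setDig w 1 j 0 = j := fun w j => by
    have := setDig_self w 1 j
    rwa [h] at this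
  rw [swapIdx, h, h, h', h']

/-- an interchange of range `a * b` is the interchange of the low parts (range `a`) and of the high
parts (range `b`) -/
theorem swapIdx_mul {a b : ℕ} (ha : 0 < a) (hb : 0 < b) (hD : 0 < wD) (hH : 0 < wH)
    (h : wD * (a * b) ∣ wH) (j : ℕ) :
    swapIdx (a * b) wH wD j = swapIdx a wH wD (swapIdx b (wH * a) (wD * a) j) := by
  have hab : 0 < a * b := Nat.mul_pos ha hb
  have hDa : 0 < wD * a := Nat.mul_pos hD ha
  have hHa : 0 < wH * a := Nat.mul_pos hH ha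
  have h0 : wD * a * b ∣ wH := by rwa [Nat.mul_assoc]
  have h1 : wD * a ∣ wH := Dvd.dvd.trans (Dvd.intro b rfl) h0
  have h2 : wD * a * b ∣ wH * a := Dvd.dvd.mul_right h0 a
  have lowd : ∀ w x, dig w a x = dig 1 a (dig w (a * b) x) := fun w x => by
    rw [dig_dig w (a * b) 1 a x (by simp), Nat.mul_one]
  have highd : ∀ w x, dig (w * a) b x = dig a b (dig w (a * b) x) := fun w x => by
    rw [dig_dig w (a * b) a b x dvd_rfl]
  have split : ∀ w w' x y, dig w a x = dig w' a y → dig (w * a) b x = dig (w' * a) b y →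
      dig w (a * b) x = dig w' (a * b) y := fun w w' x y e1 e2 => by
    rw [lowd, lowd w'] at e1
    rw [highd, highd w'] at e2
    refine idx_ext a b ?_ e2 ?_
    · rw [Nat.div_eq_of_lt (dig_lt hab), Nat.div_eq_of_lt (dig_lt hab)]
    · simpa [dig] using e1
  refine idx_ext₂ (a * b) wH wD h ?_ ?_ ?_ ?_ ?_
  · rw [swapIdx_div hab hD hH h, ← Nat.mul_assoc,
      div_eq_of_dvd (Dvd.intro b rfl) (swapIdx_div ha hD hH h1), swapIdx_div hb hDa hHa h2]
  · rw [dig_swapIdx_H hab hH]
    refine split _ _ _ _ ?_ ?_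
    · rw [dig_swapIdx_H ha hH, dig_swapIdx_lo h2 dvd_rfl]
    · rw [dig_swapIdx_hi ha hD hH h1 dvd_rfl, dig_swapIdx_H hb hHa]
  · have e : wD * (a * b) * (wH / (wD * (a * b))) = wH := Nat.mul_div_cancel' h
    rw [dig_swapIdx_mid hab hD dvd_rfl (by rw [e]),
      dig_swapIdx_mid ha hD (by rw [← Nat.mul_assoc]; exact Dvd.intro b rfl) (by rw [e]),
      dig_swapIdx_mid hb hDa (by rw [Nat.mul_assoc]) (by rw [e]; exact Dvd.intro a rfl)]
  · rw [dig_swapIdx_D hab hD h]
    refine split _ _ _ _ ?_ ?_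
    · rw [dig_swapIdx_D ha hD h1, dig_swapIdx_mid hb hDa h0 dvd_rfl]
    · rw [dig_swapIdx_mid ha hD dvd_rfl h0, dig_swapIdx_D hb hDa h2]
  · rw [swapIdx_mod h, swapIdx_mod h1, mod_eq_of_dvd (Dvd.intro a rfl) (swapIdx_mod h2)]

end swap

end Crest.Agent.X326.A
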