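import Crest.Agent.X326.A.Perm

/-!
Row 326 (S0503), part M2: an interchange of range `Q` through an interchange of a larger range `Q'`
(pad both digits, interchange, cut both digits).
-/

set_option autoImplicit false

namespace Crest.Agent.X326.A

variable {α : Type}

theorem blk_lt {a A b B : ℕ} (h1 : a < A) (h2 : b < B) : a * B + b < A * B := by
  have : (a + 1) * B ≤ A * B := Nat.mul_le_mul_right _ h1
  rw [Nat.add_mul, Nat.one_mul] at this
  omega

theorem blk_div {a b B : ℕ} (h : b < B) : (a * B + b) / B = a := by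
  rw [Nat.add_comm, Nat.add_mul_div_right _ _ (by omega), Nat.div_eq_of_lt h, Nat.zero_add]

theorem blk_mod {a b B : ℕ} (h : b < B) : (a * B + b) % B = b := by
  rw [Nat.add_comm, Nat.add_mul_mod_self_right, Nat.mod_eq_of_lt h]

theorem length_padL (d : α) {A B : ℕ} (B' : ℕ) (hB : 0 < B) {l : List α} (hl : l.length = A * B) :
    (padL d B B' l).length = A * B' := by
  rw [padL, length_gath, hl, Nat.mul_div_cancel _ hB]

theorem length_cutL (d : α) {A B' : ℕ} (B : ℕ) (hB : 0 < B') {l : List α}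
    (hl : l.length = A * B') : (cutL d B B' l).length = A * B := by
  rw [cutL, length_gath, hl, Nat.mul_div_cancel _ hB]

theorem getD_padL (d : α) {A B B' a b : ℕ} {l : List α} (hl : l.length = A * B) (h : B ≤ B')
    (ha : a < A) (hb : b < B) : (padL d B B' l).getD (a * B' + b) d = l.getD (a * B + b) d := by
  have hb' : b < B' := hb.trans_le h
  rw [padL, getD_gath _ _ _ _ (by rw [hl, Nat.mul_div_cancel _ (by omega)]; exact blk_lt ha hb'),
    blk_mod hb', blk_div hb', if_pos hb]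

theorem getD_cutL (d : α) {A B B' a b : ℕ} {l : List α} (hl : l.length = A * B') (h : B ≤ B')
    (ha : a < A) (hb : b < B) : (cutL d B B' l).getD (a * B + b) d = l.getD (a * B' + b) d := by
  rw [cutL, getD_gath _ _ _ _ (by rw [hl, Nat.mul_div_cancel _ (by omega)]; exact blk_lt ha hb),
    reblock, blk_mod hb, blk_div hb]

theorem mem_padL {d a : α} {B B' : ℕ} {l : List α} (h : a ∈ padL d B B' l) : a ∈ l ∨ a = d :=
  mem_gath h

theorem mem_cutL {d a : α} {B B' : ℕ} {l : List α} (h : a ∈ cutL d B B' l) : a ∈ l ∨ a = d :=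
  mem_gath h

/-- the shape `[P][Q][G][Q][Z]` behind `Geo` -/
theorem Geo.exists_shape {Q wH wD n : ℕ} (g : Geo Q wH wD n) :
    ∃ P G, 0 < G ∧ wH = wD * Q * G ∧ n = P * Q * G * Q * wD := by
  obtain ⟨G, hG⟩ := g.h1
  obtain ⟨P, hP⟩ := g.h2
  refine ⟨P, G, ?_, hG, by rw [hP, hG]; ring⟩
  rcases Nat.eq_zero_or_pos G with h | h
  · have := g.hH
    rw [hG, h] at this
    simp at this
  · exact h

/-- the padded array -/
def padBoth (d : α) (Q Q' wH wD : ℕ) (l : List α) : List α :=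
  padL d (wH / Q * Q' * Q) (wH / Q * Q' * Q') (padL d (wD * Q) (wD * Q') l)

/-- back from the padded array -/
def cutBoth (d : α) (Q Q' wH wD : ℕ) (l : List α) : List α :=
  cutL d (wD * Q) (wD * Q') (cutL d (wH / Q * Q' * Q) (wH / Q * Q' * Q') l)

section shape

variable {P Q Q' G Z : ℕ}

theorem w1_eq (hQ : 0 < Q) : Z * Q * G / Q * Q' = Z * Q' * G := by
  rw [Nat.mul_right_comm Z Q G, Nat.mul_div_cancel _ hQ]; ring

theorem length_pad1 (d : α) (hQ : 0 < Q) (hZ : 0 < Z) {l : List α}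
    (hl : l.length = P * Q * G * Q * Z) :
    (padL d (Z * Q) (Z * Q') l).length = P * (Z * Q' * G * Q) := by
  rw [length_padL d (A := P * Q * G) _ (Nat.mul_pos hZ hQ) (by rw [hl]; ring)]; ring

theorem length_padBoth_mk (d : α) (hQ : 0 < Q) (hQ' : Q ≤ Q') (hG : 0 < G) (hZ : 0 < Z)
    {l : List α} (hl : l.length = P * Q * G * Q * Z) :
    (padBoth d Q Q' (Z * Q * G) Z l).length = P * Q' * G * Q' * Z := by
  have : 0 < Q' := by omega
  rw [padBoth, w1_eq hQ, length_padL d (A := P) _ (by positivity) (length_pad1 d hQ hZ hl)]; ring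

theorem getD_padBoth_mk (d : α) (hQ' : Q ≤ Q') {l : List α} (hl : l.length = P * Q * G * Q * Z)
    {p h g e z : ℕ} (hp : p < P) (hh : h < Q) (hg : g < G) (he : e < Q) (hz : z < Z) :
    (padBoth d Q Q' (Z * Q * G) Z l).getD ((((p * Q' + h) * G + g) * Q' + e) * Z + z) d =
      l.getD ((((p * Q + h) * G + g) * Q + e) * Z + z) d := by
  have hQ : 0 < Q := by omega
  have hZ : 0 < Z := by omega
  have e1 : (((p * Q' + h) * G + g) * Q' + e) * Z + z =
      p * (Z * Q' * G * Q') + (((h * G + g) * Q' + e) * Z + z) := by ring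
  have b1 : ((h * G + g) * Q' + e) * Z + z < Z * Q' * G * Q := by
    have := blk_lt (blk_lt (blk_lt hh hg) (he.trans_le hQ')) hz
    calc _ < Q * G * Q' * Z := this
      _ = _ := by ring
  have b2 : e * Z + z < Z * Q := by rw [Nat.mul_comm Z Q]; exact blk_lt he hz
  rw [padBoth, w1_eq hQ, e1, getD_padL d (length_pad1 d hQ hZ hl) (Nat.mul_le_mul_left _ hQ') hp b1]
  have e2 : p * (Z * Q' * G * Q) + (((h * G + g) * Q' + e) * Z + z) =
      ((p * Q + h) * G + g) * (Z * Q') + (e * Z + z) := by ring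
  rw [e2, getD_padL d (A := P * Q * G) (by rw [hl]; ring) (Nat.mul_le_mul_left _ hQ')
    (blk_lt (blk_lt hp hh) hg) b2]
  congr 1; ring

theorem length_cut1 (d : α) (hQ' : 0 < Q') (hG : 0 < G) (hZ : 0 < Z) {l : List α}
    (hl : l.length = P * Q' * G * Q' * Z) :
    (cutL d (Z * Q' * G * Q) (Z * Q' * G * Q') l).length = P * Q * G * (Z * Q') := by
  rw [length_cutL d (A := P) _ (by positivity) (by rw [hl]; ring)]; ring

theorem length_cutBoth_mk (d : α) (hQ : 0 < Q) (hQ' : Q ≤ Q') (hG : 0 < G) (hZ : 0 < Z)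
    {l : List α} (hl : l.length = P * Q' * G * Q' * Z) :
    (cutBoth d Q Q' (Z * Q * G) Z l).length = P * Q * G * Q * Z := by
  have : 0 < Q' := by omega
  rw [cutBoth, w1_eq hQ, length_cutL d _ (by positivity) (length_cut1 d this hG hZ hl)]; ring

theorem getD_cutBoth_mk (d : α) (hQ' : Q ≤ Q') {l : List α} (hl : l.length = P * Q' * G * Q' * Z)
    {p h g e z : ℕ} (hp : p < P) (hh : h < Q) (hg : g < G) (he : e < Q) (hz : z < Z) :
    (cutBoth d Q Q' (Z * Q * G) Z l).getD ((((p * Q + h) * G + g) * Q + e) * Z + z) d =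
      l.getD ((((p * Q' + h) * G + g) * Q' + e) * Z + z) d := by
  have hQ : 0 < Q := by omega
  have hZ : 0 < Z := by omega
  have hG : 0 < G := by omega
  have e1 : (((p * Q + h) * G + g) * Q + e) * Z + z =
      ((p * Q + h) * G + g) * (Z * Q) + (e * Z + z) := by ring
  have b1 : ((h * G + g) * Q' + e) * Z + z < Z * Q' * G * Q := by
    have := blk_lt (blk_lt (blk_lt hh hg) (he.trans_le hQ')) hz
    calc _ < Q * G * Q' * Z := this
      _ = _ := by ring
  have b2 : e * Z + z < Z * Q := by rw [Nat.mul_comm Z Q]; exact blk_lt he hz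
  rw [cutBoth, w1_eq hQ, e1, getD_cutL d (length_cut1 d (by omega) hG hZ hl)
    (Nat.mul_le_mul_left _ hQ') (blk_lt (blk_lt hp hh) hg) b2]
  have e2 : ((p * Q + h) * G + g) * (Z * Q') + (e * Z + z) =
      p * (Z * Q' * G * Q) + (((h * G + g) * Q' + e) * Z + z) := by ring
  rw [e2, getD_cutL d (A := P) (by rw [hl]; ring) (Nat.mul_le_mul_left _ hQ') hp b1]
  congr 1; ring

/-- every index of `[P][Q][G][Q][Z]` has coordinates -/
theorem exists_coords {j : ℕ} (hj : j < P * Q * G * Q * Z) : ∃ p h g e z, p < P ∧ h < Q ∧ g < G ∧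
    e < Q ∧ z < Z ∧ j = (((p * Q + h) * G + g) * Q + e) * Z + z := by
  have step : ∀ {j A B : ℕ}, j < A * B → j / B < A ∧ j % B < B ∧ j = j / B * B + j % B := by
    intro j A B h
    have hB : 0 < B := Nat.pos_of_mul_pos_left (lt_of_le_of_lt (Nat.zero_le _) h)
    exact ⟨Nat.div_lt_of_lt_mul (by rwa [Nat.mul_comm] at h), Nat.mod_lt _ hB,
      (Nat.div_add_mod' j B).symm⟩
  obtain ⟨h1, hz, e1⟩ := step hj
  obtain ⟨h2, he, e2⟩ := step h1
  obtain ⟨h3, hg, e3⟩ := step h2
  obtain ⟨h4, hh, e4⟩ := step h3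
  exact ⟨_, _, _, _, _, h4, hh, hg, he, hz, by rw [← e4, ← e3, ← e2, ← e1]⟩

end shape

variable {Q Q' wH wD : ℕ}

theorem Geo.pad {l : List α} (d : α) (g : Geo Q wH wD l.length) (h : Q ≤ Q') :
    Geo Q' (wH / Q * Q') wD (padBoth d Q Q' wH wD l).length := by
  obtain ⟨P, G, hG, rfl, hl⟩ := g.exists_shape
  rw [length_padBoth_mk d g.hq h hG g.hD hl, w1_eq g.hq]
  exact geo_mk (g.hq.trans_le h) hG g.hD

/-- the length of the padded array -/
theorem length_padBoth {l : List α} (d : α) (g : Geo Q wH wD l.length) (h : Q ≤ Q') :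
    (padBoth d Q Q' wH wD l).length * (Q * Q) = l.length * (Q' * Q') := by
  obtain ⟨P, G, hG, rfl, hl⟩ := g.exists_shape
  rw [length_padBoth_mk d g.hq h hG g.hD hl, hl]; ring

/-- **padding lemma** -/
theorem swapL_eq_cut_pad {l : List α} (d : α) (g : Geo Q wH wD l.length) (h : Q ≤ Q') :
    swapL d Q wH wD l =
      cutBoth d Q Q' wH wD (swapL d Q' (wH / Q * Q') wD (padBoth d Q Q' wH wD l)) := by
  obtain ⟨P, G, hG, rfl, hl⟩ := g.exists_shape
  have h1 := length_padBoth_mk d g.hq h hG g.hD hl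
  have h2 : (swapL d Q' (wD * Q * G / Q * Q') wD (padBoth d Q Q' (wD * Q * G) wD l)).length =
      P * Q' * G * Q' * wD := by rw [length_swapL, h1]
  refine ext_getD d (by rw [length_swapL, length_cutBoth_mk d g.hq h hG g.hD h2, hl]) ?_
  intro j hj
  rw [length_swapL, hl] at hj
  obtain ⟨p, a, c, e, z, hp, ha, hc, he, hz, rfl⟩ := exists_coords hj
  rw [getD_swapL d hl hp ha hc he hz, getD_cutBoth_mk d h h2 hp ha hc he hz, w1_eq g.hq,
    getD_swapL d h1 hp (ha.trans_le h) hc (he.trans_le h) hz, getD_padBoth_mk d h hl hp he hc ha hz]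

end Crest.Agent.X326.A
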