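import Crest.Agent.X326.A.View

/-!
Row 326 (S0503), part M2: pulling lists back along index maps.
-/

set_option autoImplicit false

namespace Crest.Agent.X326.A

variable {α : Type}

/-- the list of length `n` whose entry `j` is the entry `σ j` of `l` (`d` when out of range) -/
def gath (n : ℕ) (σ : ℕ → ℕ) (d : α) (l : List α) : List α :=
  (List.range n).map fun j => l.getD (σ j) d

/-- pull a list back along an index map, keeping the length -/
def perm (d : α) (σ : ℕ → ℕ) (l : List α) : List α := gath l.length σ d l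

/-- The target of part A: interchange the digits of range `Q` and weights `wH`, `wD`. -/
def swapL (d : α) (Q wH wD : ℕ) (l : List α) : List α := perm d (swapIdx Q wH wD) l

/-- change of the block size from `B` to `B'` -/
def reblock (B B' j : ℕ) : ℕ := j / B * B' + j % B

/-- pad every block of size `B` to size `B'` with the record `d` -/
def padL (d : α) (B B' : ℕ) (l : List α) : List α :=
  gath (l.length / B * B') (fun j => if j % B' < B then j / B' * B + j % B' else l.length) d l

/-- keep the first `B` records of every block of size `B'` -/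
def cutL (d : α) (B B' : ℕ) (l : List α) : List α :=
  gath (l.length / B' * B) (reblock B B') d l

@[simp] theorem length_gath (n : ℕ) (σ : ℕ → ℕ) (d : α) (l : List α) :
    (gath n σ d l).length = n := by simp [gath]

@[simp] theorem length_perm (d : α) (σ : ℕ → ℕ) (l : List α) :
    (perm d σ l).length = l.length := by simp [perm]

@[simp] theorem length_swapL (d : α) (Q wH wD : ℕ) (l : List α) :
    (swapL d Q wH wD l).length = l.length := by simp [swapL]

theorem getD_gath {n j : ℕ} (σ : ℕ → ℕ) (d d' : α) (l : List α) (hj : j < n) :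
    (gath n σ d l).getD j d' = l.getD (σ j) d := by
  simp [gath, List.getD_eq_getElem?_getD, hj]

theorem getD_perm {j : ℕ} (d d' : α) (σ : ℕ → ℕ) (l : List α) (hj : j < l.length) :
    (perm d σ l).getD j d' = l.getD (σ j) d := getD_gath σ d d' l hj

theorem ext_getD (d : α) {l l' : List α} (h : l.length = l'.length)
    (h' : ∀ j < l.length, l.getD j d = l'.getD j d) : l = l' := by
  refine List.ext_getElem h fun j h1 h2 => ?_
  have := h' j h1
  rwa [List.getD_eq_getElem _ _ h1, List.getD_eq_getElem _ _ h2] at this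

theorem getD_mem_of_lt {l : List α} {j : ℕ} (d : α) (hj : j < l.length) : l.getD j d ∈ l := by
  rw [List.getD_eq_getElem _ _ hj]; exact List.getElem_mem hj

theorem getD_mem_or (l : List α) (j : ℕ) (d : α) : l.getD j d ∈ l ∨ l.getD j d = d := by
  by_cases hj : j < l.length
  · exact Or.inl (getD_mem_of_lt d hj)
  · exact Or.inr (List.getD_eq_default _ _ (by omega))

theorem mem_gath {n : ℕ} {σ : ℕ → ℕ} {d a : α} {l : List α} (h : a ∈ gath n σ d l) :
    a ∈ l ∨ a = d := by
  obtain ⟨j, -, rfl⟩ := List.mem_map.1 h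
  exact getD_mem_or l _ d

theorem mem_gath_of_lt {n : ℕ} {σ : ℕ → ℕ} {d a : α} {l : List α}
    (hσ : ∀ j < n, σ j < l.length) (h : a ∈ gath n σ d l) : a ∈ l := by
  obtain ⟨j, hj, rfl⟩ := List.mem_map.1 h
  exact getD_mem_of_lt d (hσ j (List.mem_range.1 hj))

theorem mem_perm {σ : ℕ → ℕ} {d a : α} {l : List α}
    (hσ : ∀ j < l.length, σ j < l.length) (h : a ∈ perm d σ l) : a ∈ l := mem_gath_of_lt hσ h

theorem gath_congr {n : ℕ} {σ σ' : ℕ → ℕ} (d : α) (l : List α) (h : ∀ j < n, σ j = σ' j) :
    gath n σ d l = gath n σ' d l :=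
  List.map_congr_left fun j hj => by rw [h j (List.mem_range.1 hj)]

/-- the default record is irrelevant when the index map stays in range -/
theorem gath_default {n : ℕ} {σ : ℕ → ℕ} (d d' : α) (l : List α)
    (h : ∀ j < n, σ j < l.length) : gath n σ d l = gath n σ d' l :=
  List.map_congr_left fun j hj => by
    have := h j (List.mem_range.1 hj)
    rw [List.getD_eq_getElem _ _ this, List.getD_eq_getElem _ _ this]

theorem gath_gath {n n' : ℕ} {σ σ' : ℕ → ℕ} (d d' : α) (l : List α) (h : ∀ j < n, σ j < n') :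
    gath n σ d' (gath n' σ' d l) = gath n (fun j => σ' (σ j)) d l :=
  List.map_congr_left fun j hj => getD_gath σ' d d' l (h j (List.mem_range.1 hj))

theorem perm_perm {σ σ' : ℕ → ℕ} (d : α) (l : List α) (h : ∀ j < l.length, σ j < l.length) :
    perm d σ (perm d σ' l) = perm d (fun j => σ' (σ j)) l := by
  rw [perm, length_perm]
  exact gath_gath d d l h

theorem perm_congr {σ σ' : ℕ → ℕ} (d : α) (l : List α) (h : ∀ j < l.length, σ j = σ' j) :
    perm d σ l = perm d σ' l := gath_congr d l h

theorem perm_id (d : α) (l : List α) : perm d (fun j => j) l = l :=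
  ext_getD d (by simp) fun j hj => getD_perm d d _ l (by simpa using hj)

theorem map_gath {β : Type} (f : α → β) (n : ℕ) (σ : ℕ → ℕ) (d : α) (l : List α) :
    (gath n σ d l).map f = gath n σ (f d) (l.map f) := by
  simp [gath, List.getD_eq_getElem?_getD, Function.comp_def]

theorem map_perm {β : Type} (f : α → β) (σ : ℕ → ℕ) (d : α) (l : List α) :
    (perm d σ l).map f = perm (f d) σ (l.map f) := by
  simp [perm, map_gath]

theorem swapL_one (d : α) (wH wD : ℕ) (l : List α) : swapL d 1 wH wD l = l := by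
  rw [swapL, perm_congr d l (σ' := fun j => j) (fun j _ => swapIdx_one wH wD j), perm_id]

theorem mem_swapL {Q wH wD : ℕ} {d a : α} {l : List α} (g : Geo Q wH wD l.length)
    (h : a ∈ swapL d Q wH wD l) : a ∈ l := mem_perm (fun _ hj => g.swapIdx_lt hj) h

/-- the interchange on the layout `[P][Q][G][Q][Z]` -/
theorem swapIdx_mk {Q G Z : ℕ} (p : ℕ) {h g e z : ℕ} (hh : h < Q) (hg : g < G) (he : e < Q)
    (hz : z < Z) :
    swapIdx Q (Z * Q * G) Z ((((p * Q + h) * G + g) * Q + e) * Z + z) =
      (((p * Q + e) * G + g) * Q + h) * Z + z := by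
  have hQ : 0 < Q := by omega
  have hZ : 0 < Z := by omega
  have hd : Z * Q ∣ Z * Q * G := Dvd.intro _ rfl
  have h1 := swapIdx_add (j := (((p * Q + h) * G + g) * Q + e) * Z + z) hQ hZ hd
  have d1 : ((((p * Q + h) * G + g) * Q + e) * Z + z) / Z = ((p * Q + h) * G + g) * Q + e := by
    rw [Nat.add_comm, Nat.add_mul_div_right _ _ hZ, Nat.div_eq_of_lt hz, Nat.zero_add]
  have d2 : (((p * Q + h) * G + g) * Q + e) / Q = (p * Q + h) * G + g := by
    rw [Nat.add_comm, Nat.add_mul_div_right _ _ hQ, Nat.div_eq_of_lt he, Nat.zero_add]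
  have d3 : ((p * Q + h) * G + g) / G = p * Q + h := by
    rw [Nat.add_comm, Nat.add_mul_div_right _ _ (by omega), Nat.div_eq_of_lt hg, Nat.zero_add]
  have e1 : dig Z Q ((((p * Q + h) * G + g) * Q + e) * Z + z) = e := by
    rw [dig, d1, Nat.add_comm, Nat.add_mul_mod_self_right, Nat.mod_eq_of_lt he]
  have e2 : dig (Z * Q * G) Q ((((p * Q + h) * G + g) * Q + e) * Z + z) = h := by
    rw [dig, ← Nat.div_div_eq_div_mul, ← Nat.div_div_eq_div_mul, d1, d2, d3, Nat.add_comm,
      Nat.add_mul_mod_self_right, Nat.mod_eq_of_lt hh]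
  rw [e1, e2] at h1
  have : (((p * Q + e) * G + g) * Q + h) * Z + z + h * (Z * Q * G) + e * Z =
      (((p * Q + h) * G + g) * Q + e) * Z + z + e * (Z * Q * G) + h * Z := by ring
  omega

/-- the specification of `swapL` on the layout `[P][Q][G][Q][Z]` -/
theorem getD_swapL {P Q G Z : ℕ} (d : α) {l : List α} (hl : l.length = P * Q * G * Q * Z)
    {p h g e z : ℕ} (hp : p < P) (hh : h < Q) (hg : g < G) (he : e < Q) (hz : z < Z) :
    (swapL d Q (Z * Q * G) Z l).getD ((((p * Q + h) * G + g) * Q + e) * Z + z) d =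
      l.getD ((((p * Q + e) * G + g) * Q + h) * Z + z) d := by
  have step : ∀ {a A b B : ℕ}, a < A → b < B → a * B + b < A * B := fun {a A b B} h1 h2 => by
    have : (a + 1) * B ≤ A * B := Nat.mul_le_mul_right _ h1
    rw [Nat.add_mul, Nat.one_mul] at this
    omega
  rw [swapL, getD_perm _ _ _ _ (by rw [hl]; exact step (step (step (step hp hh) hg) he) hz),
    swapIdx_mk p hh hg he hz]

theorem geo_mk {P Q G Z : ℕ} (hQ : 0 < Q) (hG : 0 < G) (hZ : 0 < Z) :
    Geo Q (Z * Q * G) Z (P * Q * G * Q * Z) where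
  hq := hQ
  hD := hZ
  hH := Nat.mul_pos (Nat.mul_pos hZ hQ) hG
  h1 := Dvd.intro _ rfl
  h2 := ⟨P, by ring⟩

end Crest.Agent.X326.A
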