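import Mathlib
import Crest.Agent.X326.A.Prog
import Crest.Agent.X326.Net.Main
import Crest.Agent.X326.Net.Final

/-!
Row 326 (S0503), part M2: the field-level interchange program exists (`SpecA`), unconditionally.
-/

set_option autoImplicit false

namespace Crest.Agent.X326.A

/-- the interchange program with its exact sizes and the integer form of the call count -/
theorem exists_swapProg : ∃ (W m : ℕ), W = 2 ^ 63 ∧ m = 2 ^ 18 ∧
    ∃ (Den : ℕ) (P : List (Ins W m)) (ρ : Fin W ≃ Fin W), SwapProg Den P ρ ∧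
      ncalls P * 2 ^ 40 + 13 * (W * m) ≤ W * m * 2 ^ 40 ∧
      (ncalls P : ℝ) ≤ W * (m : ℝ) ^ (1 - 1 / (2 : ℝ) ^ 40) := by
  obtain ⟨W, m, hW, hm, P, ρ, lin, lout, hspec, h1, h2⟩ := Net.netA_of_main Net.exists_network
  obtain ⟨Den, P', hP, hc⟩ := swapProg_of_netSpec (c := 216) (by norm_num) hspec
  refine ⟨W, m, hW, hm, Den, P', ρ, hP, ?_, le_trans (by exact_mod_cast hc) h2⟩
  exact le_trans (Nat.add_le_add_right (Nat.mul_le_mul_right _ hc) _) h1

/-- **Part A, field level.** -/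
theorem specA : SpecA (1 - 1 / (2 : ℝ) ^ 40) := by
  obtain ⟨W, m, hW, hm, Den, P, ρ, hP, -, h⟩ := exists_swapProg
  refine ⟨W, m, Den, P, ρ, ?_, ?_, hP, h⟩
  · rw [hW]; positivity
  · rw [hm]; norm_num

end Crest.Agent.X326.A
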