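import Crest.Agent.X326.A.Alg
import Crest.Agent.X326.TC.ListLin
import Crest.Agent.X326.TC.MapAccum
import Crest.Agent.X326.TC.Un

/-!
Row 326 (S0503), part M2: running time of the stream operations (`xorL`, `splitS`, `splitW`,
`joinS`) and the wrapper turning records of any coded type into bit lists of a common width.
-/

set_option autoImplicit false

namespace Crest.Agent.X326.A

open Crest.Agent.Lib.PT Crest.Agent.X326

section maps

variable {ι α β γ : Type} [PTCode ι] [PTCode α] [PTCode β] [PTCode γ] {P : ι → Prop} {T : ι → ℕ}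

omit [PTCode α] [PTCode β] [PTCode γ] in
theorem accumL_ctx (f : γ → α → β) (c : γ) (l : List α) :
    accumL (fun q : γ × α => (q.1, [f q.1 q.2])) c l = (c, l.map (f c)) := by
  induction l with
  | nil => rfl
  | cons a l ih => simp [ih]

/-- map with a context: linear work on (context, element) for the elements in the domain `Q` -/
theorem tc_mapCtx {Q : γ × α → Prop} {f : γ → α → β}
    (hf : TC Q (fun _ => 0) (fun q : γ × α => f q.1 q.2)) {c : ι → γ} {l : ι → List α}
    (hc : TC P T c) (hl : TC P T l) (hQ : ∀ x, P x → ∀ a ∈ l x, Q (c x, a))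
    (hb : Bud P T (fun x => (l x).length * sz (c x))) :
    TC P T (fun x => (l x).map (f (c x))) := by
  have h1 : TC Q (fun _ => 0) (fun q : γ × α => (q.1, [f q.1 q.2])) :=
    TC.id.fst.prodMk hf.singleton
  have h2 := h1.accumL_inv hc hl (fun x t r => t = c x ∧ ∀ a ∈ r, a ∈ l x)
    (fun x _ => sz (c x)) (fun x _ => ⟨rfl, fun _ h => h⟩)
    (by
      rintro x hx t a r ⟨rfl, h⟩
      exact ⟨hQ x hx a (h a List.mem_cons_self), by simp,
        rfl, fun b hb => h b (List.mem_cons_of_mem _ hb)⟩)
    (hb.mono fun x _ => by simp)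
  exact h2.snd.of_eq fun x => by rw [accumL_ctx]

/-- map with a function that is linear on the domain `Q` -/
theorem tc_map {Q : α → Prop} {f : α → β} (hf : TC Q (fun _ => 0) f) {l : ι → List α}
    (hl : TC P T l) (hQ : ∀ x, P x → ∀ a ∈ l x, Q a) : TC P T (fun x => (l x).map f) :=
  tc_mapCtx (γ := Unit) (Q := fun q => Q q.2) (f := fun _ a => f a)
    (hf.comp TC.id.snd (fun _ h => h) (Bud.const 0)) (TC.const ()) hl hQ
    ((Bud.const 0).mono fun x _ => by simp)

theorem tc_zipWith {f : α → β → γ} (hf : Lin (fun q : α × β => f q.1 q.2)) {l : ι → List α}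
    {l' : ι → List β} (hl : TC P T l) (hl' : TC P T l') :
    TC P T (fun x => List.zipWith f (l x) (l' x)) :=
  (tc_map hf (hl.zip hl') (fun _ _ _ _ => trivial)).of_eq fun x => by
    rw [List.zip, List.map_zipWith]

end maps

section streams

variable {ι : Type} [PTCode ι] {P : ι → Prop} {T : ι → ℕ}

theorem lin_xorRec : Lin (fun q : Rec × Rec => List.zipWith xor q.1 q.2) :=
  tc_zipWith (TC.id.fst.xor TC.id.snd) TC.id.fst TC.id.snd

@[fun_prop]
theorem tc_xorL {s t : ι → Arr} (hs : TC P T s) (ht : TC P T t) :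
    TC P T (fun x => xorL (s x) (t x)) := tc_zipWith lin_xorRec hs ht

theorem lin_xorL : Lin (fun q : Arr × Arr => xorL q.1 q.2) := tc_xorL TC.id.fst TC.id.snd

theorem sz_arr {n z : ℕ} {l : Arr} (h : Shape n z l) : sz l = n * (6 * z + 1) := by
  rw [sz_list, ← h.1, List.map_congr_left (g := fun _ => 6 * z + 1)
    (fun r hr => by rw [sz_listBool, h.2 r hr]; omega)]
  simp

theorem sz_ws {W n z : ℕ} {ws : List Arr} (h : WS W n z ws) :
    sz ws = W * (2 * (n * (6 * z + 1)) + 1) := by
  rw [sz_list, ← h.1, List.map_congr_left (g := fun _ => 2 * (n * (6 * z + 1)) + 1)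
    (fun s hs => by rw [sz_arr (h.2 s hs)])]
  simp

/-- one piece of every record; the width of the piece is given in unary -/
theorem tc_splitS (w : ℕ) {z : ι → ℕ} {l : ι → Arr} (hz : TU P T z) (hl : TC P T l)
    (hb : Bud P T (fun x => (l x).length * z x)) : TC P T (fun x => splitS (z x) w (l x)) := by
  have h1 : Lin (fun q : Un × Rec => (q.2.drop (w * q.1.val)).take q.1.val) :=
    TC.take (TU.val TC.id.fst) (TC.drop ((TU.val TC.id.fst).const_mul w) TC.id.snd)
  exact tc_mapCtx (f := fun (u : Un) (r : Rec) => (r.drop (w * u.val)).take u.val) h1 hz.tc hl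
    (fun _ _ _ _ => trivial) (hb.mono fun x _ => by simp)

/-- the `W` streams; the width of the pieces is given in unary -/
theorem tc_splitW (W : ℕ) {z : ι → ℕ} {l : ι → Arr} (hz : TU P T z) (hl : TC P T l)
    (hb : Bud P T (fun x => (l x).length * z x)) : TC P T (fun x => splitW W (z x) (l x)) :=
  TC.listMap_fixed (List.range W) (g := fun w x => splitS (z x) w (l x))
    fun w _ => tc_splitS w hz hl hb

/-- the width of the pieces, read off the first record -/
def pieceW (W : ℕ) (l : Arr) : ℕ := (l.headD []).length / W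

theorem tu_pieceW (W : ℕ) {l : ι → Arr} (hl : TC P T l) : TU P T (fun x => pieceW W (l x)) :=
  (TU.length (hl.headD (TC.const []))).div (TU.const W)

theorem pieceW_eq {W n z : ℕ} (hW : 0 < W) (hn : 0 < n) {l : Arr} (h : Shape n (W * z) l) :
    pieceW W l = z := by
  obtain _ | ⟨r, l⟩ := l
  · exact absurd h.1 (by simpa using hn.ne)
  · rw [pieceW, List.headD_cons, h.2 r List.mem_cons_self, Nat.mul_div_cancel_left _ hW]

theorem splitW_pieceW {W n z : ℕ} (hW : 0 < W) {l : Arr} (h : Shape n (W * z) l) :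
    splitW W (pieceW W l) l = splitW W z l := by
  rcases Nat.eq_zero_or_pos n with rfl | hn
  · obtain rfl := List.length_eq_zero_iff.1 h.1
    simp [splitW, splitS]
  · rw [pieceW_eq hW hn h]

/-- the `W` streams of an array of uniform width: linear time, no width argument -/
theorem tc_splitW_piece (W : ℕ) {l : ι → Arr} (hl : TC P T l)
    (h : ∀ x, P x → ∃ n Z, Shape n Z (l x)) :
    TC P T (fun x => splitW W (pieceW W (l x)) (l x)) := by
  refine tc_splitW W (tu_pieceW W hl) hl (hl.sz.mono fun x hx => ?_)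
  obtain ⟨n, Z, h⟩ := h x hx
  rw [sz_arr h, h.1]
  refine Nat.mul_le_mul_left _ ?_
  have : pieceW W (l x) ≤ Z := by
    refine (Nat.div_le_self _ _).trans ?_
    cases e : l x with
    | nil => simp
    | cons r' l'' => exact (h.2 r' (e ▸ List.mem_cons_self)).le
  omega

/-- the `W` streams of an array of shape `n × (W * z)`: linear time -/
theorem tc_splitW_shape {W : ℕ} (hW : 0 < W) {z : ι → ℕ} {l : ι → Arr} (hl : TC P T l)
    (h : ∀ x, P x → ∃ n, Shape n (W * z x) (l x)) : TC P T (fun x => splitW W (z x) (l x)) :=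
  (tc_splitW_piece W hl fun x hx => (h x hx).imp fun _ h => ⟨_, h⟩).congr fun x hx =>
    (h x hx).elim fun _ h => splitW_pieceW hW h

@[fun_prop]
theorem tc_joinS (L : List ℕ) {ws : ι → List Arr} (hws : TC P T ws) :
    TC P T (fun x => joinS (ws x) L) := by
  induction L with
  | nil =>
    exact tc_map (Q := fun _ => True) (f := fun _ : Rec => ([] : Rec)) (TC.const _)
      (hws.getD (TU.const 0) (TC.const [])) (fun _ _ _ _ => trivial)
  | cons w L ih => exact tc_zipWith Lin.append (hws.getD (TU.const w) (TC.const [])) ih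

theorem lin_joinS (L : List ℕ) : Lin (fun ws : List Arr => joinS ws L) := tc_joinS L TC.id

/-- the instruction `xor` on the list of streams -/
@[fun_prop]
theorem tc_xorSet (w w' : ℕ) {ws : ι → List Arr} (hws : TC P T ws) :
    TC P T (fun x => (ws x).set w (xorL ((ws x).getD w []) ((ws x).getD w' []))) :=
  hws.set (TU.const w) (tc_xorL (hws.getD (TU.const w) (TC.const []))
    (hws.getD (TU.const w') (TC.const [])))

end streams

/-! ### records of any coded type as bit lists -/

section wrap

variable {ι α : Type} [PTCode ι] [PTCode α] {P : ι → Prop} {T : ι → ℕ}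

theorem enc_boolList (l : List Bool) : enc l = l.flatMap fun b => [true, b, false] := by
  induction l with
  | nil => rfl
  | cons b l ih => simp [ih, pair]

/-- a raw bit string as a list of Booleans -/
theorem lin_bitsVal : Lin (fun x : Bits => x.val) :=
  (LinRaw.flatMap fun b => [true, b, false]).lin fun x => (enc_boolList x.val).symm

/-- a list of Booleans as a raw bit string -/
theorem lin_bitsMk : Lin (fun l : List Bool => Bits.mk l) := by
  refine TC.of_run ListRun.flattenP (n := fun l => 14 * sz l + 2)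
    (Bud.of_le 0 14 2 (fun _ _ => by simp)) fun l _ => ?_
  rw [init_eq_st4]
  have e : l.reverse.flatMap (fun a => [] ++ (enc a).reverse.flatMap (fun c => [c])) =
      l.reverse := by simp
  refine ((ListRun.run_allCells_loop _ _ l []).seq (run_mv (by decide) _)).of_eq ?_ ?_
  · rw [e]; simp [init_eq_st4]
  · rw [e]; simp [sz_listBool]; omega

/-- the record `a` as a bit list of width `Z` (when `2 * sz a + 1 ≤ Z`) -/
def wrap (Z : ℕ) (a : α) : Rec := pair (enc a) (List.replicate (Z - (2 * sz a + 1)) true)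

open Classical in
/-- reading a wrapped record -/
noncomputable def unwrap (d : α) (r : Rec) : α :=
  if h : ∃ a : α, enc a = fst r then h.choose else d

/-- wrap all records -/
def wrapL (Z : ℕ) (l : List α) : Arr := l.map (wrap Z)

/-- read all records -/
noncomputable def unwrapL (d : α) (s : Arr) : List α := s.map (unwrap d)

/-- the largest size of a record -/
def maxSz (l : List α) : ℕ := l.foldl (fun m a => max m (sz a)) 0

theorem unwrap_wrap (d : α) (Z : ℕ) (a : α) : unwrap d (wrap Z a) = a := by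
  have h : ∃ b : α, enc b = fst (wrap Z a) := ⟨a, by simp [wrap]⟩
  rw [unwrap, dif_pos h]
  exact enc_injective (h.choose_spec.trans (fst_pair _ _))

theorem length_wrap {Z : ℕ} {a : α} (h : 2 * sz a + 1 ≤ Z) : (wrap Z a).length = Z := by
  rw [wrap, length_pair, List.length_replicate]
  change 2 * sz a + 1 + _ = _
  omega

@[simp] theorem length_wrapL (Z : ℕ) (l : List α) : (wrapL Z l).length = l.length := by
  simp [wrapL]

theorem shape_wrapL {Z : ℕ} {l : List α} (h : ∀ a ∈ l, 2 * sz a + 1 ≤ Z) :
    Shape l.length Z (wrapL Z l) := by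
  refine ⟨length_wrapL Z l, fun r hr => ?_⟩
  obtain ⟨a, ha, rfl⟩ := List.mem_map.1 hr
  exact length_wrap (h a ha)

theorem unwrapL_wrapL (d : α) (Z : ℕ) (l : List α) : unwrapL d (wrapL Z l) = l := by
  simp [unwrapL, wrapL, Function.comp_def, unwrap_wrap]

theorem foldl_max_spec (l : List α) (m : ℕ) :
    m ≤ l.foldl (fun m a => max m (sz a)) m ∧
      (∀ a ∈ l, sz a ≤ l.foldl (fun m a => max m (sz a)) m) ∧
      ∀ B, m ≤ B → (∀ a ∈ l, sz a ≤ B) → l.foldl (fun m a => max m (sz a)) m ≤ B := by
  induction l generalizing m with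
  | nil => simp
  | cons b l ih =>
    obtain ⟨h1, h2, h3⟩ := ih (max m (sz b))
    refine ⟨(le_max_left _ _).trans h1, fun a ha => ?_, fun B hm hB => ?_⟩
    · rcases List.mem_cons.1 ha with rfl | ha
      · exact (le_max_right _ _).trans h1
      · exact h2 a ha
    · exact h3 B (max_le hm (hB b List.mem_cons_self))
        fun a ha => hB a (List.mem_cons_of_mem _ ha)

theorem le_maxSz {l : List α} {a : α} (h : a ∈ l) : sz a ≤ maxSz l := (foldl_max_spec l 0).2.1 a h

theorem maxSz_le {l : List α} {B : ℕ} (h : ∀ a ∈ l, sz a ≤ B) : maxSz l ≤ B :=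
  (foldl_max_spec l 0).2.2 B (Nat.zero_le _) h

/-- the largest size in unary -/
theorem tu_maxSz {l : ι → List α} (hl : TC P T l)
    (hb : Bud P T (fun x => (l x).length * maxSz (l x))) : TU P T (fun x => maxSz (l x)) := by
  have h1 : Lin (fun q : Un × α => (Un.mk (max q.1.val (sz q.2)), ([] : List Unit))) :=
    ((TU.val TC.id.fst).max (TU.sz TC.id.snd)).tc.prodMk (TC.const _)
  have h2 := h1.accumL_inv (s := fun _ => Un.mk 0) (TC.const _) hl
    (fun x t r => t.val ≤ maxSz (l x) ∧ ∀ a ∈ r, a ∈ l x)
    (fun x _ => maxSz (l x)) (fun x _ => ⟨Nat.zero_le _, fun _ h => h⟩)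
    (by
      rintro x - t a r ⟨h0, h⟩
      exact ⟨trivial, by simpa using h0, max_le h0 (le_maxSz (h a List.mem_cons_self)),
        fun b hb => h b (List.mem_cons_of_mem _ hb)⟩)
    (hb.mono fun x _ => by simp)
  refine h2.fst.of_eq fun x => ?_
  rw [accumL_fst]
  change _ = Un.mk ((l x).foldl (fun m a => max m (sz a)) 0)
  generalize 0 = m
  induction l x generalizing m with
  | nil => rfl
  | cons a l ih => exact ih _

theorem lin_wrap : Lin (fun q : Un × α => wrap q.1.val q.2) := by
  have h1 : Lin (fun q : Un × α => (q.2, Un.mk (q.1.val - (2 * sz q.2 + 1)))) :=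
    TC.id.snd.prodMk
      ((TU.val TC.id.fst).sub (((TU.sz TC.id.snd).const_mul 2).add (TU.const 1))).tc
  exact TC.comp_lin lin_bitsVal h1.toBits

/-- wrapping; the width is given in unary -/
theorem tc_wrapL {Z : ι → ℕ} {l : ι → List α} (hZ : TU P T Z) (hl : TC P T l)
    (hb : Bud P T (fun x => (l x).length * Z x)) : TC P T (fun x => wrapL (Z x) (l x)) :=
  tc_mapCtx (f := fun (u : Un) (a : α) => wrap u.val a) lin_wrap hZ.tc hl
    (fun _ _ _ _ => trivial) (hb.mono fun x _ => by simp)

theorem tc_unwrap (d : α) :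
    TC (fun r : Rec => ∃ (Z : ℕ) (a : α), r = wrap Z a) (fun _ => 0) (unwrap d) :=
  TC.raw LinRaw.fst lin_bitsMk.tc (by
    rintro _ ⟨Z, a, rfl⟩
    rw [unwrap_wrap]
    simp [wrap])

/-- reading wrapped records -/
theorem tc_unwrapL (d : α) {s : ι → Arr} (hs : TC P T s)
    (h : ∀ x, P x → ∀ r ∈ s x, ∃ (Z : ℕ) (a : α), r = wrap Z a) :
    TC P T (fun x => unwrapL d (s x)) := tc_map (tc_unwrap d) hs h

theorem unwrapL_perm (d : α) (Z : ℕ) {σ : ℕ → ℕ} {l : List α}
    (hσ : ∀ j < l.length, σ j < l.length) : unwrapL d (perm [] σ (wrapL Z l)) = perm d σ l := by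
  refine ext_getD d (by simp [unwrapL]) fun j hj => ?_
  have hj' : j < l.length := by simpa [unwrapL] using hj
  rw [getD_perm _ _ _ _ hj', unwrapL, List.getD_eq_getElem _ _ (by simpa using hj'),
    List.getElem_map, ← List.getD_eq_getElem _ [], getD_perm _ _ _ _ (by simpa using hj'),
    wrapL, List.getD_eq_getElem _ _ (by simpa using hσ j hj'), List.getElem_map, unwrap_wrap,
    List.getD_eq_getElem _ _ (hσ j hj')]

theorem unwrapL_swapL (d : α) (Z : ℕ) {Q wH wD : ℕ} {l : List α} (g : Geo Q wH wD l.length) :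
    unwrapL d (swapL [] Q wH wD (wrapL Z l)) = swapL d Q wH wD l :=
  unwrapL_perm d Z fun _ hj => g.swapIdx_lt hj

/-- a permutation of records of any coded type from the permutation of the wrapped records -/
theorem tc_perm_of_wrap (d : α) {Z : ι → ℕ} {σ : ι → ℕ → ℕ} {l : ι → List α}
    (hσ : ∀ x, P x → ∀ j < (l x).length, σ x j < (l x).length)
    (h : TC P T (fun x => perm [] (σ x) (wrapL (Z x) (l x)))) :
    TC P T (fun x => perm d (σ x) (l x)) := by
  refine (tc_unwrapL d h fun x hx r hr => ?_).congr fun x hx => unwrapL_perm d _ (hσ x hx)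
  obtain ⟨a, -, rfl⟩ := List.mem_map.1 (mem_perm (by simpa using hσ x hx) hr)
  exact ⟨_, a, rfl⟩

/-- the interchange for records of any coded type from the interchange for bit lists -/
theorem tc_swapL_of_wrap (d : α) {Z Q wH wD : ι → ℕ} {l : ι → List α}
    (g : ∀ x, P x → Geo (Q x) (wH x) (wD x) (l x).length)
    (h : TC P T (fun x => swapL [] (Q x) (wH x) (wD x) (wrapL (Z x) (l x)))) :
    TC P T (fun x => swapL d (Q x) (wH x) (wD x) (l x)) :=
  tc_perm_of_wrap d (fun x hx _ hj => (g x hx).swapIdx_lt hj) h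

end wrap

end Crest.Agent.X326.A
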