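import Crest.Agent.X326.A.Spec
import Crest.Agent.X326.A.GathTC
import Crest.Agent.X326.A.StreamsTC
import Crest.Agent.X326.TC.Map
import Crest.Agent.X326.TC.ListLin
import Crest.Agent.X326.TC.Un

/-!
Row 326 (S0503), part M2: the stages of one recursion step of part A and their running times.
-/

set_option autoImplicit false

namespace Crest.Agent.X326.A

open Crest.Agent.Lib.PT

/-- running time of a free operation (proved in `A/FreeTC.lean`) -/
def OpStatement : Prop :=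
  ∀ (m Den : ℕ) (op : FOp m), 0 < Den → op.ok Den → ∃ k : ℕ, ∀ (ι : Type) [PTCode ι]
    (P : ι → Prop) (T : ι → ℕ) (q wH wD : ι → ℕ) (l : ι → Arr),
    TC P T q → TC P T wH → TC P T wD → TC P T l →
    (∀ x, P x → 0 < (l x).length ∧ 0 < q x ∧ q x ≡ 1 [MOD Den] ∧
      Geo (q x ^ m) (wH x) (wD x) (l x).length) →
    Bud P T (fun x => ovh k (l x).length (Nat.size (l x).length)) →
    TC P T (fun x => perm [] (opIdx (q x) (wH x) (wD x) op) (l x))

/-- running time of an interchange of bounded range (proved in `A/FreeTC.lean`) -/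
def SmallStatement : Prop :=
  ∀ K : ℕ, ∃ k : ℕ, ∀ (ι : Type) [PTCode ι]
    (P : ι → Prop) (T : ι → ℕ) (q wH wD : ι → ℕ) (l : ι → Arr),
    TC P T q → TC P T wH → TC P T wD → TC P T l →
    (∀ x, P x → 0 < (l x).length ∧ q x ≤ K ∧ Geo (q x) (wH x) (wD x) (l x).length) →
    Bud P T (fun x => ovh k (l x).length (Nat.size (l x).length)) →
    TC P T (fun x => swapL [] (q x) (wH x) (wD x) (l x))

/-- inputs of a call: `((E, wH, wD), l)` -/
abbrev XA : Type := (Un × ℕ × ℕ) × Arr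

/-- states of a call: `((E', q, wH, wD), streams)` -/
abbrev ZA : Type := (Un × ℕ × ℕ × ℕ) × List Arr

/-- the result of a call -/
def resA (R : ℕ) (x : XA) : Arr := swapL [] (R ^ x.1.1.val) x.1.2.1 x.1.2.2 x.2

/-- first stage: the interchange of the low parts, and the cut into streams -/
def preA (W m R : ℕ) (x : XA) : ZA :=
  ((⟨x.1.1.val / m⟩, R ^ (x.1.1.val / m), x.1.2.1 * R ^ (x.1.1.val % m),
      x.1.2.2 * R ^ (x.1.1.val % m)),
    splitW W ((x.2.headD []).length / W) (swapL [] (R ^ (x.1.1.val % m)) x.1.2.1 x.1.2.2 x.2))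

/-- one instruction on a state -/
def execZ {W m : ℕ} (z : ZA) (ins : Ins W m) : ZA :=
  (z.1, execL z.1.2.1 z.1.2.2.1 z.1.2.2.2 z.2 ins)

/-- the input of a child call -/
def getX {m : ℕ} (w : ℕ) (i j : Fin m) (z : ZA) : XA :=
  ((z.1.1, wt z.1.2.1 z.1.2.2.1 z.1.2.2.2 (.inl i), wt z.1.2.1 z.1.2.2.1 z.1.2.2.2 (.inr j)),
    z.2.getD w [])

/-- store the result of a child call -/
def putZ (w : ℕ) (z : ZA) (y : Arr) : ZA := (z.1, z.2.set w y)

/-- invariant of the inputs: `n` records of width `z0 * W ^ depth` -/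
def InvX (W m R n z0 : ℕ) (x : XA) : Prop :=
  0 < n ∧ Geo (R ^ x.1.1.val) x.1.2.1 x.1.2.2 n ∧ Shape n (z0 * W ^ dep m x.1.1.val) x.2

/-- invariant of the states -/
def InvZ (W m R n z0 : ℕ) (z : ZA) : Prop :=
  0 < n ∧ z.1.2.1 = R ^ z.1.1.val ∧ Geo (z.1.2.1 ^ m) z.1.2.2.1 z.1.2.2.2 n ∧
    WS W n (z0 * W ^ dep m z.1.1.val) z.2

section pure

variable {W m R Den n z0 : ℕ}

theorem Shape.headD {z : ℕ} {l : Arr} (h : Shape n z l) (hn : 0 < n) :
    (l.headD []).length = z := by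
  have := h.getD hn
  rwa [← List.headD_eq_getD] at this

theorem InvX.pre (hW : 0 < W) (hm : 2 ≤ m) {x : XA} (h : InvX W m R n z0 x)
    (hE : x.1.1.val ≠ 0) : InvZ W m R n z0 (preA W m R x) := by
  obtain ⟨hn, g, hs⟩ := h
  rw [pow_split R _ m] at g
  rw [dep_pos hm hE, pow_succ, ← Nat.mul_assoc, Nat.mul_comm] at hs
  refine ⟨hn, rfl, g.high, ?_⟩
  simp only [preA]
  rw [hs.headD hn, Nat.mul_div_cancel_left _ hW]
  exact (hs.swapL g.low).splitW

theorem InvZ.q_pos (hR : 0 < R) {z : ZA} (h : InvZ W m R n z0 z) : 0 < z.1.2.1 := by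
  rw [h.2.1]; exact pow_pos hR _

theorem InvZ.q_mod (hRD : R ≡ 1 [MOD Den]) {z : ZA} (h : InvZ W m R n z0 z) :
    z.1.2.1 ≡ 1 [MOD Den] := by
  rw [h.2.1]; simpa using hRD.pow _

theorem InvZ.exec (hR : 0 < R) (hDen : 0 < Den) (hRD : R ≡ 1 [MOD Den]) {z : ZA}
    (h : InvZ W m R n z0 z) (ins : Ins W m) (hins : ins.ok Den) :
    InvZ W m R n z0 (execZ z ins) :=
  ⟨h.1, h.2.1, h.2.2.1, h.2.2.2.execL (h.q_pos hR) h.2.2.1 hDen (h.q_mod hRD) ins hins⟩

theorem InvZ.get (hR : 0 < R) {z : ZA} (h : InvZ W m R n z0 z) (w : Fin W) (i j : Fin m) :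
    InvX W m R n z0 (getX w i j z) := by
  refine ⟨h.1, ?_, h.2.2.2.getD w.2⟩
  have := h.2.2.1.child (h.q_pos hR) i j
  simp only [getX]
  rwa [← h.2.1]

theorem InvZ.put_res {z : ZA} (h : InvZ W m R n z0 z) (w : Fin W) (i j : Fin m) :
    putZ w z (resA R (getX w i j z)) = execZ z (.call w i j) := by
  simp only [putZ, resA, getX, execZ, execL, ← h.2.1]

theorem foldl_execZ (P : List (Ins W m)) (z : ZA) :
    (P.foldl execZ z).2 = P.foldl (execL z.1.2.1 z.1.2.2.1 z.1.2.2.2) z.2 := by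
  induction P generalizing z with
  | nil => rfl
  | cons ins P ih => rw [List.foldl_cons, ih]; rfl

theorem InvX.step {P : List (Ins W m)} {ρ : Fin W ≃ Fin W} (hP : SwapProg Den P ρ) (hW : 0 < W)
    (hm : 2 ≤ m) (hR : 0 < R) (hRD : R ≡ 1 [MOD Den]) {x : XA} (h : InvX W m R n z0 x)
    (hE : x.1.1.val ≠ 0) :
    joinS (P.foldl execZ (preA W m R x)).2 (outOrder ρ) = resA R x := by
  obtain ⟨hn, g, hs⟩ := h
  rw [dep_pos hm hE, pow_succ, ← Nat.mul_assoc, Nat.mul_comm] at hs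
  rw [foldl_execZ]
  simp only [preA]
  rw [hs.headD hn, Nat.mul_div_cancel_left _ hW]
  exact step_eq hP hW hR hRD g hs

theorem resA_zero {x : XA} (hE : x.1.1.val = 0) : resA R x = x.2 := by
  rw [resA, hE, pow_zero, swapL_one]

theorem Geo.le {Q wH wD : ℕ} (g : Geo Q wH wD n) (hn : 0 < n) : Q ≤ n ∧ wH ≤ n ∧ wD ≤ n := by
  have h2 := Nat.le_of_dvd hn g.h2
  have h1 := Nat.le_of_dvd g.hH g.h1
  have a1 : Q ≤ wH * Q := Nat.le_mul_of_pos_left _ g.hH
  have a2 : wH ≤ wH * Q := Nat.le_mul_of_pos_right _ g.hq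
  have a3 : wD ≤ wD * Q := Nat.le_mul_of_pos_right _ g.hq
  omega

theorem Shape.sz_eq {z : ℕ} {l : Arr} (h : Shape n z l) : sz l = n * (6 * z + 1) := by
  obtain ⟨rfl, h⟩ := h
  induction l with
  | nil => simp
  | cons r l ih =>
    rw [sz_cons, ih fun r hr => h r (List.mem_cons_of_mem _ hr), sz_listBool,
      h r List.mem_cons_self, List.length_cons]
    ring

theorem WS.sz_eq {z : ℕ} {ws : List Arr} (h : WS W n z ws) :
    sz ws = W * (2 * (n * (6 * z + 1)) + 1) := by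
  obtain ⟨rfl, h⟩ := h
  induction ws with
  | nil => simp
  | cons s ws ih =>
    rw [sz_cons, ih fun r hr => h r (List.mem_cons_of_mem _ hr), (h s List.mem_cons_self).sz_eq,
      List.length_cons]
    ring

theorem InvX.sz_le (hR : 2 ≤ R) {x : XA} (h : InvX W m R n z0 x) :
    sz x ≤ n * (6 * (z0 * W ^ dep m x.1.1.val) + 1) + 10 * n + 7 := by
  obtain ⟨hn, g, hs⟩ := h
  obtain ⟨h1, h2, h3⟩ := g.le hn
  have h4 : x.1.1.val ≤ R ^ x.1.1.val := (Nat.lt_pow_self (by omega)).le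
  have h5 := sz_nat_le x.1.2.1
  have h6 := sz_nat_le x.1.2.2
  simp only [sz_prod, hs.sz_eq]
  have : sz x.1.1 = x.1.1.val := sz_un _
  omega

theorem InvZ.q_le (hm : 2 ≤ m) {z : ZA} (h : InvZ W m R n z0 z) : z.1.2.1 ≤ n :=
  (Nat.le_self_pow (by omega) _).trans (h.2.2.1.le h.1).1

theorem InvZ.sz_le (hm : 2 ≤ m) (hR : 2 ≤ R) {z : ZA} (h : InvZ W m R n z0 z) :
    sz z ≤ W * (2 * (n * (6 * (z0 * W ^ dep m z.1.1.val) + 1)) + 1) + 14 * n + 11 := by
  have h0 := h.q_le hm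
  obtain ⟨hn, hq, g, hs⟩ := h
  obtain ⟨-, h2, h3⟩ := g.le hn
  have h4 : z.1.1.val ≤ R ^ z.1.1.val := (Nat.lt_pow_self (by omega)).le
  have h5 := sz_nat_le z.1.2.1
  have h6 := sz_nat_le z.1.2.2.1
  have h7 := sz_nat_le z.1.2.2.2
  simp only [sz_prod, hs.sz_eq]
  have : sz z.1.1 = z.1.1.val := sz_un _
  omega

end pure

section stages

variable {W m R Den : ℕ}

/-- domain of the inputs -/
def DomX (W m R : ℕ) (x : XA) : Prop := ∃ n z0, InvX W m R n z0 x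

/-- domain of the states -/
def DomZ (W m R : ℕ) (z : ZA) : Prop := ∃ n z0, InvZ W m R n z0 z

/-- per-record overhead of an input -/
def ovX (k : ℕ) (x : XA) : ℕ := ovh k x.2.length (Nat.size x.2.length)

/-- per-record overhead of a state -/
def ovZ (k : ℕ) (z : ZA) : ℕ := ovh k (z.2.getD 0 []).length (Nat.size (z.2.getD 0 []).length)

theorem tc_preA (hS : SmallStatement) (hm : 2 ≤ m) (hR : 0 < R) :
    ∃ k, TC (DomX W m R) (ovX k) (preA W m R) := by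
  obtain ⟨k, hk⟩ := hS (R ^ m)
  refine ⟨k, ?_⟩
  have hE : TU (DomX W m R) (ovX k) (fun x : XA => x.1.1.val) := TU.val TC.id.fst.fst
  have hl : TC (DomX W m R) (ovX k) (fun x : XA => x.2) := TC.id.snd
  have hH : TC (DomX W m R) (ovX k) (fun x : XA => x.1.2.1) := TC.id.fst.snd.fst
  have hD : TC (DomX W m R) (ovX k) (fun x : XA => x.1.2.2) := TC.id.fst.snd.snd
  have hn : Bud (DomX W m R) (ovX k) (fun x : XA => x.2.length) := hl.bud_length
  have hE1 := hE.div (TU.const m)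
  have hE2 := hE.mod (TU.const m)
  have hq : TC (DomX W m R) (ovX k) (fun x : XA => R ^ (x.1.1.val / m)) :=
    TC.pow_of_bud (TU.const R) hE1 (hn.mono fun x ⟨n, z0, h0, g, hs⟩ => by
      rw [hs.1]
      exact (Nat.pow_le_pow_right hR (Nat.div_le_self _ _)).trans (g.le h0).1)
  have hr : TC (DomX W m R) (ovX k) (fun x : XA => R ^ (x.1.1.val % m)) :=
    TC.pow_of_bud (TU.const R) hE2 ((Bud.const (R ^ m)).mono fun x _ =>
      Nat.pow_le_pow_right hR (Nat.mod_lt _ (by omega)).le)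
  have hrs : Small (DomX W m R) (ovX k) (fun x : XA => sz (R ^ (x.1.1.val % m))) :=
    Small.sz_nat ((Bud.const (R ^ m)).mono fun x _ =>
      Nat.pow_le_pow_right hR (Nat.mod_lt _ (by omega)).le)
  have hH' : TC (DomX W m R) (ovX k) (fun x : XA => x.1.2.1 * R ^ (x.1.1.val % m)) :=
    TC.ptf₂ (g := fun a b : ℕ => a * b) (by pt_prop) hH hr
      (Small.sz_nat (hn.mono fun x ⟨n, z0, h0, g, hs⟩ => hs.1 ▸ (g.le h0).2.1)) hrs
  have hD' : TC (DomX W m R) (ovX k) (fun x : XA => x.1.2.2 * R ^ (x.1.1.val % m)) :=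
    TC.ptf₂ (g := fun a b : ℕ => a * b) (by pt_prop) hD hr
      (Small.sz_nat (hn.mono fun x ⟨n, z0, h0, g, hs⟩ => hs.1 ▸ (g.le h0).2.2)) hrs
  have hs : TC (DomX W m R) (ovX k)
      (fun x : XA => swapL [] (R ^ (x.1.1.val % m)) x.1.2.1 x.1.2.2 x.2) :=
    hk _ _ _ _ _ _ _ hr hH hD hl (fun x ⟨n, z0, h0, g, hs⟩ => by
      rw [pow_split R _ m] at g
      rw [hs.1]
      exact ⟨h0, Nat.pow_le_pow_right hR (Nat.mod_lt _ (by omega)).le, g.low⟩) Bud.self
  have hz : TU (DomX W m R) (ovX k) (fun x : XA => (x.2.headD []).length / W) :=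
    (TU.length (TC.headD hl (TC.const []))).div (TU.const W)
  refine (TC.prodMk hE1 (hq.prodMk (hH'.prodMk hD'))).prodMk (tc_splitW W hz hs ?_)
  refine hl.sz.mono fun x ⟨n, z0, h0, g, hs⟩ => ?_
  rw [length_swapL, hs.headD h0, hs.sz_eq, hs.1]
  exact Nat.mul_le_mul_left _ ((Nat.div_le_self _ _).trans (by omega))

theorem tc_execZ (hO : OpStatement) (hW : 0 < W) (hR : 0 < R) (hDen : 0 < Den)
    (hRD : R ≡ 1 [MOD Den]) (ins : Ins W m) (hins : ins.ok Den) (hc : ins.isCall = false) :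
    ∃ k, TC (DomZ W m R) (ovZ k) (fun z => execZ z ins) := by
  rcases ins with ⟨w, w'⟩ | ⟨w, op⟩ | ⟨w, i, j⟩
  · exact ⟨0, TC.id.fst.prodMk (TC.set TC.id.snd (TU.const _) (tc_xorL
      (TC.getD TC.id.snd (TU.const _) (TC.const _)) (TC.getD TC.id.snd (TU.const _) (TC.const _))))⟩
  · obtain ⟨k, hk⟩ := hO m Den op hDen hins
    refine ⟨k, TC.id.fst.prodMk (TC.set TC.id.snd (TU.const _) ?_)⟩
    refine hk _ _ _ _ _ _ _ TC.id.fst.snd.fst TC.id.fst.snd.snd.fst TC.id.fst.snd.snd.snd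
      (TC.getD TC.id.snd (TU.const _) (TC.const _)) (fun z ⟨n, z0, h⟩ => ?_)
      (Bud.self.mono fun z ⟨n, z0, h⟩ => ?_)
    · rw [(h.2.2.2.getD w.2).1]
      exact ⟨h.1, h.q_pos hR, h.q_mod hRD, h.2.2.1⟩
    · rw [ovZ, (h.2.2.2.getD w.2).1, (h.2.2.2.getD hW).1]
  · simp [Ins.isCall] at hc

theorem tc_getX (hW : 0 < W) (hm : 2 ≤ m) (k : ℕ) (w : ℕ) (i j : Fin m) :
    TC (DomZ W m R) (ovZ k) (getX w i j) := by
  have hn : Bud (DomZ W m R) (ovZ k) (fun z : ZA => (z.2.getD 0 []).length) :=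
    (TC.getD TC.id.snd (TU.const _) (TC.const _)).bud_length
  have hq : Small (DomZ W m R) (ovZ k) (fun z : ZA => sz z.1.2.1) :=
    Small.sz_nat (hn.mono fun z ⟨n, z0, h⟩ => (h.2.2.2.getD hW).1 ▸ h.q_le hm)
  have hH : Small (DomZ W m R) (ovZ k) (fun z : ZA => sz z.1.2.2.1) :=
    Small.sz_nat (hn.mono fun z ⟨n, z0, h⟩ => (h.2.2.2.getD hW).1 ▸ (h.2.2.1.le h.1).2.1)
  have hD : Small (DomZ W m R) (ovZ k) (fun z : ZA => sz z.1.2.2.2) :=
    Small.sz_nat (hn.mono fun z ⟨n, z0, h⟩ => (h.2.2.2.getD hW).1 ▸ (h.2.2.1.le h.1).2.2)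
  have h1 : TC (DomZ W m R) (ovZ k) (fun z : ZA => z.1.2.2.1 * z.1.2.1 ^ (m - 1 - i)) :=
    TC.ptf₂ (g := fun a b : ℕ => a * b ^ (m - 1 - i)) (by pt_prop) TC.id.fst.snd.snd.fst
      TC.id.fst.snd.fst hH hq
  have h2 : TC (DomZ W m R) (ovZ k) (fun z : ZA => z.1.2.2.2 * z.1.2.1 ^ (m - 1 - j)) :=
    TC.ptf₂ (g := fun a b : ℕ => a * b ^ (m - 1 - j)) (by pt_prop) TC.id.fst.snd.snd.snd
      TC.id.fst.snd.fst hD hq
  exact (TC.id.fst.fst.prodMk (h1.prodMk h2)).prodMk (TC.getD TC.id.snd (TU.const _) (TC.const _))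

end stages

end Crest.Agent.X326.A
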