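import Crest.Agent.X326.A.Alg
import Crest.Agent.X326.TC.ListLin
import Crest.Agent.X326.TC.Map
import Crest.Agent.X326.TC.Un

/-!
Row 326 (S0503), part M2: records of any coded type as bit lists of a common width
(the wrapper of `A/StreamsTC.lean`, written by helper96, in its own namespace).
-/

set_option autoImplicit false

namespace Crest.Agent.X326.A.Wr

open Crest.Agent.Lib.PT Crest.Agent.X326 Crest.Agent.X326.A

section wrap

variable {ι α : Type} [PTCode ι] [PTCode α] {P : ι → Prop} {T : ι → ℕ}

theorem enc_boolList (l : List Bool) : enc l = l.flatMap fun b => [true, b, false] := by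
  induction l with
  | nil => rfl
  | cons b l ih => simp [ih, pair]

/-- a raw bit string as a list of Booleans -/
theorem lin_bitsVal : Lin (fun x : Bits => x.val) :=
  (LinRaw.flatMap fun b => [true, b, false]).lin fun x => (enc_boolList x.val).symm

/-- a list of Booleans as a raw bit string -/
theorem lin_bitsMk : Lin (fun l : List Bool => Bits.mk l) := by
  refine TC.of_run ListRun.flattenP (n := fun l => 14 * sz l + 2)
    (Bud.of_le 0 14 2 (fun _ _ => by simp)) fun l _ => ?_
  rw [init_eq_st4]
  have e : l.reverse.flatMap (fun a => [] ++ (enc a).reverse.flatMap (fun c => [c])) =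
      l.reverse := by simp
  refine ((ListRun.run_allCells_loop _ _ l []).seq (run_mv (by decide) _)).of_eq ?_ ?_
  · rw [e]; simp [init_eq_st4]
  · rw [e]; simp [sz_listBool]; omega

/-- the record `a` as a bit list of width `Z` (when `2 * sz a + 1 ≤ Z`) -/
def wrap (Z : ℕ) (a : α) : Rec := pair (enc a) (List.replicate (Z - (2 * sz a + 1)) true)

open Classical in
/-- reading a wrapped record -/
noncomputable def unwrap (d : α) (r : Rec) : α :=
  if h : ∃ a : α, enc a = fst r then h.choose else d

/-- wrap all records -/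
def wrapL (Z : ℕ) (l : List α) : Arr := l.map (wrap Z)

/-- read all records -/
noncomputable def unwrapL (d : α) (s : Arr) : List α := s.map (unwrap d)

/-- the largest size of a record -/
def maxSz (l : List α) : ℕ := l.foldl (fun m a => max m (sz a)) 0

theorem unwrap_wrap (d : α) (Z : ℕ) (a : α) : unwrap d (wrap Z a) = a := by
  have h : ∃ b : α, enc b = fst (wrap Z a) := ⟨a, by simp [wrap]⟩
  rw [unwrap, dif_pos h]
  exact enc_injective (h.choose_spec.trans (fst_pair _ _))

theorem length_wrap {Z : ℕ} {a : α} (h : 2 * sz a + 1 ≤ Z) : (wrap Z a).length = Z := by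
  rw [wrap, length_pair, List.length_replicate]
  change 2 * sz a + 1 + _ = _
  omega

@[simp] theorem length_wrapL (Z : ℕ) (l : List α) : (wrapL Z l).length = l.length := by
  simp [wrapL]

theorem shape_wrapL {Z : ℕ} {l : List α} (h : ∀ a ∈ l, 2 * sz a + 1 ≤ Z) :
    Shape l.length Z (wrapL Z l) := by
  refine ⟨length_wrapL Z l, fun r hr => ?_⟩
  obtain ⟨a, ha, rfl⟩ := List.mem_map.1 hr
  exact length_wrap (h a ha)

theorem unwrapL_wrapL (d : α) (Z : ℕ) (l : List α) : unwrapL d (wrapL Z l) = l := by
  simp [unwrapL, wrapL, Function.comp_def, unwrap_wrap]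

theorem foldl_max_spec (l : List α) (m : ℕ) :
    m ≤ l.foldl (fun m a => max m (sz a)) m ∧
      (∀ a ∈ l, sz a ≤ l.foldl (fun m a => max m (sz a)) m) ∧
      ∀ B, m ≤ B → (∀ a ∈ l, sz a ≤ B) → l.foldl (fun m a => max m (sz a)) m ≤ B := by
  induction l generalizing m with
  | nil => simp
  | cons b l ih =>
    obtain ⟨h1, h2, h3⟩ := ih (max m (sz b))
    refine ⟨(le_max_left _ _).trans h1, fun a ha => ?_, fun B hm hB => ?_⟩
    · rcases List.mem_cons.1 ha with rfl | ha
      · exact (le_max_right _ _).trans h1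
      · exact h2 a ha
    · exact h3 B (max_le hm (hB b List.mem_cons_self))
        fun a ha => hB a (List.mem_cons_of_mem _ ha)

theorem le_maxSz {l : List α} {a : α} (h : a ∈ l) : sz a ≤ maxSz l := (foldl_max_spec l 0).2.1 a h

theorem maxSz_le {l : List α} {B : ℕ} (h : ∀ a ∈ l, sz a ≤ B) : maxSz l ≤ B :=
  (foldl_max_spec l 0).2.2 B (Nat.zero_le _) h

/-- the largest size in unary -/
theorem tu_maxSz {l : ι → List α} (hl : TC P T l)
    (hb : Bud P T (fun x => (l x).length * maxSz (l x))) : TU P T (fun x => maxSz (l x)) := by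
  have h1 : Lin (fun q : Un × α => (Un.mk (max q.1.val (sz q.2)), ([] : List Unit))) :=
    ((TU.val TC.id.fst).max (TU.sz TC.id.snd)).tc.prodMk (TC.const _)
  have h2 := h1.accumL_inv (s := fun _ => Un.mk 0) (TC.const _) hl
    (fun x t r => t.val ≤ maxSz (l x) ∧ ∀ a ∈ r, a ∈ l x)
    (fun x _ => maxSz (l x)) (fun x _ => ⟨Nat.zero_le _, fun _ h => h⟩)
    (by
      rintro x - t a r ⟨h0, h⟩
      exact ⟨trivial, by simpa using h0, max_le h0 (le_maxSz (h a List.mem_cons_self)),
        fun b hb => h b (List.mem_cons_of_mem _ hb)⟩)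
    (hb.mono fun x _ => by simp)
  refine h2.fst.of_eq fun x => ?_
  rw [accumL_fst]
  change _ = Un.mk ((l x).foldl (fun m a => max m (sz a)) 0)
  generalize 0 = m
  induction l x generalizing m with
  | nil => rfl
  | cons a l ih => exact ih _

theorem lin_wrap : Lin (fun q : Un × α => wrap q.1.val q.2) := by
  have h1 : Lin (fun q : Un × α => (q.2, Un.mk (q.1.val - (2 * sz q.2 + 1)))) :=
    TC.id.snd.prodMk
      ((TU.val TC.id.fst).sub (((TU.sz TC.id.snd).const_mul 2).add (TU.const 1))).tc
  exact TC.comp_lin lin_bitsVal h1.toBits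

/-- wrapping; the width is given in unary -/
theorem tc_wrapL {Z : ι → ℕ} {l : ι → List α} (hZ : TU P T Z) (hl : TC P T l)
    (hb : Bud P T (fun x => (l x).length * Z x)) : TC P T (fun x => wrapL (Z x) (l x)) :=
  TC.mapCtx_lin (f := fun (u : Un) (a : α) => wrap u.val a) lin_wrap hZ.tc hl
    (hb.mono fun x _ => by simp)

theorem tc_unwrap (d : α) :
    TC (fun r : Rec => ∃ (Z : ℕ) (a : α), r = wrap Z a) (fun _ => 0) (unwrap d) :=
  TC.raw LinRaw.fst lin_bitsMk.tc (by
    rintro _ ⟨Z, a, rfl⟩
    rw [unwrap_wrap]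
    simp [wrap])

/-- reading wrapped records -/
theorem tc_unwrapL (d : α) {s : ι → Arr} (hs : TC P T s)
    (h : ∀ x, P x → ∀ r ∈ s x, ∃ (Z : ℕ) (a : α), r = wrap Z a) :
    TC P T (fun x => unwrapL d (s x)) :=
  TC.map' (tc_unwrap d) hs h ((Bud.const 0).mono fun x _ => by simp)

theorem unwrapL_perm (d : α) (Z : ℕ) {σ : ℕ → ℕ} {l : List α}
    (hσ : ∀ j < l.length, σ j < l.length) : unwrapL d (perm [] σ (wrapL Z l)) = perm d σ l := by
  refine ext_getD d (by simp [unwrapL]) fun j hj => ?_
  have hj' : j < l.length := by simpa [unwrapL] using hj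
  rw [getD_perm _ _ _ _ hj', unwrapL, List.getD_eq_getElem _ _ (by simpa using hj'),
    List.getElem_map, ← List.getD_eq_getElem _ [], getD_perm _ _ _ _ (by simpa using hj'),
    wrapL, List.getD_eq_getElem _ _ (by simpa using hσ j hj'), List.getElem_map, unwrap_wrap,
    List.getD_eq_getElem _ _ (hσ j hj')]

theorem unwrapL_swapL (d : α) (Z : ℕ) {Q wH wD : ℕ} {l : List α} (g : Geo Q wH wD l.length) :
    unwrapL d (swapL [] Q wH wD (wrapL Z l)) = swapL d Q wH wD l :=
  unwrapL_perm d Z fun _ hj => g.swapIdx_lt hj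

/-- a permutation of records of any coded type from the permutation of the wrapped records -/
theorem tc_perm_of_wrap (d : α) {Z : ι → ℕ} {σ : ι → ℕ → ℕ} {l : ι → List α}
    (hσ : ∀ x, P x → ∀ j < (l x).length, σ x j < (l x).length)
    (h : TC P T (fun x => perm [] (σ x) (wrapL (Z x) (l x)))) :
    TC P T (fun x => perm d (σ x) (l x)) := by
  refine (tc_unwrapL d h fun x hx r hr => ?_).congr fun x hx => unwrapL_perm d _ (hσ x hx)
  obtain ⟨a, -, rfl⟩ := List.mem_map.1 (mem_perm (by simpa using hσ x hx) hr)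
  exact ⟨_, a, rfl⟩

/-- the interchange for records of any coded type from the interchange for bit lists -/
theorem tc_swapL_of_wrap (d : α) {Z Q wH wD : ι → ℕ} {l : ι → List α}
    (g : ∀ x, P x → Geo (Q x) (wH x) (wD x) (l x).length)
    (h : TC P T (fun x => swapL [] (Q x) (wH x) (wD x) (wrapL (Z x) (l x)))) :
    TC P T (fun x => swapL d (Q x) (wH x) (wD x) (l x)) :=
  tc_perm_of_wrap d (fun x hx _ hj => (g x hx).swapIdx_lt hj) h

end wrap

end Crest.Agent.X326.A.Wr
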