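import Crest.Agent.X326.A.Defs
import Crest.Agent.X326.A.Idx

/-!
Row 326 (S0503), part M2: addresses of flat indices.

A flat index `j` has `2 m` fields of range `q`: `H_i` has weight `wH * q ^ (m - 1 - i)` and `D_j`
has weight `wD * q ^ (m - 1 - j)`.  The free address operations become explicit index maps.
-/

set_option autoImplicit false

namespace Crest.Agent.X326.A

/-- the geometry of a call: two groups of range `Q` with weights `wH`, `wD` in an array of
length `n` -/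
structure Geo (Q wH wD n : ℕ) : Prop where
  hq : 0 < Q
  hD : 0 < wD
  hH : 0 < wH
  h1 : wD * Q ∣ wH
  h2 : wH * Q ∣ n

/-- weight of a field -/
def wt {m : ℕ} (q wH wD : ℕ) : Fld m → ℕ
  | .inl i => wH * q ^ (m - 1 - i)
  | .inr j => wD * q ^ (m - 1 - j)

/-- the address of a flat index -/
def addrOf (m q wH wD j : ℕ) : Addr m q := fun f => (dig (wt q wH wD f) q j : ZMod q)

/-- the spectator part of a flat index -/
def restOf (Q wH wD j : ℕ) : ℕ × ℕ × ℕ :=
  (j / (wH * Q), dig (wD * Q) (wH / (wD * Q)) j, j % wD)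

/-- a natural number representing the integer `c` modulo `q` -/
def coefN (q : ℕ) (c : ℤ) : ℕ := if 0 ≤ c then c.natAbs else c.natAbs * (q - 1)

/-- division by `b` modulo `q` (for `q ≡ 1 (mod b)`) -/
def divN (q b x : ℕ) : ℕ := (x + (b - x % b) % b * q) / b

/-- the index map of a free operation -/
def opIdx {m : ℕ} (q wH wD : ℕ) : FOp m → ℕ → ℕ
  | .rot t s c, j => setDig (wt q wH wD t) q j
      ((dig (wt q wH wD t) q j + coefN q c * dig (wt q wH wD s) q j) % q)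
  | .mul t b, j => setDig (wt q wH wD t) q j (b * dig (wt q wH wD t) q j % q)
  | .div t b, j => setDig (wt q wH wD t) q j (divN q b (dig (wt q wH wD t) q j))
  | .neg t, j => setDig (wt q wH wD t) q j ((q - dig (wt q wH wD t) q j) % q)

section

variable {m q wH wD n j j' v : ℕ}

theorem pow_mul_dvd_pow (q : ℕ) {a b : ℕ} (h : a < b) : q ^ a * q ∣ q ^ b := by
  rw [← pow_succ]; exact pow_dvd_pow _ h

theorem wt_pos (hq : 0 < q) (hD : 0 < wD) (hH : 0 < wH) (t : Fld m) : 0 < wt q wH wD t := by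
  rcases t with i | j
  · exact Nat.mul_pos hH (pow_pos hq _)
  · exact Nat.mul_pos hD (pow_pos hq _)

theorem wt_inr_dvd (q wH wD : ℕ) (j : Fin m) : wt q wH wD (.inr j) * q ∣ wD * q ^ m := by
  have := j.2
  rw [wt, Nat.mul_assoc]
  exact Nat.mul_dvd_mul_left _ (pow_mul_dvd_pow q (by omega))

theorem wt_inl_dvd (q wH wD : ℕ) (i : Fin m) : wt q wH wD (.inl i) * q ∣ wH * q ^ m := by
  have := i.2
  rw [wt, Nat.mul_assoc]
  exact Nat.mul_dvd_mul_left _ (pow_mul_dvd_pow q (by omega))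

theorem dvd_wt_inl (q wH wD : ℕ) (i : Fin m) : wH ∣ wt q wH wD (.inl i) := Dvd.intro _ rfl

theorem dvd_wt_inr (q wH wD : ℕ) (j : Fin m) : wD ∣ wt q wH wD (.inr j) := Dvd.intro _ rfl

theorem wt_dvd_top (h1 : wD * q ^ m ∣ wH) (t : Fld m) : wt q wH wD t * q ∣ wH * q ^ m := by
  rcases t with i | j
  · exact wt_inl_dvd q wH wD i
  · exact ((wt_inr_dvd q wH wD j).trans h1).mul_right _

theorem dvd_wt (h1 : wD * q ^ m ∣ wH) (t : Fld m) : wD ∣ wt q wH wD t := by
  rcases t with i | j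
  · exact ((Dvd.intro _ rfl).trans h1).trans (dvd_wt_inl q wH wD i)
  · exact dvd_wt_inr q wH wD j

theorem wt_dvd_of_pos_lt (h1 : wD * q ^ m ∣ wH) {s t : Fld m} (h : s.pos < t.pos) :
    wt q wH wD t * q ∣ wt q wH wD s := by
  rcases s with i | j <;> rcases t with i' | j'
  · have := i'.2
    simp only [Fld.pos] at h
    simp only [wt, Nat.mul_assoc]
    exact Nat.mul_dvd_mul_left _ (pow_mul_dvd_pow q (by omega))
  · exact ((wt_inr_dvd q wH wD j').trans h1).trans (dvd_wt_inl q wH wD i)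
  · have := i'.2
    simp only [Fld.pos] at h
    omega
  · have := j'.2
    simp only [Fld.pos] at h
    simp only [wt, Nat.mul_assoc]
    exact Nat.mul_dvd_mul_left _ (pow_mul_dvd_pow q (by omega))

theorem Fld.pos_inj {s t : Fld m} (h : s.pos = t.pos) : s = t := by
  rcases s with i | j <;> rcases t with i' | j' <;> simp only [Fld.pos] at h
  · exact congrArg _ (Fin.ext h)
  · have := i.2; omega
  · have := i'.2; omega
  · exact congrArg _ (Fin.ext (by omega))

theorem dig_setDig_ne (hq : 0 < q) (hD : 0 < wD) (hH : 0 < wH) (h1 : wD * q ^ m ∣ wH)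
    (hv : v < q) {s t : Fld m} (h : s ≠ t) :
    dig (wt q wH wD s) q (setDig (wt q wH wD t) q j v) = dig (wt q wH wD s) q j := by
  rcases lt_trichotomy s.pos t.pos with hl | he | hl
  · exact dig_setDig_hi (wt_pos hq hD hH t) hv (wt_dvd_of_pos_lt h1 hl)
  · exact absurd (Fld.pos_inj he) h
  · exact dig_setDig_lo (wt_dvd_of_pos_lt h1 hl)

theorem addrOf_setDig (hq : 0 < q) (hD : 0 < wD) (hH : 0 < wH) (h1 : wD * q ^ m ∣ wH)
    (hv : v < q) (t : Fld m) :
    addrOf m q wH wD (setDig (wt q wH wD t) q j v) =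
      Function.update (addrOf m q wH wD j) t (v : ZMod q) := by
  funext s
  by_cases h : s = t
  · subst h
    rw [Function.update_self, addrOf, dig_setDig (wt_pos hq hD hH s) hv]
  · rw [Function.update_of_ne h, addrOf, addrOf, dig_setDig_ne hq hD hH h1 hv h]

theorem restOf_setDig (hq : 0 < q) (hD : 0 < wD) (hH : 0 < wH) (h1 : wD * q ^ m ∣ wH)
    (hv : v < q) (t : Fld m) :
    restOf (q ^ m) wH wD (setDig (wt q wH wD t) q j v) = restOf (q ^ m) wH wD j := by
  have hw := wt_pos hq hD hH t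
  have e : wD * q ^ m * (wH / (wD * q ^ m)) = wH := Nat.mul_div_cancel' h1
  unfold restOf
  rw [setDig_div_of_dvd hw hv (wt_dvd_top h1 t), setDig_mod_of_dvd (dvd_wt h1 t)]
  rcases t with i | j
  · rw [dig_setDig_lo (by rw [e]; exact dvd_wt_inl q wH wD i)]
  · rw [dig_setDig_hi hw hv (wt_inr_dvd q wH wD j)]

theorem setDig_wt_lt (hq : 0 < q) (g : Geo (q ^ m) wH wD n) (hv : v < q) (t : Fld m)
    (hj : j < n) : setDig (wt q wH wD t) q j v < n :=
  setDig_lt (wt_pos hq g.hD g.hH t) hv ((wt_dvd_top g.h1 t).trans g.h2) hj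

theorem natCast_inj_of_lt {x y : ℕ} (hx : x < q) (hy : y < q) (h : (x : ZMod q) = y) : x = y := by
  have := (ZMod.natCast_eq_natCast_iff' x y q).1 h
  rwa [Nat.mod_eq_of_lt hx, Nat.mod_eq_of_lt hy] at this

theorem idx_eq_of_addr (hq : 0 < q) (h1 : wD * q ^ m ∣ wH)
    (ha : addrOf m q wH wD j = addrOf m q wH wD j')
    (hr : restOf (q ^ m) wH wD j = restOf (q ^ m) wH wD j') : j = j' := by
  have hp : 0 < q ^ m := pow_pos hq m
  simp only [restOf, Prod.mk.injEq] at hr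
  have hd : ∀ f, dig (wt q wH wD f) q j = dig (wt q wH wD f) q j' := fun f =>
    natCast_inj_of_lt (dig_lt hq) (dig_lt hq) (congrFun ha f)
  refine idx_ext₂ (q ^ m) wH wD h1 hr.1 ?_ hr.2.1 ?_ hr.2.2
  · refine eq_of_digits (dig_lt hp) (dig_lt hp) fun k hk => ?_
    rw [dig_dig _ _ _ _ _ (pow_mul_dvd_pow q hk), dig_dig _ _ _ _ _ (pow_mul_dvd_pow q hk)]
    have := hd (.inl ⟨m - 1 - k, by omega⟩)
    simp only [wt] at this
    rwa [show m - 1 - (m - 1 - k) = k by omega] at this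
  · refine eq_of_digits (dig_lt hp) (dig_lt hp) fun k hk => ?_
    rw [dig_dig _ _ _ _ _ (pow_mul_dvd_pow q hk), dig_dig _ _ _ _ _ (pow_mul_dvd_pow q hk)]
    have := hd (.inr ⟨m - 1 - k, by omega⟩)
    simp only [wt] at this
    rwa [show m - 1 - (m - 1 - k) = k by omega] at this

theorem coefN_cast (hq : 0 < q) (c : ℤ) : (coefN q c : ZMod q) = (c : ZMod q) := by
  unfold coefN
  split_ifs with h
  · conv_rhs => rw [← Int.natAbs_of_nonneg h]
    rw [Int.cast_natCast]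
  · have h' : c = -(c.natAbs : ℤ) := by omega
    conv_rhs => rw [h']
    rw [Nat.cast_mul, Nat.cast_sub hq, ZMod.natCast_self]
    simp

theorem divN_spec {b x : ℕ} (hb : 0 < b) (hqb : q ≡ 1 [MOD b]) :
    b * divN q b x = x + (b - x % b) % b * q := by
  refine Nat.mul_div_cancel' ?_
  have h1 : x + (b - x % b) % b * q ≡ x % b + (b - x % b) * 1 [MOD b] :=
    (Nat.mod_modEq x b).symm.add ((Nat.mod_modEq _ b).mul hqb)
  have h2 : x % b + (b - x % b) * 1 = b := by
    have := Nat.mod_lt x hb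
    omega
  rw [h2] at h1
  exact (Nat.modEq_zero_iff_dvd).1 (h1.trans ((Nat.modEq_zero_iff_dvd).2 dvd_rfl))

theorem divN_lt {b x : ℕ} (hb : 0 < b) (hx : x < q) : divN q b x < q := by
  rw [divN, Nat.div_lt_iff_lt_mul hb]
  have h1 : (b - x % b) % b + 1 ≤ b := Nat.mod_lt _ hb
  have h2 : ((b - x % b) % b + 1) * q ≤ b * q := Nat.mul_le_mul_right _ h1
  rw [Nat.add_mul, Nat.one_mul, Nat.mul_comm b q] at h2
  omega

theorem divN_cast {b x : ℕ} (hb : 0 < b) (hqb : q ≡ 1 [MOD b]) :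
    (divN q b x : ZMod q) = (b : ZMod q)⁻¹ * x := by
  have h := congrArg (Nat.cast : ℕ → ZMod q) (divN_spec (x := x) hb hqb)
  simp only [Nat.cast_mul, Nat.cast_add, ZMod.natCast_self, mul_zero, add_zero] at h
  have hc : Nat.Coprime b q := by
    have : Nat.gcd q b = Nat.gcd 1 b := hqb.gcd_eq
    rw [Nat.Coprime, Nat.gcd_comm, this, Nat.gcd_one_left]
  have hu : (b : ZMod q)⁻¹ * b = 1 := by
    rw [mul_comm]; exact ZMod.coe_mul_inv_eq_one b hc
  rw [← h, ← mul_assoc, hu, one_mul]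

theorem divN_lt_divN {b x y : ℕ} (hb : 0 < b) (hqb : q ≡ 1 [MOD b]) (hxy : x < y)
    (h : x % b = y % b) : divN q b x < divN q b y := by
  have h1 := divN_spec (x := x) hb hqb
  have h2 := divN_spec (x := y) hb hqb
  rw [h] at h1
  refine Nat.lt_of_mul_lt_mul_left (a := b) ?_
  omega

/-- target field and new value of an operation -/
theorem opIdx_eq {Den : ℕ} (hq : 0 < q) (hDen : 0 < Den) (hqD : q ≡ 1 [MOD Den]) (op : FOp m)
    (hop : op.ok Den) (j : ℕ) : ∃ (t : Fld m) (v : ℕ), v < q ∧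
      opIdx q wH wD op j = setDig (wt q wH wD t) q j v ∧
      op.app q (addrOf m q wH wD j) = Function.update (addrOf m q wH wD j) t (v : ZMod q) := by
  rcases op with ⟨t, s, c⟩ | ⟨t, b⟩ | ⟨t, b⟩ | t
  · refine ⟨t, _, Nat.mod_lt _ hq, rfl, ?_⟩
    simp [FOp.app, addrOf, coefN_cast hq]
  · refine ⟨t, _, Nat.mod_lt _ hq, rfl, ?_⟩
    simp [FOp.app, addrOf]
  · have hb : 0 < b := Nat.pos_of_dvd_of_pos hop hDen
    refine ⟨t, _, divN_lt hb (dig_lt hq), rfl, ?_⟩
    rw [divN_cast hb (hqD.of_dvd hop)]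
    simp [FOp.app, addrOf]
  · refine ⟨t, _, Nat.mod_lt _ hq, rfl, ?_⟩
    rw [ZMod.natCast_mod, Nat.cast_sub (dig_lt hq).le, ZMod.natCast_self]
    simp [FOp.app, addrOf]

theorem addrOf_opIdx {Den : ℕ} (hq : 0 < q) (g : Geo (q ^ m) wH wD n) (hDen : 0 < Den)
    (hqD : q ≡ 1 [MOD Den]) (op : FOp m) (hop : op.ok Den) (j : ℕ) :
    addrOf m q wH wD (opIdx q wH wD op j) = op.app q (addrOf m q wH wD j) := by
  obtain ⟨t, v, hv, e1, e2⟩ := opIdx_eq (wH := wH) (wD := wD) hq hDen hqD op hop j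
  rw [e1, e2, addrOf_setDig hq g.hD g.hH g.h1 hv]

theorem restOf_opIdx {Den : ℕ} (hq : 0 < q) (g : Geo (q ^ m) wH wD n) (hDen : 0 < Den)
    (hqD : q ≡ 1 [MOD Den]) (op : FOp m) (hop : op.ok Den) (j : ℕ) :
    restOf (q ^ m) wH wD (opIdx q wH wD op j) = restOf (q ^ m) wH wD j := by
  obtain ⟨t, v, hv, e1, -⟩ := opIdx_eq (wH := wH) (wD := wD) hq hDen hqD op hop j
  rw [e1, restOf_setDig hq g.hD g.hH g.h1 hv]

theorem opIdx_lt {Den : ℕ} (hq : 0 < q) (g : Geo (q ^ m) wH wD n) (hDen : 0 < Den)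
    (hqD : q ≡ 1 [MOD Den]) (op : FOp m) (hop : op.ok Den) (hj : j < n) :
    opIdx q wH wD op j < n := by
  obtain ⟨t, v, hv, e1, -⟩ := opIdx_eq (wH := wH) (wD := wD) hq hDen hqD op hop j
  rw [e1]
  exact setDig_wt_lt hq g hv t hj

/-- the geometry of a child call -/
theorem Geo.child (hq : 0 < q) (g : Geo (q ^ m) wH wD n) (a b : Fin m) :
    Geo q (wt q wH wD (.inl a)) (wt q wH wD (.inr b)) n where
  hq := hq
  hD := wt_pos hq g.hD g.hH _
  hH := wt_pos hq g.hD g.hH _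
  h1 := wt_dvd_of_pos_lt g.h1 (by have := a.2; simp only [Fld.pos]; omega)
  h2 := (wt_dvd_top g.h1 _).trans g.h2

theorem Geo.swapIdx_lt {Q : ℕ} (g : Geo Q wH wD n) (hj : j < n) : swapIdx Q wH wD j < n :=
  A.swapIdx_lt g.hq g.hD g.hH g.h1 g.h2 hj

theorem addrOf_swapIdx_child (hq : 0 < q) (g : Geo (q ^ m) wH wD n) (a b : Fin m) (j : ℕ) :
    addrOf m q wH wD (swapIdx q (wt q wH wD (.inl a)) (wt q wH wD (.inr b)) j) =
      swapAddr a b (addrOf m q wH wD j) := by
  rw [swapIdx, addrOf_setDig hq g.hD g.hH g.h1 (dig_lt hq),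
    addrOf_setDig hq g.hD g.hH g.h1 (dig_lt hq)]
  funext f
  simp only [swapAddr, Function.comp_apply]
  by_cases h1 : f = .inl a
  · subst h1
    simp [addrOf]
  · by_cases h2 : f = .inr b
    · subst h2
      simp [addrOf]
    · rw [Function.update_of_ne h1, Function.update_of_ne h2, Equiv.swap_apply_of_ne_of_ne h1 h2]

theorem restOf_swapIdx_child (hq : 0 < q) (g : Geo (q ^ m) wH wD n) (a b : Fin m) (j : ℕ) :
    restOf (q ^ m) wH wD (swapIdx q (wt q wH wD (.inl a)) (wt q wH wD (.inr b)) j) =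
      restOf (q ^ m) wH wD j := by
  rw [swapIdx, restOf_setDig hq g.hD g.hH g.h1 (dig_lt hq),
    restOf_setDig hq g.hD g.hH g.h1 (dig_lt hq)]

theorem addrOf_swapIdx (g : Geo (q ^ m) wH wD n) (j : ℕ) :
    addrOf m q wH wD (swapIdx (q ^ m) wH wD j) = addrOf m q wH wD j ∘ Sum.swap := by
  funext f
  rcases f with i | i
  · have hk : q ^ (m - 1 - i) * q ∣ q ^ m := pow_mul_dvd_pow q (by have := i.2; omega)
    simp only [addrOf, wt, Function.comp_apply, Sum.swap_inl]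
    rw [← dig_dig _ _ _ _ _ hk, ← dig_dig _ _ _ _ _ hk, dig_swapIdx_H g.hq g.hH]
  · have hk : q ^ (m - 1 - i) * q ∣ q ^ m := pow_mul_dvd_pow q (by have := i.2; omega)
    simp only [addrOf, wt, Function.comp_apply, Sum.swap_inr]
    rw [← dig_dig _ _ _ _ _ hk, ← dig_dig _ _ _ _ _ hk, dig_swapIdx_D g.hq g.hD g.h1]

theorem restOf_swapIdx {Q : ℕ} (g : Geo Q wH wD n) (j : ℕ) :
    restOf Q wH wD (swapIdx Q wH wD j) = restOf Q wH wD j := by
  have e : wD * Q * (wH / (wD * Q)) = wH := Nat.mul_div_cancel' g.h1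
  unfold restOf
  rw [swapIdx_div g.hq g.hD g.hH g.h1, swapIdx_mod g.h1,
    dig_swapIdx_mid g.hq g.hD dvd_rfl (by rw [e])]

end

end Crest.Agent.X326.A
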